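import Vale.Agent.P032X.H892.LtH
import Vale.Agent.P032X.H286.W73
import Vale.Agent.P032X.Cert.XP.B1b.R0T
import Vale.Agent.P032X.Cert.XP.B1b.R0Q000
import Vale.Agent.P032X.Cert.XP.B1b.R0Q001
import Vale.Agent.P032X.Cert.XP.B1b.R0Q002
import Vale.Agent.P032X.Cert.XP.B1b.R0Q003
import Vale.Agent.P032X.Cert.XP.B1b.R0Q004

set_option maxRecDepth 1000000

namespace Vale.Agent.P032X.Cert.XP.B1b.R0H000

open Vale.Agent.P032.H820.K Vale.Agent.P032.H357.MK Vale.Agent.P032.H286.E Vale.Agent.P032.H61 Vale.Agent.P032X.Cert.XP.B1b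

noncomputable abbrev Fm : ℕ → List ℕ := Vale.Agent.P032.Fam.fam2 (Vale.Agent.P032.Fam.im0)

def CB : List ℕ := [0, 4, 8, 12, 16, 20, 24]

theorem eB : Vale.Agent.P032.Lt.eqLL (CB.map Fm) R0Q000.E = true := by decide +kernel

theorem p0 : Pat 73 73 TBm TCm (CB.map Fm) R0Q000.P0 R0Q000.I0 := Vale.Agent.P032.Lt.pat_eq (E' := R0Q000.E) eB (pat_step (by decide +kernel) (q_cons (Vale.Agent.P032.Lt.q R0Q000.q0_0) (q_cons (Vale.Agent.P032.Lt.q R0Q000.q0_1) (q_cons (Vale.Agent.P032.Lt.q R0Q000.q0_2) (q_cons (Vale.Agent.P032.Lt.q R0Q000.q0_3) (q_cons (Vale.Agent.P032.Lt.q R0Q000.q0_4) (q_cons (Vale.Agent.P032.Lt.q R0Q000.q0_5) (q_cons (Vale.Agent.P032.Lt.q R0Q000.q0_6) q_nil))))))))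

theorem p1 : Pat 73 73 TBm TCm (CB.map Fm) R0Q000.P1 R0Q000.I1 := Vale.Agent.P032.Lt.pat_eq (E' := R0Q000.E) eB (pat_step (by decide +kernel) (q_cons (Vale.Agent.P032.Lt.q R0Q000.q1_0) (q_cons (Vale.Agent.P032.Lt.q R0Q000.q1_1) (q_cons (Vale.Agent.P032.Lt.q R0Q000.q1_2) (q_cons (Vale.Agent.P032.Lt.q R0Q000.q1_3) (q_cons (Vale.Agent.P032.Lt.q R0Q000.q1_4) (q_cons (Vale.Agent.P032.Lt.q R0Q000.q1_5) (q_cons (Vale.Agent.P032.Lt.q R0Q000.q1_6) (q_cons (Vale.Agent.P032.Lt.q R0Q000.q1_7) (q_cons (Vale.Agent.P032.Lt.q R0Q000.q1_8) (q_cons (Vale.Agent.P032.Lt.q R0Q000.q1_9) (q_cons (Vale.Agent.P032.Lt.q R0Q000.q1_10) (q_cons (Vale.Agent.P032.Lt.q R0Q000.q1_11) (q_cons (Vale.Agent.P032.Lt.q R0Q000.q1_12) (q_cons (Vale.Agent.P032.Lt.q R0Q000.q1_13) (q_cons (Vale.Agent.P032.Lt.q R0Q000.q1_14) (q_cons (Vale.Agent.P032.Lt.q R0Q000.q1_15) q_nil)))))))))))))))))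

theorem p2 : Pat 73 73 TBm TCm (CB.map Fm) R0Q000.P2 R0Q000.I2 := Vale.Agent.P032.Lt.pat_eq (E' := R0Q000.E) eB (pat_step (by decide +kernel) (q_cons (Vale.Agent.P032.Lt.q R0Q000.q2_0) (q_cons (Vale.Agent.P032.Lt.q R0Q000.q2_1) q_nil)))

theorem p3 : Pat 73 73 TBm TCm (CB.map Fm) R0Q000.P3 [] := Vale.Agent.P032.Lt.pat_eq (E' := R0Q000.E) eB (pat_end (by decide +kernel) (Vale.Agent.P032.Lt.q R0Q000.q3))

def C4 : List ℕ := [0, 4, 8, 12, 16, 20, 24, 91137, 93185, 353281, 355329, 482305, 615425]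
theorem p4 : Pat 73 73 TBm TCm (C4.map Fm) R0Q000.P4 R0Q000.I4 := Vale.Agent.P032.Lt.pat_eq (E' := R0Q000.E4) (by decide +kernel) (pat_step (by decide +kernel) (q_cons (Vale.Agent.P032.Lt.q R0Q000.q4_0) q_nil))

theorem p5 : Pat 73 73 TBm TCm (CB.map Fm) R0Q000.P5 R0Q000.I5 := Vale.Agent.P032.Lt.pat_eq (E' := R0Q000.E) eB (pat_step (by decide +kernel) (q_cons (Vale.Agent.P032.Lt.q R0Q000.q5_0) (q_cons (Vale.Agent.P032.Lt.q R0Q000.q5_1) (q_cons (Vale.Agent.P032.Lt.q R0Q000.q5_2) (q_cons (Vale.Agent.P032.Lt.q R0Q000.q5_3) q_nil)))))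

theorem p6 : Pat 73 73 TBm TCm (CB.map Fm) R0Q000.P6 R0Q000.I6 := Vale.Agent.P032.Lt.pat_eq (E' := R0Q000.E) eB (pat_step (by decide +kernel) (q_cons (Vale.Agent.P032.Lt.q R0Q000.q6_0) (q_cons (Vale.Agent.P032.Lt.q R0Q000.q6_1) (q_cons (Vale.Agent.P032.Lt.q R0Q000.q6_2) (q_cons (Vale.Agent.P032.Lt.q R0Q000.q6_3) (q_cons (Vale.Agent.P032.Lt.q R0Q000.q6_4) (q_cons (Vale.Agent.P032.Lt.q R0Q000.q6_5) (q_cons (Vale.Agent.P032.Lt.q R0Q000.q6_6) (q_cons (Vale.Agent.P032.Lt.q R0Q000.q6_7) (q_cons (Vale.Agent.P032.Lt.q R0Q000.q6_8) q_nil))))))))))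

theorem p7 : Pat 73 73 TBm TCm (CB.map Fm) R0Q000.P7 R0Q000.I7 := Vale.Agent.P032.Lt.pat_eq (E' := R0Q000.E) eB (pat_step (by decide +kernel) (q_cons (Vale.Agent.P032.Lt.q R0Q000.q7_0) (q_cons (Vale.Agent.P032.Lt.q R0Q000.q7_1) (q_cons (Vale.Agent.P032.Lt.q R0Q000.q7_2) (q_cons (Vale.Agent.P032.Lt.q R0Q000.q7_3) (q_cons (Vale.Agent.P032.Lt.q R0Q000.q7_4) (q_cons (Vale.Agent.P032.Lt.q R0Q000.q7_5) (q_cons (Vale.Agent.P032.Lt.q R0Q000.q7_6) q_nil))))))))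

def C8 : List ℕ := [0, 4, 8, 12, 16, 20, 24, 475137, 606209, 737281]
theorem p8 : Pat 73 73 TBm TCm (C8.map Fm) R0Q000.P8 R0Q000.I8 := Vale.Agent.P032.Lt.pat_eq (E' := R0Q000.E8) (by decide +kernel) (pat_step (by decide +kernel) (q_cons (Vale.Agent.P032.Lt.q R0Q000.q8_0) q_nil))

theorem p9 : Pat 73 73 TBm TCm (CB.map Fm) R0Q000.P9 R0Q000.I9 := Vale.Agent.P032.Lt.pat_eq (E' := R0Q000.E) eB (pat_step (by decide +kernel) (q_cons (Vale.Agent.P032.Lt.q R0Q000.q9_0) q_nil))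

theorem p10 : Pat 73 73 TBm TCm (CB.map Fm) R0Q000.P10 R0Q000.I10 := Vale.Agent.P032.Lt.pat_eq (E' := R0Q000.E) eB (pat_step (by decide +kernel) (q_cons (Vale.Agent.P032.Lt.q R0Q000.q10_0) q_nil))

theorem p11 : Pat 73 73 TBm TCm (CB.map Fm) R0Q000.P11 R0Q000.I11 := Vale.Agent.P032.Lt.pat_eq (E' := R0Q000.E) eB (pat_step (by decide +kernel) (q_cons (Vale.Agent.P032.Lt.q R0Q000.q11_0) q_nil))

theorem p12 : Pat 73 73 TBm TCm (CB.map Fm) R0Q000.P12 R0Q000.I12 := Vale.Agent.P032.Lt.pat_eq (E' := R0Q000.E) eB (pat_step (by decide +kernel) (q_cons (Vale.Agent.P032.Lt.q R0Q000.q12_0) q_nil))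

theorem p13 : Pat 73 73 TBm TCm (CB.map Fm) R0Q000.P13 R0Q000.I13 := Vale.Agent.P032.Lt.pat_eq (E' := R0Q000.E) eB (pat_step (by decide +kernel) (q_cons (Vale.Agent.P032.Lt.q R0Q000.q13_0) (q_cons (Vale.Agent.P032.Lt.q R0Q000.q13_1) (q_cons (Vale.Agent.P032.Lt.q R0Q000.q13_2) q_nil))))

theorem p14 : Pat 73 73 TBm TCm (CB.map Fm) R0Q000.P14 R0Q000.I14 := Vale.Agent.P032.Lt.pat_eq (E' := R0Q000.E) eB (pat_step (by decide +kernel) (q_cons (Vale.Agent.P032.Lt.q R0Q000.q14_0) (q_cons (Vale.Agent.P032.Lt.q R0Q000.q14_1) (q_cons (Vale.Agent.P032.Lt.q R0Q000.q14_2) (q_cons (Vale.Agent.P032.Lt.q R0Q000.q14_3) (q_cons (Vale.Agent.P032.Lt.q R0Q000.q14_4) (q_cons (Vale.Agent.P032.Lt.q R0Q000.q14_5) (q_cons (Vale.Agent.P032.Lt.q R0Q000.q14_6) q_nil))))))))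

theorem p15 : Pat 73 73 TBm TCm (CB.map Fm) R0Q000.P15 R0Q000.I15 := Vale.Agent.P032.Lt.pat_eq (E' := R0Q000.E) eB (pat_step (by decide +kernel) (q_cons (Vale.Agent.P032.Lt.q R0Q000.q15_0) (q_cons (Vale.Agent.P032.Lt.q R0Q000.q15_1) q_nil)))

theorem p16 : Pat 73 73 TBm TCm (CB.map Fm) R0Q000.P16 R0Q000.I16 := Vale.Agent.P032.Lt.pat_eq (E' := R0Q000.E) eB (pat_step (by decide +kernel) (q_cons (Vale.Agent.P032.Lt.q R0Q000.q16_0) (q_cons (Vale.Agent.P032.Lt.q R0Q000.q16_1) (q_cons (Vale.Agent.P032.Lt.q R0Q000.q16_2) q_nil))))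

theorem p17 : Pat 73 73 TBm TCm (CB.map Fm) R0Q000.P17 [] := Vale.Agent.P032.Lt.pat_eq (E' := R0Q000.E) eB (pat_end (by decide +kernel) (Vale.Agent.P032.Lt.q R0Q000.q17))

theorem p18 : Pat 73 73 TBm TCm (CB.map Fm) R0Q000.P18 R0Q000.I18 := Vale.Agent.P032.Lt.pat_eq (E' := R0Q000.E) eB (pat_step (by decide +kernel) (q_cons (Vale.Agent.P032.Lt.q R0Q000.q18_0) q_nil))

theorem p19 : Pat 73 73 TBm TCm (CB.map Fm) R0Q000.P19 R0Q000.I19 := Vale.Agent.P032.Lt.pat_eq (E' := R0Q000.E) eB (pat_step (by decide +kernel) (q_cons (Vale.Agent.P032.Lt.q R0Q000.q19_0) (q_cons (Vale.Agent.P032.Lt.q R0Q000.q19_1) (q_cons (Vale.Agent.P032.Lt.q R0Q000.q19_2) q_nil))))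

theorem p20 : Pat 73 73 TBm TCm (CB.map Fm) R0Q000.P20 R0Q000.I20 := Vale.Agent.P032.Lt.pat_eq (E' := R0Q000.E) eB (pat_step (by decide +kernel) (q_cons (Vale.Agent.P032.Lt.q R0Q000.q20_0) q_nil))

theorem p21 : Pat 73 73 TBm TCm (CB.map Fm) R0Q001.P21 R0Q001.I21 := Vale.Agent.P032.Lt.pat_eq (E' := R0Q001.E) eB (pat_step (by decide +kernel) (q_cons (Vale.Agent.P032.Lt.q R0Q001.q21_0) (q_cons (Vale.Agent.P032.Lt.q R0Q001.q21_1) (q_cons (Vale.Agent.P032.Lt.q R0Q001.q21_2) (q_cons (Vale.Agent.P032.Lt.q R0Q001.q21_3) q_nil)))))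

theorem p22 : Pat 73 73 TBm TCm (CB.map Fm) R0Q001.P22 R0Q001.I22 := Vale.Agent.P032.Lt.pat_eq (E' := R0Q001.E) eB (pat_step (by decide +kernel) (q_cons (Vale.Agent.P032.Lt.q R0Q001.q22_0) q_nil))

theorem p23 : Pat 73 73 TBm TCm (CB.map Fm) R0Q001.P23 R0Q001.I23 := Vale.Agent.P032.Lt.pat_eq (E' := R0Q001.E) eB (pat_step (by decide +kernel) (q_cons (Vale.Agent.P032.Lt.q R0Q001.q23_0) (q_cons (Vale.Agent.P032.Lt.q R0Q001.q23_1) (q_cons (Vale.Agent.P032.Lt.q R0Q001.q23_2) (q_cons (Vale.Agent.P032.Lt.q R0Q001.q23_3) q_nil)))))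

theorem p24 : Pat 73 73 TBm TCm (CB.map Fm) R0Q001.P24 R0Q001.I24 := Vale.Agent.P032.Lt.pat_eq (E' := R0Q001.E) eB (pat_step (by decide +kernel) (q_cons (Vale.Agent.P032.Lt.q R0Q001.q24_0) q_nil))

theorem p25 : Pat 73 73 TBm TCm (CB.map Fm) R0Q001.P25 R0Q001.I25 := Vale.Agent.P032.Lt.pat_eq (E' := R0Q001.E) eB (pat_step (by decide +kernel) (q_cons (Vale.Agent.P032.Lt.q R0Q001.q25_0) q_nil))

theorem p26 : Pat 73 73 TBm TCm (CB.map Fm) R0Q001.P26 R0Q001.I26 := Vale.Agent.P032.Lt.pat_eq (E' := R0Q001.E) eB (pat_step (by decide +kernel) (q_cons (Vale.Agent.P032.Lt.q R0Q001.q26_0) (q_cons (Vale.Agent.P032.Lt.q R0Q001.q26_1) (q_cons (Vale.Agent.P032.Lt.q R0Q001.q26_2) (q_cons (Vale.Agent.P032.Lt.q R0Q001.q26_3) (q_cons (Vale.Agent.P032.Lt.q R0Q001.q26_4) (q_cons (Vale.Agent.P032.Lt.q R0Q001.q26_5) q_nil)))))))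

theorem p27 : Pat 73 73 TBm TCm (CB.map Fm) R0Q001.P27 R0Q001.I27 := Vale.Agent.P032.Lt.pat_eq (E' := R0Q001.E) eB (pat_step (by decide +kernel) (q_cons (Vale.Agent.P032.Lt.q R0Q001.q27_0) (q_cons (Vale.Agent.P032.Lt.q R0Q001.q27_1) q_nil)))

theorem p28 : Pat 73 73 TBm TCm (CB.map Fm) R0Q001.P28 R0Q001.I28 := Vale.Agent.P032.Lt.pat_eq (E' := R0Q001.E) eB (pat_step (by decide +kernel) (q_cons (Vale.Agent.P032.Lt.q R0Q001.q28_0) q_nil))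

theorem p29 : Pat 73 73 TBm TCm (CB.map Fm) R0Q001.P29 R0Q001.I29 := Vale.Agent.P032.Lt.pat_eq (E' := R0Q001.E) eB (pat_step (by decide +kernel) (q_cons (Vale.Agent.P032.Lt.q R0Q001.q29_0) q_nil))

theorem p30 : Pat 73 73 TBm TCm (CB.map Fm) R0Q001.P30 R0Q001.I30 := Vale.Agent.P032.Lt.pat_eq (E' := R0Q001.E) eB (pat_step (by decide +kernel) (q_cons (Vale.Agent.P032.Lt.q R0Q001.q30_0) (q_cons (Vale.Agent.P032.Lt.q R0Q001.q30_1) (q_cons (Vale.Agent.P032.Lt.q R0Q001.q30_2) q_nil))))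

theorem p31 : Pat 73 73 TBm TCm (CB.map Fm) R0Q001.P31 R0Q001.I31 := Vale.Agent.P032.Lt.pat_eq (E' := R0Q001.E) eB (pat_step (by decide +kernel) (q_cons (Vale.Agent.P032.Lt.q R0Q001.q31_0) q_nil))

theorem p32 : Pat 73 73 TBm TCm (CB.map Fm) R0Q001.P32 R0Q001.I32 := Vale.Agent.P032.Lt.pat_eq (E' := R0Q001.E) eB (pat_step (by decide +kernel) (q_cons (Vale.Agent.P032.Lt.q R0Q001.q32_0) (q_cons (Vale.Agent.P032.Lt.q R0Q001.q32_1) (q_cons (Vale.Agent.P032.Lt.q R0Q001.q32_2) (q_cons (Vale.Agent.P032.Lt.q R0Q001.q32_3) (q_cons (Vale.Agent.P032.Lt.q R0Q001.q32_4) (q_cons (Vale.Agent.P032.Lt.q R0Q001.q32_5) (q_cons (Vale.Agent.P032.Lt.q R0Q001.q32_6) (q_cons (Vale.Agent.P032.Lt.q R0Q001.q32_7) (q_cons (Vale.Agent.P032.Lt.q R0Q001.q32_8) (q_cons (Vale.Agent.P032.Lt.q R0Q001.q32_9) (q_cons (Vale.Agent.P032.Lt.q R0Q001.q32_10) (q_cons (Vale.Agent.P032.Lt.q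 R0Q001.q32_11) (q_cons (Vale.Agent.P032.Lt.q R0Q001.q32_12) (q_cons (Vale.Agent.P032.Lt.q R0Q001.q32_13) (q_cons (Vale.Agent.P032.Lt.q R0Q001.q32_14) (q_cons (Vale.Agent.P032.Lt.q R0Q001.q32_15) q_nil)))))))))))))))))

theorem p33 : Pat 73 73 TBm TCm (CB.map Fm) R0Q001.P33 R0Q001.I33 := Vale.Agent.P032.Lt.pat_eq (E' := R0Q001.E) eB (pat_step (by decide +kernel) (q_cons (Vale.Agent.P032.Lt.q R0Q001.q33_0) (q_cons (Vale.Agent.P032.Lt.q R0Q001.q33_1) (q_cons (Vale.Agent.P032.Lt.q R0Q001.q33_2) (q_cons (Vale.Agent.P032.Lt.q R0Q001.q33_3) q_nil)))))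

theorem p34 : Pat 73 73 TBm TCm (CB.map Fm) R0Q001.P34 R0Q001.I34 := Vale.Agent.P032.Lt.pat_eq (E' := R0Q001.E) eB (pat_step (by decide +kernel) (q_cons (Vale.Agent.P032.Lt.q R0Q001.q34_0) (q_cons (Vale.Agent.P032.Lt.q R0Q001.q34_1) (q_cons (Vale.Agent.P032.Lt.q R0Q001.q34_2) q_nil))))

theorem p35 : Pat 73 73 TBm TCm (CB.map Fm) R0Q001.P35 R0Q001.I35 := Vale.Agent.P032.Lt.pat_eq (E' := R0Q001.E) eB (pat_step (by decide +kernel) (q_cons (Vale.Agent.P032.Lt.q R0Q001.q35_0) (q_cons (Vale.Agent.P032.Lt.q R0Q001.q35_1) (q_cons (Vale.Agent.P032.Lt.q R0Q001.q35_2) q_nil))))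

theorem p36 : Pat 73 73 TBm TCm (CB.map Fm) R0Q001.P36 R0Q001.I36 := Vale.Agent.P032.Lt.pat_eq (E' := R0Q001.E) eB (pat_step (by decide +kernel) (q_cons (Vale.Agent.P032.Lt.q R0Q001.q36_0) (q_cons (Vale.Agent.P032.Lt.q R0Q001.q36_1) (q_cons (Vale.Agent.P032.Lt.q R0Q001.q36_2) (q_cons (Vale.Agent.P032.Lt.q R0Q001.q36_3) (q_cons (Vale.Agent.P032.Lt.q R0Q001.q36_4) (q_cons (Vale.Agent.P032.Lt.q R0Q001.q36_5) (q_cons (Vale.Agent.P032.Lt.q R0Q001.q36_6) (q_cons (Vale.Agent.P032.Lt.q R0Q001.q36_7) (q_cons (Vale.Agent.P032.Lt.q R0Q001.q36_8) (q_cons (Vale.Agent.P032.Lt.q R0Q001.q36_9) (q_cons (Vale.Agent.P032.Lt.q R0Q001.q36_10) (q_cons (Vale.Agent.P032.Lt.q R0Q001.q36_11) (q_cons (Vale.Agent.P032.Lt.q R0Q001.q36_12) (q_cons (Vale.Agent.P032.Lt.q R0Q001.q36_13) (q_cons (Vale.Agent.P032.Lt.q R0Q001.q36_14) (q_cons (Vale.Agent.P032.Lt.q R0Q001.q36_15)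 (q_cons (Vale.Agent.P032.Lt.q R0Q001.q36_16) (q_cons (Vale.Agent.P032.Lt.q R0Q001.q36_17) (q_cons (Vale.Agent.P032.Lt.q R0Q001.q36_18) q_nil))))))))))))))))))))

theorem p37 : Pat 73 73 TBm TCm (CB.map Fm) R0Q001.P37 R0Q001.I37 := Vale.Agent.P032.Lt.pat_eq (E' := R0Q001.E) eB (pat_step (by decide +kernel) (q_cons (Vale.Agent.P032.Lt.q R0Q001.q37_0) (q_cons (Vale.Agent.P032.Lt.q R0Q001.q37_1) (q_cons (Vale.Agent.P032.Lt.q R0Q001.q37_2) (q_cons (Vale.Agent.P032.Lt.q R0Q001.q37_3) (q_cons (Vale.Agent.P032.Lt.q R0Q001.q37_4) (q_cons (Vale.Agent.P032.Lt.q R0Q001.q37_5) (q_cons (Vale.Agent.P032.Lt.q R0Q001.q37_6) (q_cons (Vale.Agent.P032.Lt.q R0Q001.q37_7) (q_cons (Vale.Agent.P032.Lt.q R0Q001.q37_8) q_nil))))))))))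

def C38 : List ℕ := [0, 4, 8, 12, 16, 20, 24, 81921, 91137, 212993, 222209, 355329, 475137, 484353, 737281]
theorem p38 : Pat 73 73 TBm TCm (C38.map Fm) R0Q001.P38 R0Q001.I38 := Vale.Agent.P032.Lt.pat_eq (E' := R0Q001.E38) (by decide +kernel) (pat_step (by decide +kernel) (q_cons (Vale.Agent.P032.Lt.q R0Q001.q38_0) q_nil))

theorem p39 : Pat 73 73 TBm TCm (CB.map Fm) R0Q001.P39 R0Q001.I39 := Vale.Agent.P032.Lt.pat_eq (E' := R0Q001.E) eB (pat_step (by decide +kernel) (q_cons (Vale.Agent.P032.Lt.q R0Q001.q39_0) (q_cons (Vale.Agent.P032.Lt.q R0Q001.q39_1) q_nil)))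

theorem p40 : Pat 73 73 TBm TCm (CB.map Fm) R0Q001.P40 R0Q001.I40 := Vale.Agent.P032.Lt.pat_eq (E' := R0Q001.E) eB (pat_step (by decide +kernel) (q_cons (Vale.Agent.P032.Lt.q R0Q001.q40_0) q_nil))

theorem p41 : Pat 73 73 TBm TCm (CB.map Fm) R0Q001.P41 R0Q001.I41 := Vale.Agent.P032.Lt.pat_eq (E' := R0Q001.E) eB (pat_step (by decide +kernel) (q_cons (Vale.Agent.P032.Lt.q R0Q001.q41_0) q_nil))

def C42 : List ℕ := [0, 4, 8, 12, 16, 20, 24, 91137, 222209, 344065, 351233, 353281, 475137, 615425, 617473]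
theorem p42 : Pat 73 73 TBm TCm (C42.map Fm) R0Q001.P42 R0Q001.I42 := Vale.Agent.P032.Lt.pat_eq (E' := R0Q001.E42) (by decide +kernel) (pat_step (by decide +kernel) (q_cons (Vale.Agent.P032.Lt.q R0Q001.q42_0) q_nil))

theorem p43 : Pat 73 73 TBm TCm (CB.map Fm) R0Q001.P43 R0Q001.I43 := Vale.Agent.P032.Lt.pat_eq (E' := R0Q001.E) eB (pat_step (by decide +kernel) (q_cons (Vale.Agent.P032.Lt.q R0Q001.q43_0) q_nil))

def C44 : List ℕ := [0, 4, 8, 12, 16, 20, 24, 84993, 344065, 478209, 606209, 737281]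
theorem p44 : Pat 73 73 TBm TCm (C44.map Fm) R0Q001.P44 R0Q001.I44 := Vale.Agent.P032.Lt.pat_eq (E' := R0Q001.E44) (by decide +kernel) (pat_step (by decide +kernel) (q_cons (Vale.Agent.P032.Lt.q R0Q001.q44_0) (q_cons (Vale.Agent.P032.Lt.q R0Q001.q44_1) (q_cons (Vale.Agent.P032.Lt.q R0Q001.q44_2) q_nil))))

theorem p45 : Pat 73 73 TBm TCm (CB.map Fm) R0Q001.P45 R0Q001.I45 := Vale.Agent.P032.Lt.pat_eq (E' := R0Q001.E) eB (pat_step (by decide +kernel) (q_cons (Vale.Agent.P032.Lt.q R0Q001.q45_0) (q_cons (Vale.Agent.P032.Lt.q R0Q001.q45_1) (q_cons (Vale.Agent.P032.Lt.q R0Q001.q45_2) (q_cons (Vale.Agent.P032.Lt.q R0Q001.q45_3) (q_cons (Vale.Agent.P032.Lt.q R0Q001.q45_4) (q_cons (Vale.Agent.P032.Lt.q R0Q001.q45_5) (q_cons (Vale.Agent.P032.Lt.q R0Q001.q45_6) (q_cons (Vale.Agent.P032.Lt.q R0Q001.q45_7) (q_cons (Vale.Agent.P032.Lt.q R0Q001.q45_8) (q_cons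 (Vale.Agent.P032.Lt.q R0Q001.q45_9) (q_cons (Vale.Agent.P032.Lt.q R0Q001.q45_10) (q_cons (Vale.Agent.P032.Lt.q R0Q001.q45_11) (q_cons (Vale.Agent.P032.Lt.q R0Q001.q45_12) (q_cons (Vale.Agent.P032.Lt.q R0Q001.q45_13) (q_cons (Vale.Agent.P032.Lt.q R0Q001.q45_14) q_nil))))))))))))))))

theorem p46 : Pat 73 73 TBm TCm (CB.map Fm) R0Q001.P46 R0Q001.I46 := Vale.Agent.P032.Lt.pat_eq (E' := R0Q001.E) eB (pat_step (by decide +kernel) (q_cons (Vale.Agent.P032.Lt.q R0Q001.q46_0) q_nil))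

theorem p47 : Pat 73 73 TBm TCm (CB.map Fm) R0Q001.P47 R0Q001.I47 := Vale.Agent.P032.Lt.pat_eq (E' := R0Q001.E) eB (pat_step (by decide +kernel) (q_cons (Vale.Agent.P032.Lt.q R0Q001.q47_0) (q_cons (Vale.Agent.P032.Lt.q R0Q001.q47_1) q_nil)))

theorem p48 : Pat 73 73 TBm TCm (CB.map Fm) R0Q001.P48 R0Q001.I48 := Vale.Agent.P032.Lt.pat_eq (E' := R0Q001.E) eB (pat_step (by decide +kernel) (q_cons (Vale.Agent.P032.Lt.q R0Q001.q48_0) (q_cons (Vale.Agent.P032.Lt.q R0Q001.q48_1) (q_cons (Vale.Agent.P032.Lt.q R0Q001.q48_2) (q_cons (Vale.Agent.P032.Lt.q R0Q001.q48_3) (q_cons (Vale.Agent.P032.Lt.q R0Q001.q48_4) (q_cons (Vale.Agent.P032.Lt.q R0Q001.q48_5) (q_cons (Vale.Agent.P032.Lt.q R0Q001.q48_6) (q_cons (Vale.Agent.P032.Lt.q R0Q001.q48_7) q_nil)))))))))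

theorem p49 : Pat 73 73 TBm TCm (CB.map Fm) R0Q001.P49 R0Q001.I49 := Vale.Agent.P032.Lt.pat_eq (E' := R0Q001.E) eB (pat_step (by decide +kernel) (q_cons (Vale.Agent.P032.Lt.q R0Q001.q49_0) q_nil))

def C50 : List ℕ := [0, 4, 8, 12, 16, 20, 24, 476161, 606209, 737281]
theorem p50 : Pat 73 73 TBm TCm (C50.map Fm) R0Q001.P50 R0Q001.I50 := Vale.Agent.P032.Lt.pat_eq (E' := R0Q001.E50) (by decide +kernel) (pat_step (by decide +kernel) (q_cons (Vale.Agent.P032.Lt.q R0Q001.q50_0) q_nil))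

theorem p51 : Pat 73 73 TBm TCm (CB.map Fm) R0Q001.P51 R0Q001.I51 := Vale.Agent.P032.Lt.pat_eq (E' := R0Q001.E) eB (pat_step (by decide +kernel) (q_cons (Vale.Agent.P032.Lt.q R0Q001.q51_0) (q_cons (Vale.Agent.P032.Lt.q R0Q001.q51_1) (q_cons (Vale.Agent.P032.Lt.q R0Q001.q51_2) (q_cons (Vale.Agent.P032.Lt.q R0Q001.q51_3) (q_cons (Vale.Agent.P032.Lt.q R0Q001.q51_4) q_nil))))))

theorem p52 : Pat 73 73 TBm TCm (CB.map Fm) R0Q001.P52 R0Q001.I52 := Vale.Agent.P032.Lt.pat_eq (E' := R0Q001.E) eB (pat_step (by decide +kernel) (q_cons (Vale.Agent.P032.Lt.q R0Q001.q52_0) q_nil))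

theorem p53 : Pat 73 73 TBm TCm (CB.map Fm) R0Q002.P53 R0Q002.I53 := Vale.Agent.P032.Lt.pat_eq (E' := R0Q002.E) eB (pat_step (by decide +kernel) (q_cons (Vale.Agent.P032.Lt.q R0Q002.q53_0) (q_cons (Vale.Agent.P032.Lt.q R0Q002.q53_1) (q_cons (Vale.Agent.P032.Lt.q R0Q002.q53_2) (q_cons (Vale.Agent.P032.Lt.q R0Q002.q53_3) (q_cons (Vale.Agent.P032.Lt.q R0Q002.q53_4) (q_cons (Vale.Agent.P032.Lt.q R0Q002.q53_5) q_nil)))))))

theorem p54 : Pat 73 73 TBm TCm (CB.map Fm) R0Q002.P54 R0Q002.I54 := Vale.Agent.P032.Lt.pat_eq (E' := R0Q002.E) eB (pat_step (by decide +kernel) (q_cons (Vale.Agent.P032.Lt.q R0Q002.q54_0) (q_cons (Vale.Agent.P032.Lt.q R0Q002.q54_1) (q_cons (Vale.Agent.P032.Lt.q R0Q002.q54_2) (q_cons (Vale.Agent.P032.Lt.q R0Q002.q54_3) (q_cons (Vale.Agent.P032.Lt.q R0Q002.q54_4) q_nil))))))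

theorem p55 : Pat 73 73 TBm TCm (CB.map Fm) R0Q002.P55 R0Q002.I55 := Vale.Agent.P032.Lt.pat_eq (E' := R0Q002.E) eB (pat_step (by decide +kernel) (q_cons (Vale.Agent.P032.Lt.q R0Q002.q55_0) (q_cons (Vale.Agent.P032.Lt.q R0Q002.q55_1) (q_cons (Vale.Agent.P032.Lt.q R0Q002.q55_2) (q_cons (Vale.Agent.P032.Lt.q R0Q002.q55_3) (q_cons (Vale.Agent.P032.Lt.q R0Q002.q55_4) (q_cons (Vale.Agent.P032.Lt.q R0Q002.q55_5) (q_cons (Vale.Agent.P032.Lt.q R0Q002.q55_6) (q_cons (Vale.Agent.P032.Lt.q R0Q002.q55_7) (q_cons (Vale.Agent.P032.Lt.q R0Q002.q55_8) (q_cons (Vale.Agent.P032.Lt.q R0Q002.q55_9) (q_cons (Vale.Agent.P032.Lt.q R0Q002.q55_10) (q_cons (Vale.Agent.P032.Lt.q R0Q002.q55_11) (q_cons (Vale.Agent.P032.Lt.q R0Q002.q55_12) (q_cons (Vale.Agent.P032.Lt.q R0Q002.q55_13) (q_cons (Vale.Agent.P032.Lt.q R0Q002.q55_14) (q_cons (Vale.Agent.P032.Lt.q R0Q002.q55_15)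 (q_cons (Vale.Agent.P032.Lt.q R0Q002.q55_16) (q_cons (Vale.Agent.P032.Lt.q R0Q002.q55_17) (q_cons (Vale.Agent.P032.Lt.q R0Q002.q55_18) (q_cons (Vale.Agent.P032.Lt.q R0Q002.q55_19) (q_cons (Vale.Agent.P032.Lt.q R0Q002.q55_20) (q_cons (Vale.Agent.P032.Lt.q R0Q002.q55_21) (q_cons (Vale.Agent.P032.Lt.q R0Q002.q55_22) (q_cons (Vale.Agent.P032.Lt.q R0Q002.q55_23) (q_cons (Vale.Agent.P032.Lt.q R0Q002.q55_24) (q_cons (Vale.Agent.P032.Lt.q R0Q002.q55_25) q_nil)))))))))))))))))))))))))))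

theorem p56 : Pat 73 73 TBm TCm (CB.map Fm) R0Q002.P56 R0Q002.I56 := Vale.Agent.P032.Lt.pat_eq (E' := R0Q002.E) eB (pat_step (by decide +kernel) (q_cons (Vale.Agent.P032.Lt.q R0Q002.q56_0) (q_cons (Vale.Agent.P032.Lt.q R0Q002.q56_1) q_nil)))

def C57 : List ℕ := [0, 4, 8, 12, 16, 20, 24, 606209, 737281]
theorem p57 : Pat 73 73 TBm TCm (C57.map Fm) R0Q002.P57 R0Q002.I57 := Vale.Agent.P032.Lt.pat_eq (E' := R0Q002.E57) (by decide +kernel) (pat_step (by decide +kernel) (q_cons (Vale.Agent.P032.Lt.q R0Q002.q57_0) (q_cons (Vale.Agent.P032.Lt.q R0Q002.q57_1) q_nil)))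

theorem p58 : Pat 73 73 TBm TCm (CB.map Fm) R0Q002.P58 R0Q002.I58 := Vale.Agent.P032.Lt.pat_eq (E' := R0Q002.E) eB (pat_step (by decide +kernel) (q_cons (Vale.Agent.P032.Lt.q R0Q002.q58_0) q_nil))

theorem p59 : Pat 73 73 TBm TCm (CB.map Fm) R0Q002.P59 R0Q002.I59 := Vale.Agent.P032.Lt.pat_eq (E' := R0Q002.E) eB (pat_step (by decide +kernel) (q_cons (Vale.Agent.P032.Lt.q R0Q002.q59_0) (q_cons (Vale.Agent.P032.Lt.q R0Q002.q59_1) (q_cons (Vale.Agent.P032.Lt.q R0Q002.q59_2) (q_cons (Vale.Agent.P032.Lt.q R0Q002.q59_3) (q_cons (Vale.Agent.P032.Lt.q R0Q002.q59_4) q_nil))))))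

theorem p60 : Pat 73 73 TBm TCm (CB.map Fm) R0Q002.P60 R0Q002.I60 := Vale.Agent.P032.Lt.pat_eq (E' := R0Q002.E) eB (pat_step (by decide +kernel) (q_cons (Vale.Agent.P032.Lt.q R0Q002.q60_0) (q_cons (Vale.Agent.P032.Lt.q R0Q002.q60_1) (q_cons (Vale.Agent.P032.Lt.q R0Q002.q60_2) (q_cons (Vale.Agent.P032.Lt.q R0Q002.q60_3) (q_cons (Vale.Agent.P032.Lt.q R0Q002.q60_4) (q_cons (Vale.Agent.P032.Lt.q R0Q002.q60_5) q_nil)))))))

theorem p61 : Pat 73 73 TBm TCm (CB.map Fm) R0Q002.P61 R0Q002.I61 := Vale.Agent.P032.Lt.pat_eq (E' := R0Q002.E) eB (pat_step (by decide +kernel) (q_cons (Vale.Agent.P032.Lt.q R0Q002.q61_0) (q_cons (Vale.Agent.P032.Lt.q R0Q002.q61_1) (q_cons (Vale.Agent.P032.Lt.q R0Q002.q61_2) (q_cons (Vale.Agent.P032.Lt.q R0Q002.q61_3) q_nil)))))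

theorem p62 : Pat 73 73 TBm TCm (CB.map Fm) R0Q002.P62 R0Q002.I62 := Vale.Agent.P032.Lt.pat_eq (E' := R0Q002.E) eB (pat_step (by decide +kernel) (q_cons (Vale.Agent.P032.Lt.q R0Q002.q62_0) (q_cons (Vale.Agent.P032.Lt.q R0Q002.q62_1) (q_cons (Vale.Agent.P032.Lt.q R0Q002.q62_2) (q_cons (Vale.Agent.P032.Lt.q R0Q002.q62_3) (q_cons (Vale.Agent.P032.Lt.q R0Q002.q62_4) (q_cons (Vale.Agent.P032.Lt.q R0Q002.q62_5) (q_cons (Vale.Agent.P032.Lt.q R0Q002.q62_6) (q_cons (Vale.Agent.P032.Lt.q R0Q002.q62_7) (q_cons (Vale.Agent.P032.Lt.q R0Q002.q62_8) (q_cons (Vale.Agent.P032.Lt.q R0Q002.q62_9) (q_cons (Vale.Agent.P032.Lt.q R0Q002.q62_10) (q_cons (Vale.Agent.P032.Lt.q R0Q002.q62_11) (q_cons (Vale.Agent.P032.Lt.q R0Q002.q62_12) (q_cons (Vale.Agent.P032.Lt.q R0Q002.q62_13) q_nil)))))))))))))))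

theorem p63 : Pat 73 73 TBm TCm (CB.map Fm) R0Q002.P63 R0Q002.I63 := Vale.Agent.P032.Lt.pat_eq (E' := R0Q002.E) eB (pat_step (by decide +kernel) (q_cons (Vale.Agent.P032.Lt.q R0Q002.q63_0) q_nil))

theorem p64 : Pat 73 73 TBm TCm (CB.map Fm) R0Q002.P64 R0Q002.I64 := Vale.Agent.P032.Lt.pat_eq (E' := R0Q002.E) eB (pat_step (by decide +kernel) (q_cons (Vale.Agent.P032.Lt.q R0Q002.q64_0) (q_cons (Vale.Agent.P032.Lt.q R0Q002.q64_1) (q_cons (Vale.Agent.P032.Lt.q R0Q002.q64_2) (q_cons (Vale.Agent.P032.Lt.q R0Q002.q64_3) q_nil)))))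

theorem p65 : Pat 73 73 TBm TCm (CB.map Fm) R0Q002.P65 R0Q002.I65 := Vale.Agent.P032.Lt.pat_eq (E' := R0Q002.E) eB (pat_step (by decide +kernel) (q_cons (Vale.Agent.P032.Lt.q R0Q002.q65_0) (q_cons (Vale.Agent.P032.Lt.q R0Q002.q65_1) q_nil)))

theorem p66 : Pat 73 73 TBm TCm (CB.map Fm) R0Q002.P66 R0Q002.I66 := Vale.Agent.P032.Lt.pat_eq (E' := R0Q002.E) eB (pat_step (by decide +kernel) (q_cons (Vale.Agent.P032.Lt.q R0Q002.q66_0) q_nil))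

theorem p67 : Pat 73 73 TBm TCm (CB.map Fm) R0Q002.P67 R0Q002.I67 := Vale.Agent.P032.Lt.pat_eq (E' := R0Q002.E) eB (pat_step (by decide +kernel) (q_cons (Vale.Agent.P032.Lt.q R0Q002.q67_0) (q_cons (Vale.Agent.P032.Lt.q R0Q002.q67_1) (q_cons (Vale.Agent.P032.Lt.q R0Q002.q67_2) q_nil))))

theorem p68 : Pat 73 73 TBm TCm (CB.map Fm) R0Q002.P68 R0Q002.I68 := Vale.Agent.P032.Lt.pat_eq (E' := R0Q002.E) eB (pat_step (by decide +kernel) (q_cons (Vale.Agent.P032.Lt.q R0Q002.q68_0) q_nil))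

theorem p69 : Pat 73 73 TBm TCm (CB.map Fm) R0Q002.P69 R0Q002.I69 := Vale.Agent.P032.Lt.pat_eq (E' := R0Q002.E) eB (pat_step (by decide +kernel) (q_cons (Vale.Agent.P032.Lt.q R0Q002.q69_0) q_nil))

theorem p70 : Pat 73 73 TBm TCm (CB.map Fm) R0Q002.P70 R0Q002.I70 := Vale.Agent.P032.Lt.pat_eq (E' := R0Q002.E) eB (pat_step (by decide +kernel) (q_cons (Vale.Agent.P032.Lt.q R0Q002.q70_0) (q_cons (Vale.Agent.P032.Lt.q R0Q002.q70_1) (q_cons (Vale.Agent.P032.Lt.q R0Q002.q70_2) (q_cons (Vale.Agent.P032.Lt.q R0Q002.q70_3) (q_cons (Vale.Agent.P032.Lt.q R0Q002.q70_4) (q_cons (Vale.Agent.P032.Lt.q R0Q002.q70_5) (q_cons (Vale.Agent.P032.Lt.q R0Q002.q70_6) (q_cons (Vale.Agent.P032.Lt.q R0Q002.q70_7) q_nil)))))))))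

theorem p71 : Pat 73 73 TBm TCm (CB.map Fm) R0Q002.P71 R0Q002.I71 := Vale.Agent.P032.Lt.pat_eq (E' := R0Q002.E) eB (pat_step (by decide +kernel) (q_cons (Vale.Agent.P032.Lt.q R0Q002.q71_0) (q_cons (Vale.Agent.P032.Lt.q R0Q002.q71_1) q_nil)))

theorem p72 : Pat 73 73 TBm TCm (CB.map Fm) R0Q002.P72 R0Q002.I72 := Vale.Agent.P032.Lt.pat_eq (E' := R0Q002.E) eB (pat_step (by decide +kernel) (q_cons (Vale.Agent.P032.Lt.q R0Q002.q72_0) q_nil))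

theorem p73 : Pat 73 73 TBm TCm (CB.map Fm) R0Q002.P73 R0Q002.I73 := Vale.Agent.P032.Lt.pat_eq (E' := R0Q002.E) eB (pat_step (by decide +kernel) (q_cons (Vale.Agent.P032.Lt.q R0Q002.q73_0) q_nil))

theorem p74 : Pat 73 73 TBm TCm (CB.map Fm) R0Q002.P74 R0Q002.I74 := Vale.Agent.P032.Lt.pat_eq (E' := R0Q002.E) eB (pat_step (by decide +kernel) (q_cons (Vale.Agent.P032.Lt.q R0Q002.q74_0) q_nil))

theorem p75 : Pat 73 73 TBm TCm (CB.map Fm) R0Q002.P75 R0Q002.I75 := Vale.Agent.P032.Lt.pat_eq (E' := R0Q002.E) eB (pat_step (by decide +kernel) (q_cons (Vale.Agent.P032.Lt.q R0Q002.q75_0) q_nil))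

theorem p76 : Pat 73 73 TBm TCm (CB.map Fm) R0Q002.P76 R0Q002.I76 := Vale.Agent.P032.Lt.pat_eq (E' := R0Q002.E) eB (pat_step (by decide +kernel) (q_cons (Vale.Agent.P032.Lt.q R0Q002.q76_0) (q_cons (Vale.Agent.P032.Lt.q R0Q002.q76_1) (q_cons (Vale.Agent.P032.Lt.q R0Q002.q76_2) (q_cons (Vale.Agent.P032.Lt.q R0Q002.q76_3) q_nil)))))

theorem p77 : Pat 73 73 TBm TCm (CB.map Fm) R0Q002.P77 R0Q002.I77 := Vale.Agent.P032.Lt.pat_eq (E' := R0Q002.E) eB (pat_step (by decide +kernel) (q_cons (Vale.Agent.P032.Lt.q R0Q002.q77_0) (q_cons (Vale.Agent.P032.Lt.q R0Q002.q77_1) (q_cons (Vale.Agent.P032.Lt.q R0Q002.q77_2) (q_cons (Vale.Agent.P032.Lt.q R0Q002.q77_3) q_nil)))))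

theorem p78 : Pat 73 73 TBm TCm (CB.map Fm) R0Q002.P78 R0Q002.I78 := Vale.Agent.P032.Lt.pat_eq (E' := R0Q002.E) eB (pat_step (by decide +kernel) (q_cons (Vale.Agent.P032.Lt.q R0Q002.q78_0) (q_cons (Vale.Agent.P032.Lt.q R0Q002.q78_1) q_nil)))

theorem p79 : Pat 73 73 TBm TCm (CB.map Fm) R0Q002.P79 R0Q002.I79 := Vale.Agent.P032.Lt.pat_eq (E' := R0Q002.E) eB (pat_step (by decide +kernel) (q_cons (Vale.Agent.P032.Lt.q R0Q002.q79_0) (q_cons (Vale.Agent.P032.Lt.q R0Q002.q79_1) (q_cons (Vale.Agent.P032.Lt.q R0Q002.q79_2) (q_cons (Vale.Agent.P032.Lt.q R0Q002.q79_3) (q_cons (Vale.Agent.P032.Lt.q R0Q002.q79_4) (q_cons (Vale.Agent.P032.Lt.q R0Q002.q79_5) (q_cons (Vale.Agent.P032.Lt.q R0Q002.q79_6) (q_cons (Vale.Agent.P032.Lt.q R0Q002.q79_7) (q_cons (Vale.Agent.P032.Lt.q R0Q002.q79_8) (q_cons (Vale.Agent.P032.Lt.q R0Q002.q79_9) q_nil)))))))))))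

theorem p80 : Pat 73 73 TBm TCm (CB.map Fm) R0Q002.P80 R0Q002.I80 := Vale.Agent.P032.Lt.pat_eq (E' := R0Q002.E) eB (pat_step (by decide +kernel) (q_cons (Vale.Agent.P032.Lt.q R0Q002.q80_0) q_nil))

theorem p81 : Pat 73 73 TBm TCm (CB.map Fm) R0Q002.P81 R0Q002.I81 := Vale.Agent.P032.Lt.pat_eq (E' := R0Q002.E) eB (pat_step (by decide +kernel) (q_cons (Vale.Agent.P032.Lt.q R0Q002.q81_0) q_nil))

theorem p82 : Pat 73 73 TBm TCm (CB.map Fm) R0Q002.P82 R0Q002.I82 := Vale.Agent.P032.Lt.pat_eq (E' := R0Q002.E) eB (pat_step (by decide +kernel) (q_cons (Vale.Agent.P032.Lt.q R0Q002.q82_0) (q_cons (Vale.Agent.P032.Lt.q R0Q002.q82_1) (q_cons (Vale.Agent.P032.Lt.q R0Q002.q82_2) (q_cons (Vale.Agent.P032.Lt.q R0Q002.q82_3) (q_cons (Vale.Agent.P032.Lt.q R0Q002.q82_4) (q_cons (Vale.Agent.P032.Lt.q R0Q002.q82_5) (q_cons (Vale.Agent.P032.Lt.q R0Q002.q82_6) (q_cons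 (Vale.Agent.P032.Lt.q R0Q002.q82_7) (q_cons (Vale.Agent.P032.Lt.q R0Q002.q82_8) (q_cons (Vale.Agent.P032.Lt.q R0Q002.q82_9) q_nil)))))))))))

theorem p83 : Pat 73 73 TBm TCm (CB.map Fm) R0Q002.P83 R0Q002.I83 := Vale.Agent.P032.Lt.pat_eq (E' := R0Q002.E) eB (pat_step (by decide +kernel) (q_cons (Vale.Agent.P032.Lt.q R0Q002.q83_0) (q_cons (Vale.Agent.P032.Lt.q R0Q002.q83_1) (q_cons (Vale.Agent.P032.Lt.q R0Q002.q83_2) (q_cons (Vale.Agent.P032.Lt.q R0Q002.q83_3) q_nil)))))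

theorem p84 : Pat 73 73 TBm TCm (CB.map Fm) R0Q002.P84 R0Q002.I84 := Vale.Agent.P032.Lt.pat_eq (E' := R0Q002.E) eB (pat_step (by decide +kernel) (q_cons (Vale.Agent.P032.Lt.q R0Q002.q84_0) (q_cons (Vale.Agent.P032.Lt.q R0Q002.q84_1) (q_cons (Vale.Agent.P032.Lt.q R0Q002.q84_2) (q_cons (Vale.Agent.P032.Lt.q R0Q002.q84_3) (q_cons (Vale.Agent.P032.Lt.q R0Q002.q84_4) (q_cons (Vale.Agent.P032.Lt.q R0Q002.q84_5) (q_cons (Vale.Agent.P032.Lt.q R0Q002.q84_6) (q_cons (Vale.Agent.P032.Lt.q R0Q002.q84_7) (q_cons (Vale.Agent.P032.Lt.q R0Q002.q84_8) (q_cons (Vale.Agent.P032.Lt.q R0Q002.q84_9) q_nil)))))))))))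

theorem p85 : Pat 73 73 TBm TCm (CB.map Fm) R0Q002.P85 R0Q002.I85 := Vale.Agent.P032.Lt.pat_eq (E' := R0Q002.E) eB (pat_step (by decide +kernel) (q_cons (Vale.Agent.P032.Lt.q R0Q002.q85_0) (q_cons (Vale.Agent.P032.Lt.q R0Q002.q85_1) q_nil)))

theorem p86 : Pat 73 73 TBm TCm (CB.map Fm) R0Q002.P86 R0Q002.I86 := Vale.Agent.P032.Lt.pat_eq (E' := R0Q002.E) eB (pat_step (by decide +kernel) (q_cons (Vale.Agent.P032.Lt.q R0Q002.q86_0) q_nil))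

theorem p87 : Pat 73 73 TBm TCm (CB.map Fm) R0Q002.P87 R0Q002.I87 := Vale.Agent.P032.Lt.pat_eq (E' := R0Q002.E) eB (pat_step (by decide +kernel) (q_cons (Vale.Agent.P032.Lt.q R0Q002.q87_0) (q_cons (Vale.Agent.P032.Lt.q R0Q002.q87_1) (q_cons (Vale.Agent.P032.Lt.q R0Q002.q87_2) (q_cons (Vale.Agent.P032.Lt.q R0Q002.q87_3) q_nil)))))

theorem p88 : Pat 73 73 TBm TCm (CB.map Fm) R0Q002.P88 R0Q002.I88 := Vale.Agent.P032.Lt.pat_eq (E' := R0Q002.E) eB (pat_step (by decide +kernel) (q_cons (Vale.Agent.P032.Lt.q R0Q002.q88_0) (q_cons (Vale.Agent.P032.Lt.q R0Q002.q88_1) (q_cons (Vale.Agent.P032.Lt.q R0Q002.q88_2) (q_cons (Vale.Agent.P032.Lt.q R0Q002.q88_3) (q_cons (Vale.Agent.P032.Lt.q R0Q002.q88_4) (q_cons (Vale.Agent.P032.Lt.q R0Q002.q88_5) q_nil)))))))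

theorem p89 : Pat 73 73 TBm TCm (CB.map Fm) R0Q002.P89 R0Q002.I89 := Vale.Agent.P032.Lt.pat_eq (E' := R0Q002.E) eB (pat_step (by decide +kernel) (q_cons (Vale.Agent.P032.Lt.q R0Q002.q89_0) (q_cons (Vale.Agent.P032.Lt.q R0Q002.q89_1) (q_cons (Vale.Agent.P032.Lt.q R0Q002.q89_2) (q_cons (Vale.Agent.P032.Lt.q R0Q002.q89_3) (q_cons (Vale.Agent.P032.Lt.q R0Q002.q89_4) (q_cons (Vale.Agent.P032.Lt.q R0Q002.q89_5) (q_cons (Vale.Agent.P032.Lt.q R0Q002.q89_6) q_nil))))))))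

theorem p90 : Pat 73 73 TBm TCm (CB.map Fm) R0Q003.P90 R0Q003.I90 := Vale.Agent.P032.Lt.pat_eq (E' := R0Q003.E) eB (pat_step (by decide +kernel) (q_cons (Vale.Agent.P032.Lt.q R0Q003.q90_0) (q_cons (Vale.Agent.P032.Lt.q R0Q003.q90_1) (q_cons (Vale.Agent.P032.Lt.q R0Q003.q90_2) (q_cons (Vale.Agent.P032.Lt.q R0Q003.q90_3) (q_cons (Vale.Agent.P032.Lt.q R0Q003.q90_4) (q_cons (Vale.Agent.P032.Lt.q R0Q003.q90_5) (q_cons (Vale.Agent.P032.Lt.q R0Q003.q90_6) (q_cons (Vale.Agent.P032.Lt.q R0Q003.q90_7) (q_cons (Vale.Agent.P032.Lt.q R0Q003.q90_8) (q_cons (Vale.Agent.P032.Lt.q R0Q003.q90_9) (q_cons (Vale.Agent.P032.Lt.q R0Q003.q90_10) q_nil))))))))))))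

theorem p91 : Pat 73 73 TBm TCm (CB.map Fm) R0Q003.P91 R0Q003.I91 := Vale.Agent.P032.Lt.pat_eq (E' := R0Q003.E) eB (pat_step (by decide +kernel) (q_cons (Vale.Agent.P032.Lt.q R0Q003.q91_0) (q_cons (Vale.Agent.P032.Lt.q R0Q003.q91_1) (q_cons (Vale.Agent.P032.Lt.q R0Q003.q91_2) (q_cons (Vale.Agent.P032.Lt.q R0Q003.q91_3) (q_cons (Vale.Agent.P032.Lt.q R0Q003.q91_4) (q_cons (Vale.Agent.P032.Lt.q R0Q003.q91_5) (q_cons (Vale.Agent.P032.Lt.q R0Q003.q91_6) (q_cons (Vale.Agent.P032.Lt.q R0Q003.q91_7) q_nil)))))))))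

theorem p92 : Pat 73 73 TBm TCm (CB.map Fm) R0Q003.P92 R0Q003.I92 := Vale.Agent.P032.Lt.pat_eq (E' := R0Q003.E) eB (pat_step (by decide +kernel) (q_cons (Vale.Agent.P032.Lt.q R0Q003.q92_0) (q_cons (Vale.Agent.P032.Lt.q R0Q003.q92_1) (q_cons (Vale.Agent.P032.Lt.q R0Q003.q92_2) q_nil))))

theorem p93 : Pat 73 73 TBm TCm (CB.map Fm) R0Q003.P93 R0Q003.I93 := Vale.Agent.P032.Lt.pat_eq (E' := R0Q003.E) eB (pat_step (by decide +kernel) (q_cons (Vale.Agent.P032.Lt.q R0Q003.q93_0) q_nil))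

theorem p94 : Pat 73 73 TBm TCm (CB.map Fm) R0Q003.P94 R0Q003.I94 := Vale.Agent.P032.Lt.pat_eq (E' := R0Q003.E) eB (pat_step (by decide +kernel) (q_cons (Vale.Agent.P032.Lt.q R0Q003.q94_0) (q_cons (Vale.Agent.P032.Lt.q R0Q003.q94_1) q_nil)))

def C95 : List ℕ := [0, 4, 8, 12, 16, 20, 24, 216065, 355329, 606209, 737281]
theorem p95 : Pat 73 73 TBm TCm (C95.map Fm) R0Q003.P95 R0Q003.I95 := Vale.Agent.P032.Lt.pat_eq (E' := R0Q003.E95) (by decide +kernel) (pat_step (by decide +kernel) (q_cons (Vale.Agent.P032.Lt.q R0Q003.q95_0) (q_cons (Vale.Agent.P032.Lt.q R0Q003.q95_1) (q_cons (Vale.Agent.P032.Lt.q R0Q003.q95_2) (q_cons (Vale.Agent.P032.Lt.q R0Q003.q95_3) (q_cons (Vale.Agent.P032.Lt.q R0Q003.q95_4) (q_cons (Vale.Agent.P032.Lt.q R0Q003.q95_5) q_nil)))))))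

theorem p96 : Pat 73 73 TBm TCm (CB.map Fm) R0Q003.P96 R0Q003.I96 := Vale.Agent.P032.Lt.pat_eq (E' := R0Q003.E) eB (pat_step (by decide +kernel) (q_cons (Vale.Agent.P032.Lt.q R0Q003.q96_0) (q_cons (Vale.Agent.P032.Lt.q R0Q003.q96_1) (q_cons (Vale.Agent.P032.Lt.q R0Q003.q96_2) (q_cons (Vale.Agent.P032.Lt.q R0Q003.q96_3) q_nil)))))

theorem p97 : Pat 73 73 TBm TCm (CB.map Fm) R0Q003.P97 R0Q003.I97 := Vale.Agent.P032.Lt.pat_eq (E' := R0Q003.E) eB (pat_step (by decide +kernel) (q_cons (Vale.Agent.P032.Lt.q R0Q003.q97_0) (q_cons (Vale.Agent.P032.Lt.q R0Q003.q97_1) (q_cons (Vale.Agent.P032.Lt.q R0Q003.q97_2) q_nil))))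

theorem p98 : Pat 73 73 TBm TCm (CB.map Fm) R0Q003.P98 R0Q003.I98 := Vale.Agent.P032.Lt.pat_eq (E' := R0Q003.E) eB (pat_step (by decide +kernel) (q_cons (Vale.Agent.P032.Lt.q R0Q003.q98_0) q_nil))

theorem p99 : Pat 73 73 TBm TCm (CB.map Fm) R0Q003.P99 R0Q003.I99 := Vale.Agent.P032.Lt.pat_eq (E' := R0Q003.E) eB (pat_step (by decide +kernel) (q_cons (Vale.Agent.P032.Lt.q R0Q003.q99_0) (q_cons (Vale.Agent.P032.Lt.q R0Q003.q99_1) (q_cons (Vale.Agent.P032.Lt.q R0Q003.q99_2) q_nil))))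

theorem p100 : Pat 73 73 TBm TCm (CB.map Fm) R0Q003.P100 R0Q003.I100 := Vale.Agent.P032.Lt.pat_eq (E' := R0Q003.E) eB (pat_step (by decide +kernel) (q_cons (Vale.Agent.P032.Lt.q R0Q003.q100_0) (q_cons (Vale.Agent.P032.Lt.q R0Q003.q100_1) (q_cons (Vale.Agent.P032.Lt.q R0Q003.q100_2) (q_cons (Vale.Agent.P032.Lt.q R0Q003.q100_3) (q_cons (Vale.Agent.P032.Lt.q R0Q003.q100_4) q_nil))))))

theorem p101 : Pat 73 73 TBm TCm (CB.map Fm) R0Q003.P101 R0Q003.I101 := Vale.Agent.P032.Lt.pat_eq (E' := R0Q003.E) eB (pat_step (by decide +kernel) (q_cons (Vale.Agent.P032.Lt.q R0Q003.q101_0) (q_cons (Vale.Agent.P032.Lt.q R0Q003.q101_1) (q_cons (Vale.Agent.P032.Lt.q R0Q003.q101_2) (q_cons (Vale.Agent.P032.Lt.q R0Q003.q101_3) (q_cons (Vale.Agent.P032.Lt.q R0Q003.q101_4) (q_cons (Vale.Agent.P032.Lt.q R0Q003.q101_5) (q_cons (Vale.Agent.P032.Lt.q R0Q003.q101_6) (q_cons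 (Vale.Agent.P032.Lt.q R0Q003.q101_7) (q_cons (Vale.Agent.P032.Lt.q R0Q003.q101_8) (q_cons (Vale.Agent.P032.Lt.q R0Q003.q101_9) (q_cons (Vale.Agent.P032.Lt.q R0Q003.q101_10) (q_cons (Vale.Agent.P032.Lt.q R0Q003.q101_11) (q_cons (Vale.Agent.P032.Lt.q R0Q003.q101_12) (q_cons (Vale.Agent.P032.Lt.q R0Q003.q101_13) (q_cons (Vale.Agent.P032.Lt.q R0Q003.q101_14) (q_cons (Vale.Agent.P032.Lt.q R0Q003.q101_15) (q_cons (Vale.Agent.P032.Lt.q R0Q003.q101_16) (q_cons (Vale.Agent.P032.Lt.q R0Q003.q101_17) (q_cons (Vale.Agent.P032.Lt.q R0Q003.q101_18) (q_cons (Vale.Agent.P032.Lt.q R0Q003.q101_19) (q_cons (Vale.Agent.P032.Lt.q R0Q003.q101_20) (q_cons (Vale.Agent.P032.Lt.q R0Q003.q101_21) (q_cons (Vale.Agent.P032.Lt.q R0Q003.q101_22) (q_cons (Vale.Agent.P032.Lt.q R0Q003.q101_23) (q_cons (Vale.Agent.P032.Lt.q R0Q003.q101_24) (q_cons (Vale.Agent.P032.Lt.q R0Q003.q101_25)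 (q_cons (Vale.Agent.P032.Lt.q R0Q003.q101_26) (q_cons (Vale.Agent.P032.Lt.q R0Q003.q101_27) (q_cons (Vale.Agent.P032.Lt.q R0Q003.q101_28) (q_cons (Vale.Agent.P032.Lt.q R0Q003.q101_29) q_nil)))))))))))))))))))))))))))))))

theorem p102 : Pat 73 73 TBm TCm (CB.map Fm) R0Q003.P102 R0Q003.I102 := Vale.Agent.P032.Lt.pat_eq (E' := R0Q003.E) eB (pat_step (by decide +kernel) (q_cons (Vale.Agent.P032.Lt.q R0Q003.q102_0) (q_cons (Vale.Agent.P032.Lt.q R0Q003.q102_1) (q_cons (Vale.Agent.P032.Lt.q R0Q003.q102_2) (q_cons (Vale.Agent.P032.Lt.q R0Q003.q102_3) (q_cons (Vale.Agent.P032.Lt.q R0Q003.q102_4) (q_cons (Vale.Agent.P032.Lt.q R0Q003.q102_5) (q_cons (Vale.Agent.P032.Lt.q R0Q003.q102_6) (q_cons (Vale.Agent.P032.Lt.q R0Q003.q102_7) (q_cons (Vale.Agent.P032.Lt.q R0Q003.q102_8) (q_cons (Vale.Agent.P032.Lt.q R0Q003.q102_9) (q_cons (Vale.Agent.P032.Lt.q R0Q003.q102_10)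 (q_cons (Vale.Agent.P032.Lt.q R0Q003.q102_11) (q_cons (Vale.Agent.P032.Lt.q R0Q003.q102_12) (q_cons (Vale.Agent.P032.Lt.q R0Q003.q102_13) (q_cons (Vale.Agent.P032.Lt.q R0Q003.q102_14) (q_cons (Vale.Agent.P032.Lt.q R0Q003.q102_15) q_nil)))))))))))))))))

theorem p103 : Pat 73 73 TBm TCm (CB.map Fm) R0Q003.P103 R0Q003.I103 := Vale.Agent.P032.Lt.pat_eq (E' := R0Q003.E) eB (pat_step (by decide +kernel) (q_cons (Vale.Agent.P032.Lt.q R0Q003.q103_0) q_nil))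

theorem p104 : Pat 73 73 TBm TCm (CB.map Fm) R0Q003.P104 R0Q003.I104 := Vale.Agent.P032.Lt.pat_eq (E' := R0Q003.E) eB (pat_step (by decide +kernel) (q_cons (Vale.Agent.P032.Lt.q R0Q003.q104_0) (q_cons (Vale.Agent.P032.Lt.q R0Q003.q104_1) q_nil)))

theorem p105 : Pat 73 73 TBm TCm (CB.map Fm) R0Q003.P105 R0Q003.I105 := Vale.Agent.P032.Lt.pat_eq (E' := R0Q003.E) eB (pat_step (by decide +kernel) (q_cons (Vale.Agent.P032.Lt.q R0Q003.q105_0) q_nil))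

theorem p106 : Pat 73 73 TBm TCm (CB.map Fm) R0Q003.P106 R0Q003.I106 := Vale.Agent.P032.Lt.pat_eq (E' := R0Q003.E) eB (pat_step (by decide +kernel) (q_cons (Vale.Agent.P032.Lt.q R0Q003.q106_0) (q_cons (Vale.Agent.P032.Lt.q R0Q003.q106_1) q_nil)))

theorem p107 : Pat 73 73 TBm TCm (CB.map Fm) R0Q003.P107 R0Q003.I107 := Vale.Agent.P032.Lt.pat_eq (E' := R0Q003.E) eB (pat_step (by decide +kernel) (q_cons (Vale.Agent.P032.Lt.q R0Q003.q107_0) (q_cons (Vale.Agent.P032.Lt.q R0Q003.q107_1) (q_cons (Vale.Agent.P032.Lt.q R0Q003.q107_2) (q_cons (Vale.Agent.P032.Lt.q R0Q003.q107_3) (q_cons (Vale.Agent.P032.Lt.q R0Q003.q107_4) (q_cons (Vale.Agent.P032.Lt.q R0Q003.q107_5) (q_cons (Vale.Agent.P032.Lt.q R0Q003.q107_6) (q_cons (Vale.Agent.P032.Lt.q R0Q003.q107_7) (q_cons (Vale.Agent.P032.Lt.q R0Q003.q107_8) (q_cons (Vale.Agent.P032.Lt.q R0Q003.q107_9) (q_cons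 (Vale.Agent.P032.Lt.q R0Q003.q107_10) (q_cons (Vale.Agent.P032.Lt.q R0Q003.q107_11) (q_cons (Vale.Agent.P032.Lt.q R0Q003.q107_12) (q_cons (Vale.Agent.P032.Lt.q R0Q003.q107_13) (q_cons (Vale.Agent.P032.Lt.q R0Q003.q107_14) (q_cons (Vale.Agent.P032.Lt.q R0Q003.q107_15) (q_cons (Vale.Agent.P032.Lt.q R0Q003.q107_16) (q_cons (Vale.Agent.P032.Lt.q R0Q003.q107_17) (q_cons (Vale.Agent.P032.Lt.q R0Q003.q107_18) (q_cons (Vale.Agent.P032.Lt.q R0Q003.q107_19) (q_cons (Vale.Agent.P032.Lt.q R0Q003.q107_20) (q_cons (Vale.Agent.P032.Lt.q R0Q003.q107_21) (q_cons (Vale.Agent.P032.Lt.q R0Q003.q107_22) (q_cons (Vale.Agent.P032.Lt.q R0Q003.q107_23) (q_cons (Vale.Agent.P032.Lt.q R0Q003.q107_24) (q_cons (Vale.Agent.P032.Lt.q R0Q003.q107_25) (q_cons (Vale.Agent.P032.Lt.q R0Q003.q107_26) (q_cons (Vale.Agent.P032.Lt.q R0Q003.q107_27) (q_cons (Vale.Agent.P032.Lt.q R0Q003.q107_28)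 q_nil))))))))))))))))))))))))))))))

theorem p108 : Pat 73 73 TBm TCm (CB.map Fm) R0Q003.P108 R0Q003.I108 := Vale.Agent.P032.Lt.pat_eq (E' := R0Q003.E) eB (pat_step (by decide +kernel) (q_cons (Vale.Agent.P032.Lt.q R0Q003.q108_0) q_nil))

theorem p109 : Pat 73 73 TBm TCm (CB.map Fm) R0Q003.P109 R0Q003.I109 := Vale.Agent.P032.Lt.pat_eq (E' := R0Q003.E) eB (pat_step (by decide +kernel) (q_cons (Vale.Agent.P032.Lt.q R0Q003.q109_0) (q_cons (Vale.Agent.P032.Lt.q R0Q003.q109_1) (q_cons (Vale.Agent.P032.Lt.q R0Q003.q109_2) q_nil))))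

theorem p110 : Pat 73 73 TBm TCm (CB.map Fm) R0Q003.P110 R0Q003.I110 := Vale.Agent.P032.Lt.pat_eq (E' := R0Q003.E) eB (pat_step (by decide +kernel) (q_cons (Vale.Agent.P032.Lt.q R0Q003.q110_0) (q_cons (Vale.Agent.P032.Lt.q R0Q003.q110_1) (q_cons (Vale.Agent.P032.Lt.q R0Q003.q110_2) (q_cons (Vale.Agent.P032.Lt.q R0Q003.q110_3) (q_cons (Vale.Agent.P032.Lt.q R0Q003.q110_4) (q_cons (Vale.Agent.P032.Lt.q R0Q003.q110_5) (q_cons (Vale.Agent.P032.Lt.q R0Q003.q110_6) (q_cons (Vale.Agent.P032.Lt.q R0Q003.q110_7) q_nil)))))))))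

theorem p111 : Pat 73 73 TBm TCm (CB.map Fm) R0Q003.P111 R0Q003.I111 := Vale.Agent.P032.Lt.pat_eq (E' := R0Q003.E) eB (pat_step (by decide +kernel) (q_cons (Vale.Agent.P032.Lt.q R0Q003.q111_0) (q_cons (Vale.Agent.P032.Lt.q R0Q003.q111_1) (q_cons (Vale.Agent.P032.Lt.q R0Q003.q111_2) (q_cons (Vale.Agent.P032.Lt.q R0Q003.q111_3) (q_cons (Vale.Agent.P032.Lt.q R0Q003.q111_4) (q_cons (Vale.Agent.P032.Lt.q R0Q003.q111_5) (q_cons (Vale.Agent.P032.Lt.q R0Q003.q111_6) (q_cons (Vale.Agent.P032.Lt.q R0Q003.q111_7) q_nil)))))))))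

theorem p112 : Pat 73 73 TBm TCm (CB.map Fm) R0Q003.P112 R0Q003.I112 := Vale.Agent.P032.Lt.pat_eq (E' := R0Q003.E) eB (pat_step (by decide +kernel) (q_cons (Vale.Agent.P032.Lt.q R0Q003.q112_0) (q_cons (Vale.Agent.P032.Lt.q R0Q003.q112_1) (q_cons (Vale.Agent.P032.Lt.q R0Q003.q112_2) q_nil))))

theorem p113 : Pat 73 73 TBm TCm (CB.map Fm) R0Q003.P113 R0Q003.I113 := Vale.Agent.P032.Lt.pat_eq (E' := R0Q003.E) eB (pat_step (by decide +kernel) (q_cons (Vale.Agent.P032.Lt.q R0Q003.q113_0) (q_cons (Vale.Agent.P032.Lt.q R0Q003.q113_1) (q_cons (Vale.Agent.P032.Lt.q R0Q003.q113_2) (q_cons (Vale.Agent.P032.Lt.q R0Q003.q113_3) q_nil)))))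

def C114 : List ℕ := [0, 4, 8, 12, 16, 20, 24, 214017, 737281]
theorem p114 : Pat 73 73 TBm TCm (C114.map Fm) R0Q003.P114 R0Q003.I114 := Vale.Agent.P032.Lt.pat_eq (E' := R0Q003.E114) (by decide +kernel) (pat_step (by decide +kernel) (q_cons (Vale.Agent.P032.Lt.q R0Q003.q114_0) (q_cons (Vale.Agent.P032.Lt.q R0Q003.q114_1) q_nil)))

theorem p115 : Pat 73 73 TBm TCm (CB.map Fm) R0Q003.P115 R0Q003.I115 := Vale.Agent.P032.Lt.pat_eq (E' := R0Q003.E) eB (pat_step (by decide +kernel) (q_cons (Vale.Agent.P032.Lt.q R0Q003.q115_0) (q_cons (Vale.Agent.P032.Lt.q R0Q003.q115_1) q_nil)))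

theorem p116 : Pat 73 73 TBm TCm (CB.map Fm) R0Q003.P116 R0Q003.I116 := Vale.Agent.P032.Lt.pat_eq (E' := R0Q003.E) eB (pat_step (by decide +kernel) (q_cons (Vale.Agent.P032.Lt.q R0Q003.q116_0) (q_cons (Vale.Agent.P032.Lt.q R0Q003.q116_1) (q_cons (Vale.Agent.P032.Lt.q R0Q003.q116_2) q_nil))))

theorem p117 : Pat 73 73 TBm TCm (CB.map Fm) R0Q003.P117 R0Q003.I117 := Vale.Agent.P032.Lt.pat_eq (E' := R0Q003.E) eB (pat_step (by decide +kernel) (q_cons (Vale.Agent.P032.Lt.q R0Q003.q117_0) q_nil))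

theorem p118 : Pat 73 73 TBm TCm (CB.map Fm) R0Q004.P118 R0Q004.I118 := Vale.Agent.P032.Lt.pat_eq (E' := R0Q004.E) eB (pat_step (by decide +kernel) (q_cons (Vale.Agent.P032.Lt.q R0Q004.q118_0) (q_cons (Vale.Agent.P032.Lt.q R0Q004.q118_1) (q_cons (Vale.Agent.P032.Lt.q R0Q004.q118_2) (q_cons (Vale.Agent.P032.Lt.q R0Q004.q118_3) (q_cons (Vale.Agent.P032.Lt.q R0Q004.q118_4) (q_cons (Vale.Agent.P032.Lt.q R0Q004.q118_5) (q_cons (Vale.Agent.P032.Lt.q R0Q004.q118_6) q_nil))))))))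

theorem p119 : Pat 73 73 TBm TCm (CB.map Fm) R0Q004.P119 R0Q004.I119 := Vale.Agent.P032.Lt.pat_eq (E' := R0Q004.E) eB (pat_step (by decide +kernel) (q_cons (Vale.Agent.P032.Lt.q R0Q004.q119_0) (q_cons (Vale.Agent.P032.Lt.q R0Q004.q119_1) q_nil)))

theorem p120 : Pat 73 73 TBm TCm (CB.map Fm) R0Q004.P120 R0Q004.I120 := Vale.Agent.P032.Lt.pat_eq (E' := R0Q004.E) eB (pat_step (by decide +kernel) (q_cons (Vale.Agent.P032.Lt.q R0Q004.q120_0) (q_cons (Vale.Agent.P032.Lt.q R0Q004.q120_1) (q_cons (Vale.Agent.P032.Lt.q R0Q004.q120_2) (q_cons (Vale.Agent.P032.Lt.q R0Q004.q120_3) (q_cons (Vale.Agent.P032.Lt.q R0Q004.q120_4) (q_cons (Vale.Agent.P032.Lt.q R0Q004.q120_5) (q_cons (Vale.Agent.P032.Lt.q R0Q004.q120_6) (q_cons (Vale.Agent.P032.Lt.q R0Q004.q120_7) (q_cons (Vale.Agent.P032.Lt.q R0Q004.q120_8) (q_cons (Vale.Agent.P032.Lt.q R0Q004.q120_9) q_nil)))))))))))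

theorem p121 : Pat 73 73 TBm TCm (CB.map Fm) R0Q004.P121 R0Q004.I121 := Vale.Agent.P032.Lt.pat_eq (E' := R0Q004.E) eB (pat_step (by decide +kernel) (q_cons (Vale.Agent.P032.Lt.q R0Q004.q121_0) (q_cons (Vale.Agent.P032.Lt.q R0Q004.q121_1) (q_cons (Vale.Agent.P032.Lt.q R0Q004.q121_2) (q_cons (Vale.Agent.P032.Lt.q R0Q004.q121_3) (q_cons (Vale.Agent.P032.Lt.q R0Q004.q121_4) (q_cons (Vale.Agent.P032.Lt.q R0Q004.q121_5) (q_cons (Vale.Agent.P032.Lt.q R0Q004.q121_6) (q_cons (Vale.Agent.P032.Lt.q R0Q004.q121_7) (q_cons (Vale.Agent.P032.Lt.q R0Q004.q121_8) (q_cons (Vale.Agent.P032.Lt.q R0Q004.q121_9) (q_cons (Vale.Agent.P032.Lt.q R0Q004.q121_10) (q_cons (Vale.Agent.P032.Lt.q R0Q004.q121_11) (q_cons (Vale.Agent.P032.Lt.q R0Q004.q121_12) (q_cons (Vale.Agent.P032.Lt.q R0Q004.q121_13) (q_cons (Vale.Agent.P032.Lt.q R0Q004.q121_14) (q_cons (Vale.Agent.P032.Lt.q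 R0Q004.q121_15) (q_cons (Vale.Agent.P032.Lt.q R0Q004.q121_16) (q_cons (Vale.Agent.P032.Lt.q R0Q004.q121_17) (q_cons (Vale.Agent.P032.Lt.q R0Q004.q121_18) (q_cons (Vale.Agent.P032.Lt.q R0Q004.q121_19) (q_cons (Vale.Agent.P032.Lt.q R0Q004.q121_20) (q_cons (Vale.Agent.P032.Lt.q R0Q004.q121_21) (q_cons (Vale.Agent.P032.Lt.q R0Q004.q121_22) (q_cons (Vale.Agent.P032.Lt.q R0Q004.q121_23) (q_cons (Vale.Agent.P032.Lt.q R0Q004.q121_24) (q_cons (Vale.Agent.P032.Lt.q R0Q004.q121_25) (q_cons (Vale.Agent.P032.Lt.q R0Q004.q121_26) (q_cons (Vale.Agent.P032.Lt.q R0Q004.q121_27) q_nil)))))))))))))))))))))))))))))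

theorem p122 : Pat 73 73 TBm TCm (CB.map Fm) R0Q004.P122 R0Q004.I122 := Vale.Agent.P032.Lt.pat_eq (E' := R0Q004.E) eB (pat_step (by decide +kernel) (q_cons (Vale.Agent.P032.Lt.q R0Q004.q122_0) (q_cons (Vale.Agent.P032.Lt.q R0Q004.q122_1) (q_cons (Vale.Agent.P032.Lt.q R0Q004.q122_2) (q_cons (Vale.Agent.P032.Lt.q R0Q004.q122_3) (q_cons (Vale.Agent.P032.Lt.q R0Q004.q122_4) (q_cons (Vale.Agent.P032.Lt.q R0Q004.q122_5) (q_cons (Vale.Agent.P032.Lt.q R0Q004.q122_6) (q_cons (Vale.Agent.P032.Lt.q R0Q004.q122_7) (q_cons (Vale.Agent.P032.Lt.q R0Q004.q122_8) q_nil))))))))))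

theorem p123 : Pat 73 73 TBm TCm (CB.map Fm) R0Q004.P123 R0Q004.I123 := Vale.Agent.P032.Lt.pat_eq (E' := R0Q004.E) eB (pat_step (by decide +kernel) (q_cons (Vale.Agent.P032.Lt.q R0Q004.q123_0) (q_cons (Vale.Agent.P032.Lt.q R0Q004.q123_1) (q_cons (Vale.Agent.P032.Lt.q R0Q004.q123_2) (q_cons (Vale.Agent.P032.Lt.q R0Q004.q123_3) (q_cons (Vale.Agent.P032.Lt.q R0Q004.q123_4) (q_cons (Vale.Agent.P032.Lt.q R0Q004.q123_5) (q_cons (Vale.Agent.P032.Lt.q R0Q004.q123_6) (q_cons (Vale.Agent.P032.Lt.q R0Q004.q123_7) (q_cons (Vale.Agent.P032.Lt.q R0Q004.q123_8) q_nil))))))))))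

theorem p124 : Pat 73 73 TBm TCm (CB.map Fm) R0Q004.P124 R0Q004.I124 := Vale.Agent.P032.Lt.pat_eq (E' := R0Q004.E) eB (pat_step (by decide +kernel) (q_cons (Vale.Agent.P032.Lt.q R0Q004.q124_0) (q_cons (Vale.Agent.P032.Lt.q R0Q004.q124_1) q_nil)))

theorem p125 : Pat 73 73 TBm TCm (CB.map Fm) R0Q004.P125 R0Q004.I125 := Vale.Agent.P032.Lt.pat_eq (E' := R0Q004.E) eB (pat_step (by decide +kernel) (q_cons (Vale.Agent.P032.Lt.q R0Q004.q125_0) (q_cons (Vale.Agent.P032.Lt.q R0Q004.q125_1) q_nil)))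

theorem p126 : Pat 73 73 TBm TCm (CB.map Fm) R0Q004.P126 R0Q004.I126 := Vale.Agent.P032.Lt.pat_eq (E' := R0Q004.E) eB (pat_step (by decide +kernel) (q_cons (Vale.Agent.P032.Lt.q R0Q004.q126_0) q_nil))

theorem p127 : Pat 73 73 TBm TCm (CB.map Fm) R0Q004.P127 R0Q004.I127 := Vale.Agent.P032.Lt.pat_eq (E' := R0Q004.E) eB (pat_step (by decide +kernel) (q_cons (Vale.Agent.P032.Lt.q R0Q004.q127_0) q_nil))

def L : List (List ℕ) := [R0Q000.P0, R0Q000.P1, R0Q000.P2, R0Q000.P3, R0Q000.P4, R0Q000.P5, R0Q000.P6, R0Q000.P7, R0Q000.P8, R0Q000.P9, R0Q000.P10, R0Q000.P11, R0Q000.P12, R0Q000.P13, R0Q000.P14, R0Q000.P15, R0Q000.P16, R0Q000.P17, R0Q000.P18, R0Q000.P19, R0Q000.P20, R0Q001.P21, R0Q001.P22, R0Q001.P23, R0Q001.P24, R0Q001.P25, R0Q001.P26, R0Q001.P27, R0Q001.P28, R0Q001.P29, R0Q001.P30, R0Q001.P31, R0Q001.P32, R0Q001.P33, R0Q001.P34, R0Q001.P35,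 R0Q001.P36, R0Q001.P37, R0Q001.P38, R0Q001.P39, R0Q001.P40, R0Q001.P41, R0Q001.P42, R0Q001.P43, R0Q001.P44, R0Q001.P45, R0Q001.P46, R0Q001.P47, R0Q001.P48, R0Q001.P49, R0Q001.P50, R0Q001.P51, R0Q001.P52, R0Q002.P53, R0Q002.P54, R0Q002.P55, R0Q002.P56, R0Q002.P57, R0Q002.P58, R0Q002.P59, R0Q002.P60, R0Q002.P61, R0Q002.P62, R0Q002.P63, R0Q002.P64, R0Q002.P65, R0Q002.P66, R0Q002.P67, R0Q002.P68, R0Q002.P69, R0Q002.P70, R0Q002.P71, R0Q002.P72, R0Q002.P73, R0Q002.P74, R0Q002.P75, R0Q002.P76, R0Q002.P77, R0Q002.P78, R0Q002.P79, R0Q002.P80, R0Q002.P81, R0Q002.P82, R0Q002.P83, R0Q002.P84, R0Q002.P85, R0Q002.P86, R0Q002.P87, R0Q002.P88, R0Q002.P89, R0Q003.P90, R0Q003.P91, R0Q003.P92, R0Q003.P93, R0Q003.P94, R0Q003.P95, R0Q003.P96, R0Q003.P97, R0Q003.P98, R0Q003.P99, R0Q003.P100, R0Q003.P101, R0Q003.P102, R0Q003.P103, R0Q003.P104, R0Q003.P105, R0Q003.P106,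 R0Q003.P107, R0Q003.P108, R0Q003.P109, R0Q003.P110, R0Q003.P111, R0Q003.P112, R0Q003.P113, R0Q003.P114, R0Q003.P115, R0Q003.P116, R0Q003.P117, R0Q004.P118, R0Q004.P119, R0Q004.P120, R0Q004.P121, R0Q004.P122, R0Q004.P123, R0Q004.P124, R0Q004.P125, R0Q004.P126, R0Q004.P127]

theorem all : ∀ P ∈ L, CrtF 73 73 TBm TCm (Vale.Agent.P032.Fam.fam2 (Vale.Agent.P032.Fam.im0)) P := crtF_cons p0 (crtF_cons p1 (crtF_cons p2 (crtF_cons p3 (crtF_cons p4 (crtF_cons p5 (crtF_cons p6 (crtF_cons p7 (crtF_cons p8 (crtF_cons p9 (crtF_cons p10 (crtF_cons p11 (crtF_cons p12 (crtF_cons p13 (crtF_cons p14 (crtF_cons p15 (crtF_cons p16 (crtF_cons p17 (crtF_cons p18 (crtF_cons p19 (crtF_cons p20 (crtF_cons p21 (crtF_cons p22 (crtF_cons p23 (crtF_cons p24 (crtF_cons p25 (crtF_cons p26 (crtF_cons p27 (crtF_cons p28 (crtF_cons p29 (crtF_cons p30 (crtF_cons p31 (crtF_cons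 p32 (crtF_cons p33 (crtF_cons p34 (crtF_cons p35 (crtF_cons p36 (crtF_cons p37 (crtF_cons p38 (crtF_cons p39 (crtF_cons p40 (crtF_cons p41 (crtF_cons p42 (crtF_cons p43 (crtF_cons p44 (crtF_cons p45 (crtF_cons p46 (crtF_cons p47 (crtF_cons p48 (crtF_cons p49 (crtF_cons p50 (crtF_cons p51 (crtF_cons p52 (crtF_cons p53 (crtF_cons p54 (crtF_cons p55 (crtF_cons p56 (crtF_cons p57 (crtF_cons p58 (crtF_cons p59 (crtF_cons p60 (crtF_cons p61 (crtF_cons p62 (crtF_cons p63 (crtF_cons p64 (crtF_cons p65 (crtF_cons p66 (crtF_cons p67 (crtF_cons p68 (crtF_cons p69 (crtF_cons p70 (crtF_cons p71 (crtF_cons p72 (crtF_cons p73 (crtF_cons p74 (crtF_cons p75 (crtF_cons p76 (crtF_cons p77 (crtF_cons p78 (crtF_cons p79 (crtF_cons p80 (crtF_cons p81 (crtF_cons p82 (crtF_cons p83 (crtF_cons p84 (crtF_cons p85 (crtF_cons p86 (crtF_cons p87 (crtF_cons p88 (crtF_cons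 p89 (crtF_cons p90 (crtF_cons p91 (crtF_cons p92 (crtF_cons p93 (crtF_cons p94 (crtF_cons p95 (crtF_cons p96 (crtF_cons p97 (crtF_cons p98 (crtF_cons p99 (crtF_cons p100 (crtF_cons p101 (crtF_cons p102 (crtF_cons p103 (crtF_cons p104 (crtF_cons p105 (crtF_cons p106 (crtF_cons p107 (crtF_cons p108 (crtF_cons p109 (crtF_cons p110 (crtF_cons p111 (crtF_cons p112 (crtF_cons p113 (crtF_cons p114 (crtF_cons p115 (crtF_cons p116 (crtF_cons p117 (crtF_cons p118 (crtF_cons p119 (crtF_cons p120 (crtF_cons p121 (crtF_cons p122 (crtF_cons p123 (crtF_cons p124 (crtF_cons p125 (crtF_cons p126 (crtF_cons p127 crtF_nil)))))))))))))))))))))))))))))))))))))))))))))))))))))))))))))))))))))))))))))))))))))))))))))))))))))))))))))))))))))))))))))))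

theorem ch : chT 73 73 TCm s0_000 L = true := by decide +kernel

end Vale.Agent.P032X.Cert.XP.B1b.R0H000
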