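import Vale.Agent.P032X.H892.LtH
import Vale.Agent.P032X.H286.W73
import Vale.Agent.P032X.Cert.XP.B1b.R0T
import Vale.Agent.P032X.Cert.XP.B1b.R0Q005
import Vale.Agent.P032X.Cert.XP.B1b.R0Q006
import Vale.Agent.P032X.Cert.XP.B1b.R0Q007
import Vale.Agent.P032X.Cert.XP.B1b.R0Q008
import Vale.Agent.P032X.Cert.XP.B1b.R0Q009
import Vale.Agent.P032X.Cert.XP.B1b.R0Q010

set_option maxRecDepth 1000000

namespace Vale.Agent.P032X.Cert.XP.B1b.R0H001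

open Vale.Agent.P032.H820.K Vale.Agent.P032.H357.MK Vale.Agent.P032.H286.E Vale.Agent.P032.H61 Vale.Agent.P032X.Cert.XP.B1b

noncomputable abbrev Fm : ℕ → List ℕ := Vale.Agent.P032.Fam.fam2 (Vale.Agent.P032.Fam.im0)

def CB : List ℕ := [0, 4, 8, 12, 16, 20, 24]

theorem eB : Vale.Agent.P032.Lt.eqLL (CB.map Fm) R0Q005.E = true := by decide +kernel

theorem p128 : Pat 73 73 TBm TCm (CB.map Fm) R0Q005.P128 R0Q005.I128 := Vale.Agent.P032.Lt.pat_eq (E' := R0Q005.E) eB (pat_step (by decide +kernel) (q_cons (Vale.Agent.P032.Lt.q R0Q005.q128_0) (q_cons (Vale.Agent.P032.Lt.q R0Q005.q128_1) (q_cons (Vale.Agent.P032.Lt.q R0Q005.q128_2) (q_cons (Vale.Agent.P032.Lt.q R0Q005.q128_3) (q_cons (Vale.Agent.P032.Lt.q R0Q005.q128_4) (q_cons (Vale.Agent.P032.Lt.q R0Q005.q128_5) (q_cons (Vale.Agent.P032.Lt.q R0Q005.q128_6) (q_cons (Vale.Agent.P032.Lt.q R0Q005.q128_7) (q_cons (Vale.Agent.P032.Lt.q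 R0Q005.q128_8) (q_cons (Vale.Agent.P032.Lt.q R0Q005.q128_9) (q_cons (Vale.Agent.P032.Lt.q R0Q005.q128_10) (q_cons (Vale.Agent.P032.Lt.q R0Q005.q128_11) (q_cons (Vale.Agent.P032.Lt.q R0Q005.q128_12) (q_cons (Vale.Agent.P032.Lt.q R0Q005.q128_13) (q_cons (Vale.Agent.P032.Lt.q R0Q005.q128_14) (q_cons (Vale.Agent.P032.Lt.q R0Q005.q128_15) q_nil)))))))))))))))))

theorem p129 : Pat 73 73 TBm TCm (CB.map Fm) R0Q005.P129 R0Q005.I129 := Vale.Agent.P032.Lt.pat_eq (E' := R0Q005.E) eB (pat_step (by decide +kernel) (q_cons (Vale.Agent.P032.Lt.q R0Q005.q129_0) (q_cons (Vale.Agent.P032.Lt.q R0Q005.q129_1) (q_cons (Vale.Agent.P032.Lt.q R0Q005.q129_2) (q_cons (Vale.Agent.P032.Lt.q R0Q005.q129_3) (q_cons (Vale.Agent.P032.Lt.q R0Q005.q129_4) (q_cons (Vale.Agent.P032.Lt.q R0Q005.q129_5) (q_cons (Vale.Agent.P032.Lt.q R0Q005.q129_6) q_nil))))))))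

theorem p130 : Pat 73 73 TBm TCm (CB.map Fm) R0Q005.P130 R0Q005.I130 := Vale.Agent.P032.Lt.pat_eq (E' := R0Q005.E) eB (pat_step (by decide +kernel) (q_cons (Vale.Agent.P032.Lt.q R0Q005.q130_0) (q_cons (Vale.Agent.P032.Lt.q R0Q005.q130_1) (q_cons (Vale.Agent.P032.Lt.q R0Q005.q130_2) (q_cons (Vale.Agent.P032.Lt.q R0Q005.q130_3) (q_cons (Vale.Agent.P032.Lt.q R0Q005.q130_4) (q_cons (Vale.Agent.P032.Lt.q R0Q005.q130_5) (q_cons (Vale.Agent.P032.Lt.q R0Q005.q130_6) q_nil))))))))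

def C131 : List ℕ := [0, 4, 8, 12, 16, 20, 24, 84993, 214017, 345089, 476161, 606209, 737281, 741377]
theorem p131 : Pat 73 73 TBm TCm (C131.map Fm) R0Q005.P131 R0Q005.I131 := Vale.Agent.P032.Lt.pat_eq (E' := R0Q005.E131) (by decide +kernel) (pat_step (by decide +kernel) (q_cons (Vale.Agent.P032.Lt.q R0Q005.q131_0) (q_cons (Vale.Agent.P032.Lt.q R0Q005.q131_1) (q_cons (Vale.Agent.P032.Lt.q R0Q005.q131_2) (q_cons (Vale.Agent.P032.Lt.q R0Q005.q131_3) (q_cons (Vale.Agent.P032.Lt.q R0Q005.q131_4) q_nil))))))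

def C132 : List ℕ := [0, 4, 8, 12, 16, 20, 24, 212993, 475137, 737281]
theorem p132 : Pat 73 73 TBm TCm (C132.map Fm) R0Q005.P132 R0Q005.I132 := Vale.Agent.P032.Lt.pat_eq (E' := R0Q005.E132) (by decide +kernel) (pat_step (by decide +kernel) (q_cons (Vale.Agent.P032.Lt.q R0Q005.q132_0) (q_cons (Vale.Agent.P032.Lt.q R0Q005.q132_1) (q_cons (Vale.Agent.P032.Lt.q R0Q005.q132_2) q_nil))))

def C133 : List ℕ := [0, 4, 8, 12, 16, 20, 24, 475137, 737281]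
theorem p133 : Pat 73 73 TBm TCm (C133.map Fm) R0Q005.P133 R0Q005.I133 := Vale.Agent.P032.Lt.pat_eq (E' := R0Q005.E133) (by decide +kernel) (pat_step (by decide +kernel) (q_cons (Vale.Agent.P032.Lt.q R0Q005.q133_0) (q_cons (Vale.Agent.P032.Lt.q R0Q005.q133_1) (q_cons (Vale.Agent.P032.Lt.q R0Q005.q133_2) (q_cons (Vale.Agent.P032.Lt.q R0Q005.q133_3) (q_cons (Vale.Agent.P032.Lt.q R0Q005.q133_4) (q_cons (Vale.Agent.P032.Lt.q R0Q005.q133_5) (q_cons (Vale.Agent.P032.Lt.q R0Q005.q133_6) q_nil))))))))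

def C134 : List ℕ := [0, 4, 8, 12, 16, 20, 24, 475137, 617473, 737281]
theorem p134 : Pat 73 73 TBm TCm (C134.map Fm) R0Q005.P134 R0Q005.I134 := Vale.Agent.P032.Lt.pat_eq (E' := R0Q005.E134) (by decide +kernel) (pat_step (by decide +kernel) (q_cons (Vale.Agent.P032.Lt.q R0Q005.q134_0) (q_cons (Vale.Agent.P032.Lt.q R0Q005.q134_1) (q_cons (Vale.Agent.P032.Lt.q R0Q005.q134_2) (q_cons (Vale.Agent.P032.Lt.q R0Q005.q134_3) (q_cons (Vale.Agent.P032.Lt.q R0Q005.q134_4) q_nil))))))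

def C135 : List ℕ := [0, 4, 8, 12, 16, 20, 24, 344065, 475137, 617473, 737281]
theorem p135 : Pat 73 73 TBm TCm (C135.map Fm) R0Q005.P135 R0Q005.I135 := Vale.Agent.P032.Lt.pat_eq (E' := R0Q005.E135) (by decide +kernel) (pat_step (by decide +kernel) (q_cons (Vale.Agent.P032.Lt.q R0Q005.q135_0) q_nil))

theorem p136 : Pat 73 73 TBm TCm (CB.map Fm) R0Q005.P136 R0Q005.I136 := Vale.Agent.P032.Lt.pat_eq (E' := R0Q005.E) eB (pat_step (by decide +kernel) (q_cons (Vale.Agent.P032.Lt.q R0Q005.q136_0) (q_cons (Vale.Agent.P032.Lt.q R0Q005.q136_1) (q_cons (Vale.Agent.P032.Lt.q R0Q005.q136_2) q_nil))))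

theorem p137 : Pat 73 73 TBm TCm (CB.map Fm) R0Q005.P137 R0Q005.I137 := Vale.Agent.P032.Lt.pat_eq (E' := R0Q005.E) eB (pat_step (by decide +kernel) (q_cons (Vale.Agent.P032.Lt.q R0Q005.q137_0) (q_cons (Vale.Agent.P032.Lt.q R0Q005.q137_1) (q_cons (Vale.Agent.P032.Lt.q R0Q005.q137_2) (q_cons (Vale.Agent.P032.Lt.q R0Q005.q137_3) (q_cons (Vale.Agent.P032.Lt.q R0Q005.q137_4) (q_cons (Vale.Agent.P032.Lt.q R0Q005.q137_5) (q_cons (Vale.Agent.P032.Lt.q R0Q005.q137_6) q_nil))))))))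

def C138 : List ℕ := [0, 4, 8, 12, 16, 20, 24, 214017, 347137, 349185, 606209, 737281]
theorem p138 : Pat 73 73 TBm TCm (C138.map Fm) R0Q005.P138 R0Q005.I138 := Vale.Agent.P032.Lt.pat_eq (E' := R0Q005.E138) (by decide +kernel) (pat_step (by decide +kernel) (q_cons (Vale.Agent.P032.Lt.q R0Q005.q138_0) (q_cons (Vale.Agent.P032.Lt.q R0Q005.q138_1) (q_cons (Vale.Agent.P032.Lt.q R0Q005.q138_2) (q_cons (Vale.Agent.P032.Lt.q R0Q005.q138_3) q_nil)))))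

theorem p139 : Pat 73 73 TBm TCm (CB.map Fm) R0Q005.P139 R0Q005.I139 := Vale.Agent.P032.Lt.pat_eq (E' := R0Q005.E) eB (pat_step (by decide +kernel) (q_cons (Vale.Agent.P032.Lt.q R0Q005.q139_0) q_nil))

theorem p140 : Pat 73 73 TBm TCm (CB.map Fm) R0Q005.P140 R0Q005.I140 := Vale.Agent.P032.Lt.pat_eq (E' := R0Q005.E) eB (pat_step (by decide +kernel) (q_cons (Vale.Agent.P032.Lt.q R0Q005.q140_0) (q_cons (Vale.Agent.P032.Lt.q R0Q005.q140_1) (q_cons (Vale.Agent.P032.Lt.q R0Q005.q140_2) q_nil))))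

theorem p141 : Pat 73 73 TBm TCm (CB.map Fm) R0Q005.P141 R0Q005.I141 := Vale.Agent.P032.Lt.pat_eq (E' := R0Q005.E) eB (pat_step (by decide +kernel) (q_cons (Vale.Agent.P032.Lt.q R0Q005.q141_0) q_nil))

theorem p142 : Pat 73 73 TBm TCm (CB.map Fm) R0Q005.P142 R0Q005.I142 := Vale.Agent.P032.Lt.pat_eq (E' := R0Q005.E) eB (pat_step (by decide +kernel) (q_cons (Vale.Agent.P032.Lt.q R0Q005.q142_0) q_nil))

theorem p143 : Pat 73 73 TBm TCm (CB.map Fm) R0Q005.P143 R0Q005.I143 := Vale.Agent.P032.Lt.pat_eq (E' := R0Q005.E) eB (pat_step (by decide +kernel) (q_cons (Vale.Agent.P032.Lt.q R0Q005.q143_0) (q_cons (Vale.Agent.P032.Lt.q R0Q005.q143_1) (q_cons (Vale.Agent.P032.Lt.q R0Q005.q143_2) (q_cons (Vale.Agent.P032.Lt.q R0Q005.q143_3) (q_cons (Vale.Agent.P032.Lt.q R0Q005.q143_4) (q_cons (Vale.Agent.P032.Lt.q R0Q005.q143_5) (q_cons (Vale.Agent.P032.Lt.q R0Q005.q143_6) (q_cons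 (Vale.Agent.P032.Lt.q R0Q005.q143_7) (q_cons (Vale.Agent.P032.Lt.q R0Q005.q143_8) (q_cons (Vale.Agent.P032.Lt.q R0Q005.q143_9) (q_cons (Vale.Agent.P032.Lt.q R0Q005.q143_10) (q_cons (Vale.Agent.P032.Lt.q R0Q005.q143_11) (q_cons (Vale.Agent.P032.Lt.q R0Q005.q143_12) (q_cons (Vale.Agent.P032.Lt.q R0Q005.q143_13) (q_cons (Vale.Agent.P032.Lt.q R0Q005.q143_14) (q_cons (Vale.Agent.P032.Lt.q R0Q005.q143_15) (q_cons (Vale.Agent.P032.Lt.q R0Q005.q143_16) q_nil))))))))))))))))))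

theorem p144 : Pat 73 73 TBm TCm (CB.map Fm) R0Q005.P144 R0Q005.I144 := Vale.Agent.P032.Lt.pat_eq (E' := R0Q005.E) eB (pat_step (by decide +kernel) (q_cons (Vale.Agent.P032.Lt.q R0Q005.q144_0) (q_cons (Vale.Agent.P032.Lt.q R0Q005.q144_1) (q_cons (Vale.Agent.P032.Lt.q R0Q005.q144_2) (q_cons (Vale.Agent.P032.Lt.q R0Q005.q144_3) (q_cons (Vale.Agent.P032.Lt.q R0Q005.q144_4) (q_cons (Vale.Agent.P032.Lt.q R0Q005.q144_5) q_nil)))))))

theorem p145 : Pat 73 73 TBm TCm (CB.map Fm) R0Q005.P145 R0Q005.I145 := Vale.Agent.P032.Lt.pat_eq (E' := R0Q005.E) eB (pat_step (by decide +kernel) (q_cons (Vale.Agent.P032.Lt.q R0Q005.q145_0) (q_cons (Vale.Agent.P032.Lt.q R0Q005.q145_1) (q_cons (Vale.Agent.P032.Lt.q R0Q005.q145_2) (q_cons (Vale.Agent.P032.Lt.q R0Q005.q145_3) (q_cons (Vale.Agent.P032.Lt.q R0Q005.q145_4) q_nil))))))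

def C146 : List ℕ := [0, 4, 8, 12, 16, 20, 24, 84993, 606209, 737281]
theorem p146 : Pat 73 73 TBm TCm (C146.map Fm) R0Q005.P146 R0Q005.I146 := Vale.Agent.P032.Lt.pat_eq (E' := R0Q005.E146) (by decide +kernel) (pat_step (by decide +kernel) (q_cons (Vale.Agent.P032.Lt.q R0Q005.q146_0) (q_cons (Vale.Agent.P032.Lt.q R0Q005.q146_1) (q_cons (Vale.Agent.P032.Lt.q R0Q005.q146_2) (q_cons (Vale.Agent.P032.Lt.q R0Q005.q146_3) (q_cons (Vale.Agent.P032.Lt.q R0Q005.q146_4) q_nil))))))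

theorem p147 : Pat 73 73 TBm TCm (CB.map Fm) R0Q005.P147 R0Q005.I147 := Vale.Agent.P032.Lt.pat_eq (E' := R0Q005.E) eB (pat_step (by decide +kernel) (q_cons (Vale.Agent.P032.Lt.q R0Q005.q147_0) (q_cons (Vale.Agent.P032.Lt.q R0Q005.q147_1) (q_cons (Vale.Agent.P032.Lt.q R0Q005.q147_2) (q_cons (Vale.Agent.P032.Lt.q R0Q005.q147_3) q_nil)))))

theorem p148 : Pat 73 73 TBm TCm (CB.map Fm) R0Q005.P148 R0Q005.I148 := Vale.Agent.P032.Lt.pat_eq (E' := R0Q005.E) eB (pat_step (by decide +kernel) (q_cons (Vale.Agent.P032.Lt.q R0Q005.q148_0) (q_cons (Vale.Agent.P032.Lt.q R0Q005.q148_1) (q_cons (Vale.Agent.P032.Lt.q R0Q005.q148_2) (q_cons (Vale.Agent.P032.Lt.q R0Q005.q148_3) (q_cons (Vale.Agent.P032.Lt.q R0Q005.q148_4) (q_cons (Vale.Agent.P032.Lt.q R0Q005.q148_5) (q_cons (Vale.Agent.P032.Lt.q R0Q005.q148_6) (q_cons (Vale.Agent.P032.Lt.q R0Q005.q148_7) (q_cons (Vale.Agent.P032.Lt.q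 R0Q005.q148_8) (q_cons (Vale.Agent.P032.Lt.q R0Q005.q148_9) (q_cons (Vale.Agent.P032.Lt.q R0Q005.q148_10) (q_cons (Vale.Agent.P032.Lt.q R0Q005.q148_11) (q_cons (Vale.Agent.P032.Lt.q R0Q005.q148_12) (q_cons (Vale.Agent.P032.Lt.q R0Q005.q148_13) (q_cons (Vale.Agent.P032.Lt.q R0Q005.q148_14) (q_cons (Vale.Agent.P032.Lt.q R0Q005.q148_15) (q_cons (Vale.Agent.P032.Lt.q R0Q005.q148_16) (q_cons (Vale.Agent.P032.Lt.q R0Q005.q148_17) q_nil)))))))))))))))))))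

theorem p149 : Pat 73 73 TBm TCm (CB.map Fm) R0Q006.P149 R0Q006.I149 := Vale.Agent.P032.Lt.pat_eq (E' := R0Q006.E) eB (pat_step (by decide +kernel) (q_cons (Vale.Agent.P032.Lt.q R0Q006.q149_0) (q_cons (Vale.Agent.P032.Lt.q R0Q006.q149_1) (q_cons (Vale.Agent.P032.Lt.q R0Q006.q149_2) (q_cons (Vale.Agent.P032.Lt.q R0Q006.q149_3) (q_cons (Vale.Agent.P032.Lt.q R0Q006.q149_4) (q_cons (Vale.Agent.P032.Lt.q R0Q006.q149_5) (q_cons (Vale.Agent.P032.Lt.q R0Q006.q149_6) (q_cons (Vale.Agent.P032.Lt.q R0Q006.q149_7) (q_cons (Vale.Agent.P032.Lt.q R0Q006.q149_8) (q_cons (Vale.Agent.P032.Lt.q R0Q006.q149_9) (q_cons (Vale.Agent.P032.Lt.q R0Q006.q149_10) q_nil))))))))))))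

theorem p150 : Pat 73 73 TBm TCm (CB.map Fm) R0Q006.P150 R0Q006.I150 := Vale.Agent.P032.Lt.pat_eq (E' := R0Q006.E) eB (pat_step (by decide +kernel) (q_cons (Vale.Agent.P032.Lt.q R0Q006.q150_0) q_nil))

theorem p151 : Pat 73 73 TBm TCm (CB.map Fm) R0Q006.P151 R0Q006.I151 := Vale.Agent.P032.Lt.pat_eq (E' := R0Q006.E) eB (pat_step (by decide +kernel) (q_cons (Vale.Agent.P032.Lt.q R0Q006.q151_0) (q_cons (Vale.Agent.P032.Lt.q R0Q006.q151_1) (q_cons (Vale.Agent.P032.Lt.q R0Q006.q151_2) (q_cons (Vale.Agent.P032.Lt.q R0Q006.q151_3) (q_cons (Vale.Agent.P032.Lt.q R0Q006.q151_4) q_nil))))))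

theorem p152 : Pat 73 73 TBm TCm (CB.map Fm) R0Q006.P152 R0Q006.I152 := Vale.Agent.P032.Lt.pat_eq (E' := R0Q006.E) eB (pat_step (by decide +kernel) (q_cons (Vale.Agent.P032.Lt.q R0Q006.q152_0) (q_cons (Vale.Agent.P032.Lt.q R0Q006.q152_1) (q_cons (Vale.Agent.P032.Lt.q R0Q006.q152_2) (q_cons (Vale.Agent.P032.Lt.q R0Q006.q152_3) (q_cons (Vale.Agent.P032.Lt.q R0Q006.q152_4) (q_cons (Vale.Agent.P032.Lt.q R0Q006.q152_5) q_nil)))))))

theorem p153 : Pat 73 73 TBm TCm (CB.map Fm) R0Q006.P153 R0Q006.I153 := Vale.Agent.P032.Lt.pat_eq (E' := R0Q006.E) eB (pat_step (by decide +kernel) (q_cons (Vale.Agent.P032.Lt.q R0Q006.q153_0) (q_cons (Vale.Agent.P032.Lt.q R0Q006.q153_1) (q_cons (Vale.Agent.P032.Lt.q R0Q006.q153_2) (q_cons (Vale.Agent.P032.Lt.q R0Q006.q153_3) (q_cons (Vale.Agent.P032.Lt.q R0Q006.q153_4) (q_cons (Vale.Agent.P032.Lt.q R0Q006.q153_5) (q_cons (Vale.Agent.P032.Lt.q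 R0Q006.q153_6) (q_cons (Vale.Agent.P032.Lt.q R0Q006.q153_7) (q_cons (Vale.Agent.P032.Lt.q R0Q006.q153_8) (q_cons (Vale.Agent.P032.Lt.q R0Q006.q153_9) (q_cons (Vale.Agent.P032.Lt.q R0Q006.q153_10) (q_cons (Vale.Agent.P032.Lt.q R0Q006.q153_11) (q_cons (Vale.Agent.P032.Lt.q R0Q006.q153_12) (q_cons (Vale.Agent.P032.Lt.q R0Q006.q153_13) (q_cons (Vale.Agent.P032.Lt.q R0Q006.q153_14) (q_cons (Vale.Agent.P032.Lt.q R0Q006.q153_15) (q_cons (Vale.Agent.P032.Lt.q R0Q006.q153_16) (q_cons (Vale.Agent.P032.Lt.q R0Q006.q153_17) q_nil)))))))))))))))))))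

def C154 : List ℕ := [0, 4, 8, 12, 16, 20, 24, 212993, 606209, 741377]
theorem p154 : Pat 73 73 TBm TCm (C154.map Fm) R0Q006.P154 R0Q006.I154 := Vale.Agent.P032.Lt.pat_eq (E' := R0Q006.E154) (by decide +kernel) (pat_step (by decide +kernel) (q_cons (Vale.Agent.P032.Lt.q R0Q006.q154_0) q_nil))

theorem p155 : Pat 73 73 TBm TCm (CB.map Fm) R0Q006.P155 R0Q006.I155 := Vale.Agent.P032.Lt.pat_eq (E' := R0Q006.E) eB (pat_step (by decide +kernel) (q_cons (Vale.Agent.P032.Lt.q R0Q006.q155_0) (q_cons (Vale.Agent.P032.Lt.q R0Q006.q155_1) (q_cons (Vale.Agent.P032.Lt.q R0Q006.q155_2) (q_cons (Vale.Agent.P032.Lt.q R0Q006.q155_3) (q_cons (Vale.Agent.P032.Lt.q R0Q006.q155_4) (q_cons (Vale.Agent.P032.Lt.q R0Q006.q155_5) (q_cons (Vale.Agent.P032.Lt.q R0Q006.q155_6) (q_cons (Vale.Agent.P032.Lt.q R0Q006.q155_7) (q_cons (Vale.Agent.P032.Lt.q R0Q006.q155_8) (q_cons (Vale.Agent.P032.Lt.q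 R0Q006.q155_9) (q_cons (Vale.Agent.P032.Lt.q R0Q006.q155_10) (q_cons (Vale.Agent.P032.Lt.q R0Q006.q155_11) (q_cons (Vale.Agent.P032.Lt.q R0Q006.q155_12) (q_cons (Vale.Agent.P032.Lt.q R0Q006.q155_13) (q_cons (Vale.Agent.P032.Lt.q R0Q006.q155_14) (q_cons (Vale.Agent.P032.Lt.q R0Q006.q155_15) (q_cons (Vale.Agent.P032.Lt.q R0Q006.q155_16) (q_cons (Vale.Agent.P032.Lt.q R0Q006.q155_17) (q_cons (Vale.Agent.P032.Lt.q R0Q006.q155_18) (q_cons (Vale.Agent.P032.Lt.q R0Q006.q155_19) (q_cons (Vale.Agent.P032.Lt.q R0Q006.q155_20) (q_cons (Vale.Agent.P032.Lt.q R0Q006.q155_21) (q_cons (Vale.Agent.P032.Lt.q R0Q006.q155_22) (q_cons (Vale.Agent.P032.Lt.q R0Q006.q155_23) (q_cons (Vale.Agent.P032.Lt.q R0Q006.q155_24) (q_cons (Vale.Agent.P032.Lt.q R0Q006.q155_25) q_nil)))))))))))))))))))))))))))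

theorem p156 : Pat 73 73 TBm TCm (CB.map Fm) R0Q006.P156 R0Q006.I156 := Vale.Agent.P032.Lt.pat_eq (E' := R0Q006.E) eB (pat_step (by decide +kernel) (q_cons (Vale.Agent.P032.Lt.q R0Q006.q156_0) (q_cons (Vale.Agent.P032.Lt.q R0Q006.q156_1) (q_cons (Vale.Agent.P032.Lt.q R0Q006.q156_2) (q_cons (Vale.Agent.P032.Lt.q R0Q006.q156_3) (q_cons (Vale.Agent.P032.Lt.q R0Q006.q156_4) (q_cons (Vale.Agent.P032.Lt.q R0Q006.q156_5) (q_cons (Vale.Agent.P032.Lt.q R0Q006.q156_6) (q_cons (Vale.Agent.P032.Lt.q R0Q006.q156_7) (q_cons (Vale.Agent.P032.Lt.q R0Q006.q156_8) q_nil))))))))))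

theorem p157 : Pat 73 73 TBm TCm (CB.map Fm) R0Q006.P157 R0Q006.I157 := Vale.Agent.P032.Lt.pat_eq (E' := R0Q006.E) eB (pat_step (by decide +kernel) (q_cons (Vale.Agent.P032.Lt.q R0Q006.q157_0) (q_cons (Vale.Agent.P032.Lt.q R0Q006.q157_1) (q_cons (Vale.Agent.P032.Lt.q R0Q006.q157_2) (q_cons (Vale.Agent.P032.Lt.q R0Q006.q157_3) (q_cons (Vale.Agent.P032.Lt.q R0Q006.q157_4) (q_cons (Vale.Agent.P032.Lt.q R0Q006.q157_5) (q_cons (Vale.Agent.P032.Lt.q R0Q006.q157_6) q_nil))))))))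

theorem p158 : Pat 73 73 TBm TCm (CB.map Fm) R0Q006.P158 R0Q006.I158 := Vale.Agent.P032.Lt.pat_eq (E' := R0Q006.E) eB (pat_step (by decide +kernel) (q_cons (Vale.Agent.P032.Lt.q R0Q006.q158_0) (q_cons (Vale.Agent.P032.Lt.q R0Q006.q158_1) (q_cons (Vale.Agent.P032.Lt.q R0Q006.q158_2) (q_cons (Vale.Agent.P032.Lt.q R0Q006.q158_3) q_nil)))))

theorem p159 : Pat 73 73 TBm TCm (CB.map Fm) R0Q006.P159 R0Q006.I159 := Vale.Agent.P032.Lt.pat_eq (E' := R0Q006.E) eB (pat_step (by decide +kernel) (q_cons (Vale.Agent.P032.Lt.q R0Q006.q159_0) q_nil))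

theorem p160 : Pat 73 73 TBm TCm (CB.map Fm) R0Q006.P160 R0Q006.I160 := Vale.Agent.P032.Lt.pat_eq (E' := R0Q006.E) eB (pat_step (by decide +kernel) (q_cons (Vale.Agent.P032.Lt.q R0Q006.q160_0) q_nil))

def C161 : List ℕ := [0, 4, 8, 12, 16, 20, 24, 82945, 344065, 475137, 738305]
theorem p161 : Pat 73 73 TBm TCm (C161.map Fm) R0Q006.P161 R0Q006.I161 := Vale.Agent.P032.Lt.pat_eq (E' := R0Q006.E161) (by decide +kernel) (pat_step (by decide +kernel) (q_cons (Vale.Agent.P032.Lt.q R0Q006.q161_0) (q_cons (Vale.Agent.P032.Lt.q R0Q006.q161_1) (q_cons (Vale.Agent.P032.Lt.q R0Q006.q161_2) (q_cons (Vale.Agent.P032.Lt.q R0Q006.q161_3) (q_cons (Vale.Agent.P032.Lt.q R0Q006.q161_4) (q_cons (Vale.Agent.P032.Lt.q R0Q006.q161_5) (q_cons (Vale.Agent.P032.Lt.q R0Q006.q161_6) (q_cons (Vale.Agent.P032.Lt.q R0Q006.q161_7) (q_cons (Vale.Agent.P032.Lt.q R0Q006.q161_8) (q_cons (Vale.Agent.P032.Lt.q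 R0Q006.q161_9) (q_cons (Vale.Agent.P032.Lt.q R0Q006.q161_10) (q_cons (Vale.Agent.P032.Lt.q R0Q006.q161_11) (q_cons (Vale.Agent.P032.Lt.q R0Q006.q161_12) (q_cons (Vale.Agent.P032.Lt.q R0Q006.q161_13) (q_cons (Vale.Agent.P032.Lt.q R0Q006.q161_14) (q_cons (Vale.Agent.P032.Lt.q R0Q006.q161_15) (q_cons (Vale.Agent.P032.Lt.q R0Q006.q161_16) (q_cons (Vale.Agent.P032.Lt.q R0Q006.q161_17) (q_cons (Vale.Agent.P032.Lt.q R0Q006.q161_18) (q_cons (Vale.Agent.P032.Lt.q R0Q006.q161_19) (q_cons (Vale.Agent.P032.Lt.q R0Q006.q161_20) (q_cons (Vale.Agent.P032.Lt.q R0Q006.q161_21) (q_cons (Vale.Agent.P032.Lt.q R0Q006.q161_22) (q_cons (Vale.Agent.P032.Lt.q R0Q006.q161_23) (q_cons (Vale.Agent.P032.Lt.q R0Q006.q161_24) (q_cons (Vale.Agent.P032.Lt.q R0Q006.q161_25) (q_cons (Vale.Agent.P032.Lt.q R0Q006.q161_26) (q_cons (Vale.Agent.P032.Lt.q R0Q006.q161_27) (q_cons (Vale.Agent.P032.Lt.q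 R0Q006.q161_28) (q_cons (Vale.Agent.P032.Lt.q R0Q006.q161_29) (q_cons (Vale.Agent.P032.Lt.q R0Q006.q161_30) (q_cons (Vale.Agent.P032.Lt.q R0Q006.q161_31) (q_cons (Vale.Agent.P032.Lt.q R0Q006.q161_32) (q_cons (Vale.Agent.P032.Lt.q R0Q006.q161_33) (q_cons (Vale.Agent.P032.Lt.q R0Q006.q161_34) (q_cons (Vale.Agent.P032.Lt.q R0Q006.q161_35) (q_cons (Vale.Agent.P032.Lt.q R0Q006.q161_36) (q_cons (Vale.Agent.P032.Lt.q R0Q006.q161_37) q_nil)))))))))))))))))))))))))))))))))))))))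

theorem p162 : Pat 73 73 TBm TCm (CB.map Fm) R0Q006.P162 R0Q006.I162 := Vale.Agent.P032.Lt.pat_eq (E' := R0Q006.E) eB (pat_step (by decide +kernel) (q_cons (Vale.Agent.P032.Lt.q R0Q006.q162_0) (q_cons (Vale.Agent.P032.Lt.q R0Q006.q162_1) q_nil)))

theorem p163 : Pat 73 73 TBm TCm (CB.map Fm) R0Q006.P163 R0Q006.I163 := Vale.Agent.P032.Lt.pat_eq (E' := R0Q006.E) eB (pat_step (by decide +kernel) (q_cons (Vale.Agent.P032.Lt.q R0Q006.q163_0) (q_cons (Vale.Agent.P032.Lt.q R0Q006.q163_1) q_nil)))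

theorem p164 : Pat 73 73 TBm TCm (CB.map Fm) R0Q006.P164 R0Q006.I164 := Vale.Agent.P032.Lt.pat_eq (E' := R0Q006.E) eB (pat_step (by decide +kernel) (q_cons (Vale.Agent.P032.Lt.q R0Q006.q164_0) (q_cons (Vale.Agent.P032.Lt.q R0Q006.q164_1) (q_cons (Vale.Agent.P032.Lt.q R0Q006.q164_2) (q_cons (Vale.Agent.P032.Lt.q R0Q006.q164_3) q_nil)))))

theorem p165 : Pat 73 73 TBm TCm (CB.map Fm) R0Q006.P165 R0Q006.I165 := Vale.Agent.P032.Lt.pat_eq (E' := R0Q006.E) eB (pat_step (by decide +kernel) (q_cons (Vale.Agent.P032.Lt.q R0Q006.q165_0) (q_cons (Vale.Agent.P032.Lt.q R0Q006.q165_1) (q_cons (Vale.Agent.P032.Lt.q R0Q006.q165_2) (q_cons (Vale.Agent.P032.Lt.q R0Q006.q165_3) q_nil)))))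

theorem p166 : Pat 73 73 TBm TCm (CB.map Fm) R0Q006.P166 R0Q006.I166 := Vale.Agent.P032.Lt.pat_eq (E' := R0Q006.E) eB (pat_step (by decide +kernel) (q_cons (Vale.Agent.P032.Lt.q R0Q006.q166_0) (q_cons (Vale.Agent.P032.Lt.q R0Q006.q166_1) q_nil)))

theorem p167 : Pat 73 73 TBm TCm (CB.map Fm) R0Q007.P167 R0Q007.I167 := Vale.Agent.P032.Lt.pat_eq (E' := R0Q007.E) eB (pat_step (by decide +kernel) (q_cons (Vale.Agent.P032.Lt.q R0Q007.q167_0) (q_cons (Vale.Agent.P032.Lt.q R0Q007.q167_1) (q_cons (Vale.Agent.P032.Lt.q R0Q007.q167_2) (q_cons (Vale.Agent.P032.Lt.q R0Q007.q167_3) q_nil)))))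

theorem p168 : Pat 73 73 TBm TCm (CB.map Fm) R0Q007.P168 R0Q007.I168 := Vale.Agent.P032.Lt.pat_eq (E' := R0Q007.E) eB (pat_step (by decide +kernel) (q_cons (Vale.Agent.P032.Lt.q R0Q007.q168_0) (q_cons (Vale.Agent.P032.Lt.q R0Q007.q168_1) (q_cons (Vale.Agent.P032.Lt.q R0Q007.q168_2) (q_cons (Vale.Agent.P032.Lt.q R0Q007.q168_3) (q_cons (Vale.Agent.P032.Lt.q R0Q007.q168_4) (q_cons (Vale.Agent.P032.Lt.q R0Q007.q168_5) (q_cons (Vale.Agent.P032.Lt.q R0Q007.q168_6) (q_cons (Vale.Agent.P032.Lt.q R0Q007.q168_7) q_nil)))))))))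

theorem p169 : Pat 73 73 TBm TCm (CB.map Fm) R0Q007.P169 R0Q007.I169 := Vale.Agent.P032.Lt.pat_eq (E' := R0Q007.E) eB (pat_step (by decide +kernel) (q_cons (Vale.Agent.P032.Lt.q R0Q007.q169_0) q_nil))

theorem p170 : Pat 73 73 TBm TCm (CB.map Fm) R0Q007.P170 R0Q007.I170 := Vale.Agent.P032.Lt.pat_eq (E' := R0Q007.E) eB (pat_step (by decide +kernel) (q_cons (Vale.Agent.P032.Lt.q R0Q007.q170_0) (q_cons (Vale.Agent.P032.Lt.q R0Q007.q170_1) (q_cons (Vale.Agent.P032.Lt.q R0Q007.q170_2) (q_cons (Vale.Agent.P032.Lt.q R0Q007.q170_3) (q_cons (Vale.Agent.P032.Lt.q R0Q007.q170_4) (q_cons (Vale.Agent.P032.Lt.q R0Q007.q170_5) (q_cons (Vale.Agent.P032.Lt.q R0Q007.q170_6) (q_cons (Vale.Agent.P032.Lt.q R0Q007.q170_7) (q_cons (Vale.Agent.P032.Lt.q R0Q007.q170_8) (q_cons (Vale.Agent.P032.Lt.q R0Q007.q170_9) (q_cons (Vale.Agent.P032.Lt.q R0Q007.q170_10) (q_cons (Vale.Agent.P032.Lt.q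 R0Q007.q170_11) (q_cons (Vale.Agent.P032.Lt.q R0Q007.q170_12) (q_cons (Vale.Agent.P032.Lt.q R0Q007.q170_13) q_nil)))))))))))))))

theorem p171 : Pat 73 73 TBm TCm (CB.map Fm) R0Q007.P171 R0Q007.I171 := Vale.Agent.P032.Lt.pat_eq (E' := R0Q007.E) eB (pat_step (by decide +kernel) (q_cons (Vale.Agent.P032.Lt.q R0Q007.q171_0) (q_cons (Vale.Agent.P032.Lt.q R0Q007.q171_1) (q_cons (Vale.Agent.P032.Lt.q R0Q007.q171_2) (q_cons (Vale.Agent.P032.Lt.q R0Q007.q171_3) q_nil)))))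

theorem p172 : Pat 73 73 TBm TCm (CB.map Fm) R0Q007.P172 R0Q007.I172 := Vale.Agent.P032.Lt.pat_eq (E' := R0Q007.E) eB (pat_step (by decide +kernel) (q_cons (Vale.Agent.P032.Lt.q R0Q007.q172_0) (q_cons (Vale.Agent.P032.Lt.q R0Q007.q172_1) q_nil)))

theorem p173 : Pat 73 73 TBm TCm (CB.map Fm) R0Q007.P173 R0Q007.I173 := Vale.Agent.P032.Lt.pat_eq (E' := R0Q007.E) eB (pat_step (by decide +kernel) (q_cons (Vale.Agent.P032.Lt.q R0Q007.q173_0) q_nil))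

theorem p174 : Pat 73 73 TBm TCm (CB.map Fm) R0Q007.P174 R0Q007.I174 := Vale.Agent.P032.Lt.pat_eq (E' := R0Q007.E) eB (pat_step (by decide +kernel) (q_cons (Vale.Agent.P032.Lt.q R0Q007.q174_0) (q_cons (Vale.Agent.P032.Lt.q R0Q007.q174_1) q_nil)))

theorem p175 : Pat 73 73 TBm TCm (CB.map Fm) R0Q007.P175 R0Q007.I175 := Vale.Agent.P032.Lt.pat_eq (E' := R0Q007.E) eB (pat_step (by decide +kernel) (q_cons (Vale.Agent.P032.Lt.q R0Q007.q175_0) q_nil))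

def C176 : List ℕ := [0, 4, 8, 12, 16, 20, 24, 475137, 737281]
theorem p176 : Pat 73 73 TBm TCm (C176.map Fm) R0Q007.P176 R0Q007.I176 := Vale.Agent.P032.Lt.pat_eq (E' := R0Q007.E176) (by decide +kernel) (pat_step (by decide +kernel) (q_cons (Vale.Agent.P032.Lt.q R0Q007.q176_0) q_nil))

def C177 : List ℕ := [0, 4, 8, 12, 16, 20, 24, 475137, 615425, 737281]
theorem p177 : Pat 73 73 TBm TCm (C177.map Fm) R0Q007.P177 R0Q007.I177 := Vale.Agent.P032.Lt.pat_eq (E' := R0Q007.E177) (by decide +kernel) (pat_step (by decide +kernel) (q_cons (Vale.Agent.P032.Lt.q R0Q007.q177_0) q_nil))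

theorem p178 : Pat 73 73 TBm TCm (CB.map Fm) R0Q007.P178 R0Q007.I178 := Vale.Agent.P032.Lt.pat_eq (E' := R0Q007.E) eB (pat_step (by decide +kernel) (q_cons (Vale.Agent.P032.Lt.q R0Q007.q178_0) (q_cons (Vale.Agent.P032.Lt.q R0Q007.q178_1) (q_cons (Vale.Agent.P032.Lt.q R0Q007.q178_2) (q_cons (Vale.Agent.P032.Lt.q R0Q007.q178_3) (q_cons (Vale.Agent.P032.Lt.q R0Q007.q178_4) (q_cons (Vale.Agent.P032.Lt.q R0Q007.q178_5) q_nil)))))))

theorem p179 : Pat 73 73 TBm TCm (CB.map Fm) R0Q007.P179 R0Q007.I179 := Vale.Agent.P032.Lt.pat_eq (E' := R0Q007.E) eB (pat_step (by decide +kernel) (q_cons (Vale.Agent.P032.Lt.q R0Q007.q179_0) (q_cons (Vale.Agent.P032.Lt.q R0Q007.q179_1) (q_cons (Vale.Agent.P032.Lt.q R0Q007.q179_2) (q_cons (Vale.Agent.P032.Lt.q R0Q007.q179_3) q_nil)))))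

theorem p180 : Pat 73 73 TBm TCm (CB.map Fm) R0Q007.P180 R0Q007.I180 := Vale.Agent.P032.Lt.pat_eq (E' := R0Q007.E) eB (pat_step (by decide +kernel) (q_cons (Vale.Agent.P032.Lt.q R0Q007.q180_0) (q_cons (Vale.Agent.P032.Lt.q R0Q007.q180_1) (q_cons (Vale.Agent.P032.Lt.q R0Q007.q180_2) (q_cons (Vale.Agent.P032.Lt.q R0Q007.q180_3) (q_cons (Vale.Agent.P032.Lt.q R0Q007.q180_4) (q_cons (Vale.Agent.P032.Lt.q R0Q007.q180_5) (q_cons (Vale.Agent.P032.Lt.q R0Q007.q180_6) (q_cons (Vale.Agent.P032.Lt.q R0Q007.q180_7) (q_cons (Vale.Agent.P032.Lt.q R0Q007.q180_8) (q_cons (Vale.Agent.P032.Lt.q R0Q007.q180_9) (q_cons (Vale.Agent.P032.Lt.q R0Q007.q180_10) (q_cons (Vale.Agent.P032.Lt.q R0Q007.q180_11) (q_cons (Vale.Agent.P032.Lt.q R0Q007.q180_12) (q_cons (Vale.Agent.P032.Lt.q R0Q007.q180_13) (q_cons (Vale.Agent.P032.Lt.q R0Q007.q180_14) (q_cons (Vale.Agent.P032.Lt.q R0Q007.q180_15)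 (q_cons (Vale.Agent.P032.Lt.q R0Q007.q180_16) q_nil))))))))))))))))))

theorem p181 : Pat 73 73 TBm TCm (CB.map Fm) R0Q007.P181 R0Q007.I181 := Vale.Agent.P032.Lt.pat_eq (E' := R0Q007.E) eB (pat_step (by decide +kernel) (q_cons (Vale.Agent.P032.Lt.q R0Q007.q181_0) (q_cons (Vale.Agent.P032.Lt.q R0Q007.q181_1) (q_cons (Vale.Agent.P032.Lt.q R0Q007.q181_2) (q_cons (Vale.Agent.P032.Lt.q R0Q007.q181_3) (q_cons (Vale.Agent.P032.Lt.q R0Q007.q181_4) (q_cons (Vale.Agent.P032.Lt.q R0Q007.q181_5) (q_cons (Vale.Agent.P032.Lt.q R0Q007.q181_6) (q_cons (Vale.Agent.P032.Lt.q R0Q007.q181_7) (q_cons (Vale.Agent.P032.Lt.q R0Q007.q181_8) (q_cons (Vale.Agent.P032.Lt.q R0Q007.q181_9) (q_cons (Vale.Agent.P032.Lt.q R0Q007.q181_10) q_nil))))))))))))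

theorem p182 : Pat 73 73 TBm TCm (CB.map Fm) R0Q007.P182 R0Q007.I182 := Vale.Agent.P032.Lt.pat_eq (E' := R0Q007.E) eB (pat_step (by decide +kernel) (q_cons (Vale.Agent.P032.Lt.q R0Q007.q182_0) (q_cons (Vale.Agent.P032.Lt.q R0Q007.q182_1) (q_cons (Vale.Agent.P032.Lt.q R0Q007.q182_2) (q_cons (Vale.Agent.P032.Lt.q R0Q007.q182_3) (q_cons (Vale.Agent.P032.Lt.q R0Q007.q182_4) (q_cons (Vale.Agent.P032.Lt.q R0Q007.q182_5) (q_cons (Vale.Agent.P032.Lt.q R0Q007.q182_6) (q_cons (Vale.Agent.P032.Lt.q R0Q007.q182_7) (q_cons (Vale.Agent.P032.Lt.q R0Q007.q182_8) q_nil))))))))))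

def C183 : List ℕ := [0, 4, 8, 12, 16, 20, 24, 475137, 737281]
theorem p183 : Pat 73 73 TBm TCm (C183.map Fm) R0Q007.P183 R0Q007.I183 := Vale.Agent.P032.Lt.pat_eq (E' := R0Q007.E183) (by decide +kernel) (pat_step (by decide +kernel) (q_cons (Vale.Agent.P032.Lt.q R0Q007.q183_0) q_nil))

theorem p184 : Pat 73 73 TBm TCm (CB.map Fm) R0Q007.P184 R0Q007.I184 := Vale.Agent.P032.Lt.pat_eq (E' := R0Q007.E) eB (pat_step (by decide +kernel) (q_cons (Vale.Agent.P032.Lt.q R0Q007.q184_0) (q_cons (Vale.Agent.P032.Lt.q R0Q007.q184_1) (q_cons (Vale.Agent.P032.Lt.q R0Q007.q184_2) (q_cons (Vale.Agent.P032.Lt.q R0Q007.q184_3) (q_cons (Vale.Agent.P032.Lt.q R0Q007.q184_4) (q_cons (Vale.Agent.P032.Lt.q R0Q007.q184_5) (q_cons (Vale.Agent.P032.Lt.q R0Q007.q184_6) (q_cons (Vale.Agent.P032.Lt.q R0Q007.q184_7) (q_cons (Vale.Agent.P032.Lt.q R0Q007.q184_8) q_nil))))))))))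

theorem p185 : Pat 73 73 TBm TCm (CB.map Fm) R0Q007.P185 R0Q007.I185 := Vale.Agent.P032.Lt.pat_eq (E' := R0Q007.E) eB (pat_step (by decide +kernel) (q_cons (Vale.Agent.P032.Lt.q R0Q007.q185_0) (q_cons (Vale.Agent.P032.Lt.q R0Q007.q185_1) (q_cons (Vale.Agent.P032.Lt.q R0Q007.q185_2) (q_cons (Vale.Agent.P032.Lt.q R0Q007.q185_3) (q_cons (Vale.Agent.P032.Lt.q R0Q007.q185_4) (q_cons (Vale.Agent.P032.Lt.q R0Q007.q185_5) (q_cons (Vale.Agent.P032.Lt.q R0Q007.q185_6) (q_cons (Vale.Agent.P032.Lt.q R0Q007.q185_7) (q_cons (Vale.Agent.P032.Lt.q R0Q007.q185_8) (q_cons (Vale.Agent.P032.Lt.q R0Q007.q185_9) (q_cons (Vale.Agent.P032.Lt.q R0Q007.q185_10) (q_cons (Vale.Agent.P032.Lt.q R0Q007.q185_11) (q_cons (Vale.Agent.P032.Lt.q R0Q007.q185_12) (q_cons (Vale.Agent.P032.Lt.q R0Q007.q185_13) (q_cons (Vale.Agent.P032.Lt.q R0Q007.q185_14) (q_cons (Vale.Agent.P032.Lt.q R0Q007.q185_15)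 q_nil)))))))))))))))))

theorem p186 : Pat 73 73 TBm TCm (CB.map Fm) R0Q007.P186 R0Q007.I186 := Vale.Agent.P032.Lt.pat_eq (E' := R0Q007.E) eB (pat_step (by decide +kernel) (q_cons (Vale.Agent.P032.Lt.q R0Q007.q186_0) (q_cons (Vale.Agent.P032.Lt.q R0Q007.q186_1) q_nil)))

theorem p187 : Pat 73 73 TBm TCm (CB.map Fm) R0Q007.P187 R0Q007.I187 := Vale.Agent.P032.Lt.pat_eq (E' := R0Q007.E) eB (pat_step (by decide +kernel) (q_cons (Vale.Agent.P032.Lt.q R0Q007.q187_0) (q_cons (Vale.Agent.P032.Lt.q R0Q007.q187_1) (q_cons (Vale.Agent.P032.Lt.q R0Q007.q187_2) (q_cons (Vale.Agent.P032.Lt.q R0Q007.q187_3) q_nil)))))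

theorem p188 : Pat 73 73 TBm TCm (CB.map Fm) R0Q007.P188 R0Q007.I188 := Vale.Agent.P032.Lt.pat_eq (E' := R0Q007.E) eB (pat_step (by decide +kernel) (q_cons (Vale.Agent.P032.Lt.q R0Q007.q188_0) (q_cons (Vale.Agent.P032.Lt.q R0Q007.q188_1) (q_cons (Vale.Agent.P032.Lt.q R0Q007.q188_2) (q_cons (Vale.Agent.P032.Lt.q R0Q007.q188_3) (q_cons (Vale.Agent.P032.Lt.q R0Q007.q188_4) (q_cons (Vale.Agent.P032.Lt.q R0Q007.q188_5) (q_cons (Vale.Agent.P032.Lt.q R0Q007.q188_6) (q_cons (Vale.Agent.P032.Lt.q R0Q007.q188_7) (q_cons (Vale.Agent.P032.Lt.q R0Q007.q188_8) (q_cons (Vale.Agent.P032.Lt.q R0Q007.q188_9) (q_cons (Vale.Agent.P032.Lt.q R0Q007.q188_10) q_nil))))))))))))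

theorem p189 : Pat 73 73 TBm TCm (CB.map Fm) R0Q007.P189 R0Q007.I189 := Vale.Agent.P032.Lt.pat_eq (E' := R0Q007.E) eB (pat_step (by decide +kernel) (q_cons (Vale.Agent.P032.Lt.q R0Q007.q189_0) (q_cons (Vale.Agent.P032.Lt.q R0Q007.q189_1) q_nil)))

theorem p190 : Pat 73 73 TBm TCm (CB.map Fm) R0Q008.P190 R0Q008.I190 := Vale.Agent.P032.Lt.pat_eq (E' := R0Q008.E) eB (pat_step (by decide +kernel) (q_cons (Vale.Agent.P032.Lt.q R0Q008.q190_0) (q_cons (Vale.Agent.P032.Lt.q R0Q008.q190_1) (q_cons (Vale.Agent.P032.Lt.q R0Q008.q190_2) (q_cons (Vale.Agent.P032.Lt.q R0Q008.q190_3) q_nil)))))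

theorem p191 : Pat 73 73 TBm TCm (CB.map Fm) R0Q008.P191 R0Q008.I191 := Vale.Agent.P032.Lt.pat_eq (E' := R0Q008.E) eB (pat_step (by decide +kernel) (q_cons (Vale.Agent.P032.Lt.q R0Q008.q191_0) (q_cons (Vale.Agent.P032.Lt.q R0Q008.q191_1) (q_cons (Vale.Agent.P032.Lt.q R0Q008.q191_2) (q_cons (Vale.Agent.P032.Lt.q R0Q008.q191_3) q_nil)))))

def C192 : List ℕ := [0, 4, 8, 12, 16, 20, 24, 212993, 606209, 737281]
theorem p192 : Pat 73 73 TBm TCm (C192.map Fm) R0Q008.P192 R0Q008.I192 := Vale.Agent.P032.Lt.pat_eq (E' := R0Q008.E192) (by decide +kernel) (pat_step (by decide +kernel) (q_cons (Vale.Agent.P032.Lt.q R0Q008.q192_0) (q_cons (Vale.Agent.P032.Lt.q R0Q008.q192_1) q_nil)))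

theorem p193 : Pat 73 73 TBm TCm (CB.map Fm) R0Q008.P193 R0Q008.I193 := Vale.Agent.P032.Lt.pat_eq (E' := R0Q008.E) eB (pat_step (by decide +kernel) (q_cons (Vale.Agent.P032.Lt.q R0Q008.q193_0) (q_cons (Vale.Agent.P032.Lt.q R0Q008.q193_1) q_nil)))

theorem p194 : Pat 73 73 TBm TCm (CB.map Fm) R0Q008.P194 R0Q008.I194 := Vale.Agent.P032.Lt.pat_eq (E' := R0Q008.E) eB (pat_step (by decide +kernel) (q_cons (Vale.Agent.P032.Lt.q R0Q008.q194_0) (q_cons (Vale.Agent.P032.Lt.q R0Q008.q194_1) q_nil)))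

theorem p195 : Pat 73 73 TBm TCm (CB.map Fm) R0Q008.P195 R0Q008.I195 := Vale.Agent.P032.Lt.pat_eq (E' := R0Q008.E) eB (pat_step (by decide +kernel) (q_cons (Vale.Agent.P032.Lt.q R0Q008.q195_0) q_nil))

theorem p196 : Pat 73 73 TBm TCm (CB.map Fm) R0Q008.P196 R0Q008.I196 := Vale.Agent.P032.Lt.pat_eq (E' := R0Q008.E) eB (pat_step (by decide +kernel) (q_cons (Vale.Agent.P032.Lt.q R0Q008.q196_0) (q_cons (Vale.Agent.P032.Lt.q R0Q008.q196_1) q_nil)))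

theorem p197 : Pat 73 73 TBm TCm (CB.map Fm) R0Q008.P197 R0Q008.I197 := Vale.Agent.P032.Lt.pat_eq (E' := R0Q008.E) eB (pat_step (by decide +kernel) (q_cons (Vale.Agent.P032.Lt.q R0Q008.q197_0) (q_cons (Vale.Agent.P032.Lt.q R0Q008.q197_1) (q_cons (Vale.Agent.P032.Lt.q R0Q008.q197_2) (q_cons (Vale.Agent.P032.Lt.q R0Q008.q197_3) (q_cons (Vale.Agent.P032.Lt.q R0Q008.q197_4) q_nil))))))

theorem p198 : Pat 73 73 TBm TCm (CB.map Fm) R0Q008.P198 R0Q008.I198 := Vale.Agent.P032.Lt.pat_eq (E' := R0Q008.E) eB (pat_step (by decide +kernel) (q_cons (Vale.Agent.P032.Lt.q R0Q008.q198_0) (q_cons (Vale.Agent.P032.Lt.q R0Q008.q198_1) (q_cons (Vale.Agent.P032.Lt.q R0Q008.q198_2) (q_cons (Vale.Agent.P032.Lt.q R0Q008.q198_3) q_nil)))))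

theorem p199 : Pat 73 73 TBm TCm (CB.map Fm) R0Q008.P199 R0Q008.I199 := Vale.Agent.P032.Lt.pat_eq (E' := R0Q008.E) eB (pat_step (by decide +kernel) (q_cons (Vale.Agent.P032.Lt.q R0Q008.q199_0) q_nil))

theorem p200 : Pat 73 73 TBm TCm (CB.map Fm) R0Q008.P200 R0Q008.I200 := Vale.Agent.P032.Lt.pat_eq (E' := R0Q008.E) eB (pat_step (by decide +kernel) (q_cons (Vale.Agent.P032.Lt.q R0Q008.q200_0) (q_cons (Vale.Agent.P032.Lt.q R0Q008.q200_1) (q_cons (Vale.Agent.P032.Lt.q R0Q008.q200_2) (q_cons (Vale.Agent.P032.Lt.q R0Q008.q200_3) q_nil)))))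

def C201 : List ℕ := [0, 4, 8, 12, 16, 20, 24, 84993, 214017, 349185, 353281, 606209, 737281]
theorem p201 : Pat 73 73 TBm TCm (C201.map Fm) R0Q008.P201 R0Q008.I201 := Vale.Agent.P032.Lt.pat_eq (E' := R0Q008.E201) (by decide +kernel) (pat_step (by decide +kernel) (q_cons (Vale.Agent.P032.Lt.q R0Q008.q201_0) (q_cons (Vale.Agent.P032.Lt.q R0Q008.q201_1) (q_cons (Vale.Agent.P032.Lt.q R0Q008.q201_2) (q_cons (Vale.Agent.P032.Lt.q R0Q008.q201_3) q_nil)))))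

theorem p202 : Pat 73 73 TBm TCm (CB.map Fm) R0Q008.P202 R0Q008.I202 := Vale.Agent.P032.Lt.pat_eq (E' := R0Q008.E) eB (pat_step (by decide +kernel) (q_cons (Vale.Agent.P032.Lt.q R0Q008.q202_0) (q_cons (Vale.Agent.P032.Lt.q R0Q008.q202_1) (q_cons (Vale.Agent.P032.Lt.q R0Q008.q202_2) q_nil))))

theorem p203 : Pat 73 73 TBm TCm (CB.map Fm) R0Q008.P203 R0Q008.I203 := Vale.Agent.P032.Lt.pat_eq (E' := R0Q008.E) eB (pat_step (by decide +kernel) (q_cons (Vale.Agent.P032.Lt.q R0Q008.q203_0) (q_cons (Vale.Agent.P032.Lt.q R0Q008.q203_1) (q_cons (Vale.Agent.P032.Lt.q R0Q008.q203_2) (q_cons (Vale.Agent.P032.Lt.q R0Q008.q203_3) q_nil)))))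

theorem p204 : Pat 73 73 TBm TCm (CB.map Fm) R0Q008.P204 R0Q008.I204 := Vale.Agent.P032.Lt.pat_eq (E' := R0Q008.E) eB (pat_step (by decide +kernel) (q_cons (Vale.Agent.P032.Lt.q R0Q008.q204_0) (q_cons (Vale.Agent.P032.Lt.q R0Q008.q204_1) (q_cons (Vale.Agent.P032.Lt.q R0Q008.q204_2) q_nil))))

theorem p205 : Pat 73 73 TBm TCm (CB.map Fm) R0Q008.P205 R0Q008.I205 := Vale.Agent.P032.Lt.pat_eq (E' := R0Q008.E) eB (pat_step (by decide +kernel) (q_cons (Vale.Agent.P032.Lt.q R0Q008.q205_0) (q_cons (Vale.Agent.P032.Lt.q R0Q008.q205_1) q_nil)))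

theorem p206 : Pat 73 73 TBm TCm (CB.map Fm) R0Q008.P206 R0Q008.I206 := Vale.Agent.P032.Lt.pat_eq (E' := R0Q008.E) eB (pat_step (by decide +kernel) (q_cons (Vale.Agent.P032.Lt.q R0Q008.q206_0) q_nil))

theorem p207 : Pat 73 73 TBm TCm (CB.map Fm) R0Q008.P207 R0Q008.I207 := Vale.Agent.P032.Lt.pat_eq (E' := R0Q008.E) eB (pat_step (by decide +kernel) (q_cons (Vale.Agent.P032.Lt.q R0Q008.q207_0) q_nil))

def C208 : List ℕ := [0, 4, 8, 12, 16, 20, 24, 212993, 220161, 344065, 347137, 475137, 737281]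
theorem p208 : Pat 73 73 TBm TCm (C208.map Fm) R0Q008.P208 R0Q008.I208 := Vale.Agent.P032.Lt.pat_eq (E' := R0Q008.E208) (by decide +kernel) (pat_step (by decide +kernel) (q_cons (Vale.Agent.P032.Lt.q R0Q008.q208_0) (q_cons (Vale.Agent.P032.Lt.q R0Q008.q208_1) (q_cons (Vale.Agent.P032.Lt.q R0Q008.q208_2) (q_cons (Vale.Agent.P032.Lt.q R0Q008.q208_3) (q_cons (Vale.Agent.P032.Lt.q R0Q008.q208_4) (q_cons (Vale.Agent.P032.Lt.q R0Q008.q208_5) (q_cons (Vale.Agent.P032.Lt.q R0Q008.q208_6) (q_cons (Vale.Agent.P032.Lt.q R0Q008.q208_7) q_nil)))))))))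

theorem p209 : Pat 73 73 TBm TCm (CB.map Fm) R0Q008.P209 R0Q008.I209 := Vale.Agent.P032.Lt.pat_eq (E' := R0Q008.E) eB (pat_step (by decide +kernel) (q_cons (Vale.Agent.P032.Lt.q R0Q008.q209_0) (q_cons (Vale.Agent.P032.Lt.q R0Q008.q209_1) (q_cons (Vale.Agent.P032.Lt.q R0Q008.q209_2) (q_cons (Vale.Agent.P032.Lt.q R0Q008.q209_3) (q_cons (Vale.Agent.P032.Lt.q R0Q008.q209_4) (q_cons (Vale.Agent.P032.Lt.q R0Q008.q209_5) (q_cons (Vale.Agent.P032.Lt.q R0Q008.q209_6) q_nil))))))))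

theorem p210 : Pat 73 73 TBm TCm (CB.map Fm) R0Q008.P210 R0Q008.I210 := Vale.Agent.P032.Lt.pat_eq (E' := R0Q008.E) eB (pat_step (by decide +kernel) (q_cons (Vale.Agent.P032.Lt.q R0Q008.q210_0) q_nil))

theorem p211 : Pat 73 73 TBm TCm (CB.map Fm) R0Q008.P211 R0Q008.I211 := Vale.Agent.P032.Lt.pat_eq (E' := R0Q008.E) eB (pat_step (by decide +kernel) (q_cons (Vale.Agent.P032.Lt.q R0Q008.q211_0) (q_cons (Vale.Agent.P032.Lt.q R0Q008.q211_1) (q_cons (Vale.Agent.P032.Lt.q R0Q008.q211_2) q_nil))))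

theorem p212 : Pat 73 73 TBm TCm (CB.map Fm) R0Q008.P212 R0Q008.I212 := Vale.Agent.P032.Lt.pat_eq (E' := R0Q008.E) eB (pat_step (by decide +kernel) (q_cons (Vale.Agent.P032.Lt.q R0Q008.q212_0) q_nil))

theorem p213 : Pat 73 73 TBm TCm (CB.map Fm) R0Q008.P213 R0Q008.I213 := Vale.Agent.P032.Lt.pat_eq (E' := R0Q008.E) eB (pat_step (by decide +kernel) (q_cons (Vale.Agent.P032.Lt.q R0Q008.q213_0) (q_cons (Vale.Agent.P032.Lt.q R0Q008.q213_1) (q_cons (Vale.Agent.P032.Lt.q R0Q008.q213_2) (q_cons (Vale.Agent.P032.Lt.q R0Q008.q213_3) (q_cons (Vale.Agent.P032.Lt.q R0Q008.q213_4) (q_cons (Vale.Agent.P032.Lt.q R0Q008.q213_5) (q_cons (Vale.Agent.P032.Lt.q R0Q008.q213_6) (q_cons (Vale.Agent.P032.Lt.q R0Q008.q213_7) (q_cons (Vale.Agent.P032.Lt.q R0Q008.q213_8) (q_cons (Vale.Agent.P032.Lt.q R0Q008.q213_9) (q_cons (Vale.Agent.P032.Lt.q R0Q008.q213_10) (q_cons (Vale.Agent.P032.Lt.q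 R0Q008.q213_11) q_nil)))))))))))))

theorem p214 : Pat 73 73 TBm TCm (CB.map Fm) R0Q008.P214 R0Q008.I214 := Vale.Agent.P032.Lt.pat_eq (E' := R0Q008.E) eB (pat_step (by decide +kernel) (q_cons (Vale.Agent.P032.Lt.q R0Q008.q214_0) (q_cons (Vale.Agent.P032.Lt.q R0Q008.q214_1) (q_cons (Vale.Agent.P032.Lt.q R0Q008.q214_2) q_nil))))

theorem p215 : Pat 73 73 TBm TCm (CB.map Fm) R0Q008.P215 R0Q008.I215 := Vale.Agent.P032.Lt.pat_eq (E' := R0Q008.E) eB (pat_step (by decide +kernel) (q_cons (Vale.Agent.P032.Lt.q R0Q008.q215_0) (q_cons (Vale.Agent.P032.Lt.q R0Q008.q215_1) (q_cons (Vale.Agent.P032.Lt.q R0Q008.q215_2) (q_cons (Vale.Agent.P032.Lt.q R0Q008.q215_3) (q_cons (Vale.Agent.P032.Lt.q R0Q008.q215_4) q_nil))))))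

theorem p216 : Pat 73 73 TBm TCm (CB.map Fm) R0Q008.P216 R0Q008.I216 := Vale.Agent.P032.Lt.pat_eq (E' := R0Q008.E) eB (pat_step (by decide +kernel) (q_cons (Vale.Agent.P032.Lt.q R0Q008.q216_0) (q_cons (Vale.Agent.P032.Lt.q R0Q008.q216_1) q_nil)))

theorem p217 : Pat 73 73 TBm TCm (CB.map Fm) R0Q008.P217 R0Q008.I217 := Vale.Agent.P032.Lt.pat_eq (E' := R0Q008.E) eB (pat_step (by decide +kernel) (q_cons (Vale.Agent.P032.Lt.q R0Q008.q217_0) (q_cons (Vale.Agent.P032.Lt.q R0Q008.q217_1) (q_cons (Vale.Agent.P032.Lt.q R0Q008.q217_2) (q_cons (Vale.Agent.P032.Lt.q R0Q008.q217_3) (q_cons (Vale.Agent.P032.Lt.q R0Q008.q217_4) (q_cons (Vale.Agent.P032.Lt.q R0Q008.q217_5) (q_cons (Vale.Agent.P032.Lt.q R0Q008.q217_6) q_nil))))))))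

def C218 : List ℕ := [0, 4, 8, 12, 16, 20, 24, 81921, 355329, 475137]
theorem p218 : Pat 73 73 TBm TCm (C218.map Fm) R0Q008.P218 R0Q008.I218 := Vale.Agent.P032.Lt.pat_eq (E' := R0Q008.E218) (by decide +kernel) (pat_step (by decide +kernel) (q_cons (Vale.Agent.P032.Lt.q R0Q008.q218_0) (q_cons (Vale.Agent.P032.Lt.q R0Q008.q218_1) (q_cons (Vale.Agent.P032.Lt.q R0Q008.q218_2) q_nil))))

theorem p219 : Pat 73 73 TBm TCm (CB.map Fm) R0Q008.P219 R0Q008.I219 := Vale.Agent.P032.Lt.pat_eq (E' := R0Q008.E) eB (pat_step (by decide +kernel) (q_cons (Vale.Agent.P032.Lt.q R0Q008.q219_0) q_nil))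

def C220 : List ℕ := [0, 4, 8, 12, 16, 20, 24, 216065, 475137, 606209, 737281]
theorem p220 : Pat 73 73 TBm TCm (C220.map Fm) R0Q008.P220 R0Q008.I220 := Vale.Agent.P032.Lt.pat_eq (E' := R0Q008.E220) (by decide +kernel) (pat_step (by decide +kernel) (q_cons (Vale.Agent.P032.Lt.q R0Q008.q220_0) (q_cons (Vale.Agent.P032.Lt.q R0Q008.q220_1) (q_cons (Vale.Agent.P032.Lt.q R0Q008.q220_2) (q_cons (Vale.Agent.P032.Lt.q R0Q008.q220_3) (q_cons (Vale.Agent.P032.Lt.q R0Q008.q220_4) q_nil))))))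

theorem p221 : Pat 73 73 TBm TCm (CB.map Fm) R0Q008.P221 R0Q008.I221 := Vale.Agent.P032.Lt.pat_eq (E' := R0Q008.E) eB (pat_step (by decide +kernel) (q_cons (Vale.Agent.P032.Lt.q R0Q008.q221_0) (q_cons (Vale.Agent.P032.Lt.q R0Q008.q221_1) (q_cons (Vale.Agent.P032.Lt.q R0Q008.q221_2) (q_cons (Vale.Agent.P032.Lt.q R0Q008.q221_3) (q_cons (Vale.Agent.P032.Lt.q R0Q008.q221_4) (q_cons (Vale.Agent.P032.Lt.q R0Q008.q221_5) q_nil)))))))

theorem p222 : Pat 73 73 TBm TCm (CB.map Fm) R0Q008.P222 R0Q008.I222 := Vale.Agent.P032.Lt.pat_eq (E' := R0Q008.E) eB (pat_step (by decide +kernel) (q_cons (Vale.Agent.P032.Lt.q R0Q008.q222_0) (q_cons (Vale.Agent.P032.Lt.q R0Q008.q222_1) (q_cons (Vale.Agent.P032.Lt.q R0Q008.q222_2) q_nil))))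

theorem p223 : Pat 73 73 TBm TCm (CB.map Fm) R0Q008.P223 R0Q008.I223 := Vale.Agent.P032.Lt.pat_eq (E' := R0Q008.E) eB (pat_step (by decide +kernel) (q_cons (Vale.Agent.P032.Lt.q R0Q008.q223_0) (q_cons (Vale.Agent.P032.Lt.q R0Q008.q223_1) q_nil)))

theorem p224 : Pat 73 73 TBm TCm (CB.map Fm) R0Q009.P224 R0Q009.I224 := Vale.Agent.P032.Lt.pat_eq (E' := R0Q009.E) eB (pat_step (by decide +kernel) (q_cons (Vale.Agent.P032.Lt.q R0Q009.q224_0) (q_cons (Vale.Agent.P032.Lt.q R0Q009.q224_1) (q_cons (Vale.Agent.P032.Lt.q R0Q009.q224_2) (q_cons (Vale.Agent.P032.Lt.q R0Q009.q224_3) (q_cons (Vale.Agent.P032.Lt.q R0Q009.q224_4) (q_cons (Vale.Agent.P032.Lt.q R0Q009.q224_5) q_nil)))))))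

def C225 : List ℕ := [0, 4, 8, 12, 16, 20, 24, 745473]
theorem p225 : Pat 73 73 TBm TCm (C225.map Fm) R0Q009.P225 R0Q009.I225 := Vale.Agent.P032.Lt.pat_eq (E' := R0Q009.E225) (by decide +kernel) (pat_step (by decide +kernel) (q_cons (Vale.Agent.P032.Lt.q R0Q009.q225_0) (q_cons (Vale.Agent.P032.Lt.q R0Q009.q225_1) (q_cons (Vale.Agent.P032.Lt.q R0Q009.q225_2) (q_cons (Vale.Agent.P032.Lt.q R0Q009.q225_3) q_nil)))))

theorem p226 : Pat 73 73 TBm TCm (CB.map Fm) R0Q009.P226 R0Q009.I226 := Vale.Agent.P032.Lt.pat_eq (E' := R0Q009.E) eB (pat_step (by decide +kernel) (q_cons (Vale.Agent.P032.Lt.q R0Q009.q226_0) q_nil))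

theorem p227 : Pat 73 73 TBm TCm (CB.map Fm) R0Q009.P227 [] := Vale.Agent.P032.Lt.pat_eq (E' := R0Q009.E) eB (pat_end (by decide +kernel) (Vale.Agent.P032.Lt.q R0Q009.q227))

theorem p228 : Pat 73 73 TBm TCm (CB.map Fm) R0Q009.P228 R0Q009.I228 := Vale.Agent.P032.Lt.pat_eq (E' := R0Q009.E) eB (pat_step (by decide +kernel) (q_cons (Vale.Agent.P032.Lt.q R0Q009.q228_0) q_nil))

theorem p229 : Pat 73 73 TBm TCm (CB.map Fm) R0Q009.P229 R0Q009.I229 := Vale.Agent.P032.Lt.pat_eq (E' := R0Q009.E) eB (pat_step (by decide +kernel) (q_cons (Vale.Agent.P032.Lt.q R0Q009.q229_0) (q_cons (Vale.Agent.P032.Lt.q R0Q009.q229_1) (q_cons (Vale.Agent.P032.Lt.q R0Q009.q229_2) (q_cons (Vale.Agent.P032.Lt.q R0Q009.q229_3) (q_cons (Vale.Agent.P032.Lt.q R0Q009.q229_4) (q_cons (Vale.Agent.P032.Lt.q R0Q009.q229_5) (q_cons (Vale.Agent.P032.Lt.q R0Q009.q229_6) (q_cons (Vale.Agent.P032.Lt.q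 R0Q009.q229_7) (q_cons (Vale.Agent.P032.Lt.q R0Q009.q229_8) (q_cons (Vale.Agent.P032.Lt.q R0Q009.q229_9) (q_cons (Vale.Agent.P032.Lt.q R0Q009.q229_10) (q_cons (Vale.Agent.P032.Lt.q R0Q009.q229_11) (q_cons (Vale.Agent.P032.Lt.q R0Q009.q229_12) (q_cons (Vale.Agent.P032.Lt.q R0Q009.q229_13) (q_cons (Vale.Agent.P032.Lt.q R0Q009.q229_14) (q_cons (Vale.Agent.P032.Lt.q R0Q009.q229_15) (q_cons (Vale.Agent.P032.Lt.q R0Q009.q229_16) (q_cons (Vale.Agent.P032.Lt.q R0Q009.q229_17) (q_cons (Vale.Agent.P032.Lt.q R0Q009.q229_18) (q_cons (Vale.Agent.P032.Lt.q R0Q009.q229_19) (q_cons (Vale.Agent.P032.Lt.q R0Q009.q229_20) (q_cons (Vale.Agent.P032.Lt.q R0Q009.q229_21) (q_cons (Vale.Agent.P032.Lt.q R0Q009.q229_22) (q_cons (Vale.Agent.P032.Lt.q R0Q009.q229_23) (q_cons (Vale.Agent.P032.Lt.q R0Q009.q229_24) (q_cons (Vale.Agent.P032.Lt.q R0Q009.q229_25) (q_cons (Vale.Agent.P032.Lt.q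 R0Q009.q229_26) (q_cons (Vale.Agent.P032.Lt.q R0Q009.q229_27) (q_cons (Vale.Agent.P032.Lt.q R0Q009.q229_28) (q_cons (Vale.Agent.P032.Lt.q R0Q009.q229_29) (q_cons (Vale.Agent.P032.Lt.q R0Q009.q229_30) (q_cons (Vale.Agent.P032.Lt.q R0Q009.q229_31) (q_cons (Vale.Agent.P032.Lt.q R0Q009.q229_32) (q_cons (Vale.Agent.P032.Lt.q R0Q009.q229_33) (q_cons (Vale.Agent.P032.Lt.q R0Q009.q229_34) (q_cons (Vale.Agent.P032.Lt.q R0Q009.q229_35) (q_cons (Vale.Agent.P032.Lt.q R0Q009.q229_36) (q_cons (Vale.Agent.P032.Lt.q R0Q009.q229_37) (q_cons (Vale.Agent.P032.Lt.q R0Q009.q229_38) q_nil))))))))))))))))))))))))))))))))))))))))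

def C230 : List ℕ := [0, 4, 8, 12, 16, 20, 24, 475137, 607233, 737281]
theorem p230 : Pat 73 73 TBm TCm (C230.map Fm) R0Q009.P230 R0Q009.I230 := Vale.Agent.P032.Lt.pat_eq (E' := R0Q009.E230) (by decide +kernel) (pat_step (by decide +kernel) (q_cons (Vale.Agent.P032.Lt.q R0Q009.q230_0) q_nil))

theorem p231 : Pat 73 73 TBm TCm (CB.map Fm) R0Q009.P231 R0Q009.I231 := Vale.Agent.P032.Lt.pat_eq (E' := R0Q009.E) eB (pat_step (by decide +kernel) (q_cons (Vale.Agent.P032.Lt.q R0Q009.q231_0) (q_cons (Vale.Agent.P032.Lt.q R0Q009.q231_1) q_nil)))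

theorem p232 : Pat 73 73 TBm TCm (CB.map Fm) R0Q009.P232 R0Q009.I232 := Vale.Agent.P032.Lt.pat_eq (E' := R0Q009.E) eB (pat_step (by decide +kernel) (q_cons (Vale.Agent.P032.Lt.q R0Q009.q232_0) (q_cons (Vale.Agent.P032.Lt.q R0Q009.q232_1) q_nil)))

theorem p233 : Pat 73 73 TBm TCm (CB.map Fm) R0Q009.P233 R0Q009.I233 := Vale.Agent.P032.Lt.pat_eq (E' := R0Q009.E) eB (pat_step (by decide +kernel) (q_cons (Vale.Agent.P032.Lt.q R0Q009.q233_0) q_nil))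

theorem p234 : Pat 73 73 TBm TCm (CB.map Fm) R0Q009.P234 R0Q009.I234 := Vale.Agent.P032.Lt.pat_eq (E' := R0Q009.E) eB (pat_step (by decide +kernel) (q_cons (Vale.Agent.P032.Lt.q R0Q009.q234_0) (q_cons (Vale.Agent.P032.Lt.q R0Q009.q234_1) (q_cons (Vale.Agent.P032.Lt.q R0Q009.q234_2) (q_cons (Vale.Agent.P032.Lt.q R0Q009.q234_3) (q_cons (Vale.Agent.P032.Lt.q R0Q009.q234_4) (q_cons (Vale.Agent.P032.Lt.q R0Q009.q234_5) (q_cons (Vale.Agent.P032.Lt.q R0Q009.q234_6) (q_cons (Vale.Agent.P032.Lt.q R0Q009.q234_7) (q_cons (Vale.Agent.P032.Lt.q R0Q009.q234_8) (q_cons (Vale.Agent.P032.Lt.q R0Q009.q234_9) (q_cons (Vale.Agent.P032.Lt.q R0Q009.q234_10) (q_cons (Vale.Agent.P032.Lt.q R0Q009.q234_11) (q_cons (Vale.Agent.P032.Lt.q R0Q009.q234_12) (q_cons (Vale.Agent.P032.Lt.q R0Q009.q234_13) (q_cons (Vale.Agent.P032.Lt.q R0Q009.q234_14) (q_cons (Vale.Agent.P032.Lt.q R0Q009.q234_15)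 (q_cons (Vale.Agent.P032.Lt.q R0Q009.q234_16) (q_cons (Vale.Agent.P032.Lt.q R0Q009.q234_17) (q_cons (Vale.Agent.P032.Lt.q R0Q009.q234_18) (q_cons (Vale.Agent.P032.Lt.q R0Q009.q234_19) (q_cons (Vale.Agent.P032.Lt.q R0Q009.q234_20) (q_cons (Vale.Agent.P032.Lt.q R0Q009.q234_21) q_nil)))))))))))))))))))))))

theorem p235 : Pat 73 73 TBm TCm (CB.map Fm) R0Q009.P235 R0Q009.I235 := Vale.Agent.P032.Lt.pat_eq (E' := R0Q009.E) eB (pat_step (by decide +kernel) (q_cons (Vale.Agent.P032.Lt.q R0Q009.q235_0) q_nil))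

theorem p236 : Pat 73 73 TBm TCm (CB.map Fm) R0Q009.P236 R0Q009.I236 := Vale.Agent.P032.Lt.pat_eq (E' := R0Q009.E) eB (pat_step (by decide +kernel) (q_cons (Vale.Agent.P032.Lt.q R0Q009.q236_0) (q_cons (Vale.Agent.P032.Lt.q R0Q009.q236_1) (q_cons (Vale.Agent.P032.Lt.q R0Q009.q236_2) q_nil))))

theorem p237 : Pat 73 73 TBm TCm (CB.map Fm) R0Q009.P237 R0Q009.I237 := Vale.Agent.P032.Lt.pat_eq (E' := R0Q009.E) eB (pat_step (by decide +kernel) (q_cons (Vale.Agent.P032.Lt.q R0Q009.q237_0) (q_cons (Vale.Agent.P032.Lt.q R0Q009.q237_1) q_nil)))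

theorem p238 : Pat 73 73 TBm TCm (CB.map Fm) R0Q009.P238 R0Q009.I238 := Vale.Agent.P032.Lt.pat_eq (E' := R0Q009.E) eB (pat_step (by decide +kernel) (q_cons (Vale.Agent.P032.Lt.q R0Q009.q238_0) (q_cons (Vale.Agent.P032.Lt.q R0Q009.q238_1) (q_cons (Vale.Agent.P032.Lt.q R0Q009.q238_2) (q_cons (Vale.Agent.P032.Lt.q R0Q009.q238_3) q_nil)))))

theorem p239 : Pat 73 73 TBm TCm (CB.map Fm) R0Q009.P239 R0Q009.I239 := Vale.Agent.P032.Lt.pat_eq (E' := R0Q009.E) eB (pat_step (by decide +kernel) (q_cons (Vale.Agent.P032.Lt.q R0Q009.q239_0) (q_cons (Vale.Agent.P032.Lt.q R0Q009.q239_1) (q_cons (Vale.Agent.P032.Lt.q R0Q009.q239_2) (q_cons (Vale.Agent.P032.Lt.q R0Q009.q239_3) (q_cons (Vale.Agent.P032.Lt.q R0Q009.q239_4) q_nil))))))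

theorem p240 : Pat 73 73 TBm TCm (CB.map Fm) R0Q009.P240 R0Q009.I240 := Vale.Agent.P032.Lt.pat_eq (E' := R0Q009.E) eB (pat_step (by decide +kernel) (q_cons (Vale.Agent.P032.Lt.q R0Q009.q240_0) (q_cons (Vale.Agent.P032.Lt.q R0Q009.q240_1) (q_cons (Vale.Agent.P032.Lt.q R0Q009.q240_2) (q_cons (Vale.Agent.P032.Lt.q R0Q009.q240_3) (q_cons (Vale.Agent.P032.Lt.q R0Q009.q240_4) (q_cons (Vale.Agent.P032.Lt.q R0Q009.q240_5) (q_cons (Vale.Agent.P032.Lt.q R0Q009.q240_6) (q_cons (Vale.Agent.P032.Lt.q R0Q009.q240_7) q_nil)))))))))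

theorem p241 : Pat 73 73 TBm TCm (CB.map Fm) R0Q009.P241 R0Q009.I241 := Vale.Agent.P032.Lt.pat_eq (E' := R0Q009.E) eB (pat_step (by decide +kernel) (q_cons (Vale.Agent.P032.Lt.q R0Q009.q241_0) q_nil))

theorem p242 : Pat 73 73 TBm TCm (CB.map Fm) R0Q009.P242 R0Q009.I242 := Vale.Agent.P032.Lt.pat_eq (E' := R0Q009.E) eB (pat_step (by decide +kernel) (q_cons (Vale.Agent.P032.Lt.q R0Q009.q242_0) q_nil))

theorem p243 : Pat 73 73 TBm TCm (CB.map Fm) R0Q009.P243 R0Q009.I243 := Vale.Agent.P032.Lt.pat_eq (E' := R0Q009.E) eB (pat_step (by decide +kernel) (q_cons (Vale.Agent.P032.Lt.q R0Q009.q243_0) q_nil))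

def C244 : List ℕ := [0, 4, 8, 12, 16, 20, 24, 81921, 212993, 344065, 475137, 607233]
theorem p244 : Pat 73 73 TBm TCm (C244.map Fm) R0Q009.P244 R0Q009.I244 := Vale.Agent.P032.Lt.pat_eq (E' := R0Q009.E244) (by decide +kernel) (pat_step (by decide +kernel) (q_cons (Vale.Agent.P032.Lt.q R0Q009.q244_0) (q_cons (Vale.Agent.P032.Lt.q R0Q009.q244_1) (q_cons (Vale.Agent.P032.Lt.q R0Q009.q244_2) (q_cons (Vale.Agent.P032.Lt.q R0Q009.q244_3) (q_cons (Vale.Agent.P032.Lt.q R0Q009.q244_4) q_nil))))))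

theorem p245 : Pat 73 73 TBm TCm (CB.map Fm) R0Q009.P245 R0Q009.I245 := Vale.Agent.P032.Lt.pat_eq (E' := R0Q009.E) eB (pat_step (by decide +kernel) (q_cons (Vale.Agent.P032.Lt.q R0Q009.q245_0) (q_cons (Vale.Agent.P032.Lt.q R0Q009.q245_1) (q_cons (Vale.Agent.P032.Lt.q R0Q009.q245_2) (q_cons (Vale.Agent.P032.Lt.q R0Q009.q245_3) (q_cons (Vale.Agent.P032.Lt.q R0Q009.q245_4) (q_cons (Vale.Agent.P032.Lt.q R0Q009.q245_5) (q_cons (Vale.Agent.P032.Lt.q R0Q009.q245_6) (q_cons (Vale.Agent.P032.Lt.q R0Q009.q245_7) (q_cons (Vale.Agent.P032.Lt.q R0Q009.q245_8) (q_cons (Vale.Agent.P032.Lt.q R0Q009.q245_9) (q_cons (Vale.Agent.P032.Lt.q R0Q009.q245_10) (q_cons (Vale.Agent.P032.Lt.q R0Q009.q245_11) q_nil)))))))))))))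

theorem p246 : Pat 73 73 TBm TCm (CB.map Fm) R0Q009.P246 R0Q009.I246 := Vale.Agent.P032.Lt.pat_eq (E' := R0Q009.E) eB (pat_step (by decide +kernel) (q_cons (Vale.Agent.P032.Lt.q R0Q009.q246_0) q_nil))

theorem p247 : Pat 73 73 TBm TCm (CB.map Fm) R0Q010.P247 R0Q010.I247 := Vale.Agent.P032.Lt.pat_eq (E' := R0Q010.E) eB (pat_step (by decide +kernel) (q_cons (Vale.Agent.P032.Lt.q R0Q010.q247_0) (q_cons (Vale.Agent.P032.Lt.q R0Q010.q247_1) q_nil)))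

theorem p248 : Pat 73 73 TBm TCm (CB.map Fm) R0Q010.P248 R0Q010.I248 := Vale.Agent.P032.Lt.pat_eq (E' := R0Q010.E) eB (pat_step (by decide +kernel) (q_cons (Vale.Agent.P032.Lt.q R0Q010.q248_0) (q_cons (Vale.Agent.P032.Lt.q R0Q010.q248_1) (q_cons (Vale.Agent.P032.Lt.q R0Q010.q248_2) (q_cons (Vale.Agent.P032.Lt.q R0Q010.q248_3) (q_cons (Vale.Agent.P032.Lt.q R0Q010.q248_4) (q_cons (Vale.Agent.P032.Lt.q R0Q010.q248_5) (q_cons (Vale.Agent.P032.Lt.q R0Q010.q248_6) q_nil))))))))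

def C249 : List ℕ := [0, 4, 8, 12, 16, 20, 24, 475137, 737281]
theorem p249 : Pat 73 73 TBm TCm (C249.map Fm) R0Q010.P249 R0Q010.I249 := Vale.Agent.P032.Lt.pat_eq (E' := R0Q010.E249) (by decide +kernel) (pat_step (by decide +kernel) (q_cons (Vale.Agent.P032.Lt.q R0Q010.q249_0) (q_cons (Vale.Agent.P032.Lt.q R0Q010.q249_1) q_nil)))

theorem p250 : Pat 73 73 TBm TCm (CB.map Fm) R0Q010.P250 R0Q010.I250 := Vale.Agent.P032.Lt.pat_eq (E' := R0Q010.E) eB (pat_step (by decide +kernel) (q_cons (Vale.Agent.P032.Lt.q R0Q010.q250_0) q_nil))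

def C251 : List ℕ := [0, 4, 8, 12, 16, 20, 24, 344065, 475137, 617473, 737281]
theorem p251 : Pat 73 73 TBm TCm (C251.map Fm) R0Q010.P251 R0Q010.I251 := Vale.Agent.P032.Lt.pat_eq (E' := R0Q010.E251) (by decide +kernel) (pat_step (by decide +kernel) (q_cons (Vale.Agent.P032.Lt.q R0Q010.q251_0) q_nil))

def C252 : List ℕ := [0, 4, 8, 12, 16, 20, 24, 617473]
theorem p252 : Pat 73 73 TBm TCm (C252.map Fm) R0Q010.P252 R0Q010.I252 := Vale.Agent.P032.Lt.pat_eq (E' := R0Q010.E252) (by decide +kernel) (pat_step (by decide +kernel) (q_cons (Vale.Agent.P032.Lt.q R0Q010.q252_0) (q_cons (Vale.Agent.P032.Lt.q R0Q010.q252_1) (q_cons (Vale.Agent.P032.Lt.q R0Q010.q252_2) (q_cons (Vale.Agent.P032.Lt.q R0Q010.q252_3) (q_cons (Vale.Agent.P032.Lt.q R0Q010.q252_4) (q_cons (Vale.Agent.P032.Lt.q R0Q010.q252_5) (q_cons (Vale.Agent.P032.Lt.q R0Q010.q252_6) q_nil))))))))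

theorem p253 : Pat 73 73 TBm TCm (CB.map Fm) R0Q010.P253 R0Q010.I253 := Vale.Agent.P032.Lt.pat_eq (E' := R0Q010.E) eB (pat_step (by decide +kernel) (q_cons (Vale.Agent.P032.Lt.q R0Q010.q253_0) (q_cons (Vale.Agent.P032.Lt.q R0Q010.q253_1) (q_cons (Vale.Agent.P032.Lt.q R0Q010.q253_2) q_nil))))

theorem p254 : Pat 73 73 TBm TCm (CB.map Fm) R0Q010.P254 R0Q010.I254 := Vale.Agent.P032.Lt.pat_eq (E' := R0Q010.E) eB (pat_step (by decide +kernel) (q_cons (Vale.Agent.P032.Lt.q R0Q010.q254_0) (q_cons (Vale.Agent.P032.Lt.q R0Q010.q254_1) q_nil)))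

theorem p255 : Pat 73 73 TBm TCm (CB.map Fm) R0Q010.P255 R0Q010.I255 := Vale.Agent.P032.Lt.pat_eq (E' := R0Q010.E) eB (pat_step (by decide +kernel) (q_cons (Vale.Agent.P032.Lt.q R0Q010.q255_0) (q_cons (Vale.Agent.P032.Lt.q R0Q010.q255_1) q_nil)))

def L : List (List ℕ) := [R0Q005.P128, R0Q005.P129, R0Q005.P130, R0Q005.P131, R0Q005.P132, R0Q005.P133, R0Q005.P134, R0Q005.P135, R0Q005.P136, R0Q005.P137, R0Q005.P138, R0Q005.P139, R0Q005.P140, R0Q005.P141, R0Q005.P142, R0Q005.P143, R0Q005.P144, R0Q005.P145, R0Q005.P146, R0Q005.P147, R0Q005.P148, R0Q006.P149, R0Q006.P150, R0Q006.P151, R0Q006.P152, R0Q006.P153, R0Q006.P154, R0Q006.P155, R0Q006.P156, R0Q006.P157, R0Q006.P158, R0Q006.P159, R0Q006.P160, R0Q006.P161, R0Q006.P162, R0Q006.P163, R0Q006.P164, R0Q006.P165, R0Q006.P166, R0Q007.P167, R0Q007.P168, R0Q007.P169, R0Q007.P170, R0Q007.P171, R0Q007.P172, R0Q007.P173,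 R0Q007.P174, R0Q007.P175, R0Q007.P176, R0Q007.P177, R0Q007.P178, R0Q007.P179, R0Q007.P180, R0Q007.P181, R0Q007.P182, R0Q007.P183, R0Q007.P184, R0Q007.P185, R0Q007.P186, R0Q007.P187, R0Q007.P188, R0Q007.P189, R0Q008.P190, R0Q008.P191, R0Q008.P192, R0Q008.P193, R0Q008.P194, R0Q008.P195, R0Q008.P196, R0Q008.P197, R0Q008.P198, R0Q008.P199, R0Q008.P200, R0Q008.P201, R0Q008.P202, R0Q008.P203, R0Q008.P204, R0Q008.P205, R0Q008.P206, R0Q008.P207, R0Q008.P208, R0Q008.P209, R0Q008.P210, R0Q008.P211, R0Q008.P212, R0Q008.P213, R0Q008.P214, R0Q008.P215, R0Q008.P216, R0Q008.P217, R0Q008.P218, R0Q008.P219, R0Q008.P220, R0Q008.P221, R0Q008.P222, R0Q008.P223, R0Q009.P224, R0Q009.P225, R0Q009.P226, R0Q009.P227, R0Q009.P228, R0Q009.P229, R0Q009.P230, R0Q009.P231, R0Q009.P232, R0Q009.P233, R0Q009.P234, R0Q009.P235, R0Q009.P236, R0Q009.P237, R0Q009.P238, R0Q009.P239, R0Q009.P240,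 R0Q009.P241, R0Q009.P242, R0Q009.P243, R0Q009.P244, R0Q009.P245, R0Q009.P246, R0Q010.P247, R0Q010.P248, R0Q010.P249, R0Q010.P250, R0Q010.P251, R0Q010.P252, R0Q010.P253, R0Q010.P254, R0Q010.P255]

theorem all : ∀ P ∈ L, CrtF 73 73 TBm TCm (Vale.Agent.P032.Fam.fam2 (Vale.Agent.P032.Fam.im0)) P := crtF_cons p128 (crtF_cons p129 (crtF_cons p130 (crtF_cons p131 (crtF_cons p132 (crtF_cons p133 (crtF_cons p134 (crtF_cons p135 (crtF_cons p136 (crtF_cons p137 (crtF_cons p138 (crtF_cons p139 (crtF_cons p140 (crtF_cons p141 (crtF_cons p142 (crtF_cons p143 (crtF_cons p144 (crtF_cons p145 (crtF_cons p146 (crtF_cons p147 (crtF_cons p148 (crtF_cons p149 (crtF_cons p150 (crtF_cons p151 (crtF_cons p152 (crtF_cons p153 (crtF_cons p154 (crtF_cons p155 (crtF_cons p156 (crtF_cons p157 (crtF_cons p158 (crtF_cons p159 (crtF_cons p160 (crtF_cons p161 (crtF_cons p162 (crtF_cons p163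 (crtF_cons p164 (crtF_cons p165 (crtF_cons p166 (crtF_cons p167 (crtF_cons p168 (crtF_cons p169 (crtF_cons p170 (crtF_cons p171 (crtF_cons p172 (crtF_cons p173 (crtF_cons p174 (crtF_cons p175 (crtF_cons p176 (crtF_cons p177 (crtF_cons p178 (crtF_cons p179 (crtF_cons p180 (crtF_cons p181 (crtF_cons p182 (crtF_cons p183 (crtF_cons p184 (crtF_cons p185 (crtF_cons p186 (crtF_cons p187 (crtF_cons p188 (crtF_cons p189 (crtF_cons p190 (crtF_cons p191 (crtF_cons p192 (crtF_cons p193 (crtF_cons p194 (crtF_cons p195 (crtF_cons p196 (crtF_cons p197 (crtF_cons p198 (crtF_cons p199 (crtF_cons p200 (crtF_cons p201 (crtF_cons p202 (crtF_cons p203 (crtF_cons p204 (crtF_cons p205 (crtF_cons p206 (crtF_cons p207 (crtF_cons p208 (crtF_cons p209 (crtF_cons p210 (crtF_cons p211 (crtF_cons p212 (crtF_cons p213 (crtF_cons p214 (crtF_cons p215 (crtF_cons p216 (crtF_cons p217 (crtF_cons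 p218 (crtF_cons p219 (crtF_cons p220 (crtF_cons p221 (crtF_cons p222 (crtF_cons p223 (crtF_cons p224 (crtF_cons p225 (crtF_cons p226 (crtF_cons p227 (crtF_cons p228 (crtF_cons p229 (crtF_cons p230 (crtF_cons p231 (crtF_cons p232 (crtF_cons p233 (crtF_cons p234 (crtF_cons p235 (crtF_cons p236 (crtF_cons p237 (crtF_cons p238 (crtF_cons p239 (crtF_cons p240 (crtF_cons p241 (crtF_cons p242 (crtF_cons p243 (crtF_cons p244 (crtF_cons p245 (crtF_cons p246 (crtF_cons p247 (crtF_cons p248 (crtF_cons p249 (crtF_cons p250 (crtF_cons p251 (crtF_cons p252 (crtF_cons p253 (crtF_cons p254 (crtF_cons p255 crtF_nil)))))))))))))))))))))))))))))))))))))))))))))))))))))))))))))))))))))))))))))))))))))))))))))))))))))))))))))))))))))))))))))))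

theorem ch : chT 73 73 TCm s0_001 L = true := by decide +kernel

end Vale.Agent.P032X.Cert.XP.B1b.R0H001
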