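import Vale.Agent.P032X.H892.LtH
import Vale.Agent.P032X.H286.W73
import Vale.Agent.P032X.Cert.XP.B1b.R0T
import Vale.Agent.P032X.Cert.XP.B1b.R0Q018
import Vale.Agent.P032X.Cert.XP.B1b.R0Q019
import Vale.Agent.P032X.Cert.XP.B1b.R0Q020
import Vale.Agent.P032X.Cert.XP.B1b.R0Q021
import Vale.Agent.P032X.Cert.XP.B1b.R0Q022
import Vale.Agent.P032X.Cert.XP.B1b.R0Q023
import Vale.Agent.P032X.Cert.XP.B1b.R0Q024

set_option maxRecDepth 1000000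

namespace Vale.Agent.P032X.Cert.XP.B1b.R0H003

open Vale.Agent.P032.H820.K Vale.Agent.P032.H357.MK Vale.Agent.P032.H286.E Vale.Agent.P032.H61 Vale.Agent.P032X.Cert.XP.B1b

noncomputable abbrev Fm : ℕ → List ℕ := Vale.Agent.P032.Fam.fam2 (Vale.Agent.P032.Fam.im0)

def CB : List ℕ := [0, 4, 8, 12, 16, 20, 24]

theorem eB : Vale.Agent.P032.Lt.eqLL (CB.map Fm) R0Q018.E = true := by decide +kernel

def C384 : List ℕ := [0, 4, 8, 12, 16, 20, 24, 212993, 214017, 216065, 606209, 737281]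
theorem p384 : Pat 73 73 TBm TCm (C384.map Fm) R0Q018.P384 R0Q018.I384 := Vale.Agent.P032.Lt.pat_eq (E' := R0Q018.E384) (by decide +kernel) (pat_step (by decide +kernel) (q_cons (Vale.Agent.P032.Lt.q R0Q018.q384_0) (q_cons (Vale.Agent.P032.Lt.q R0Q018.q384_1) (q_cons (Vale.Agent.P032.Lt.q R0Q018.q384_2) (q_cons (Vale.Agent.P032.Lt.q R0Q018.q384_3) (q_cons (Vale.Agent.P032.Lt.q R0Q018.q384_4) (q_cons (Vale.Agent.P032.Lt.q R0Q018.q384_5) (q_cons (Vale.Agent.P032.Lt.q R0Q018.q384_6) q_nil))))))))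

theorem p385 : Pat 73 73 TBm TCm (CB.map Fm) R0Q018.P385 R0Q018.I385 := Vale.Agent.P032.Lt.pat_eq (E' := R0Q018.E) eB (pat_step (by decide +kernel) (q_cons (Vale.Agent.P032.Lt.q R0Q018.q385_0) (q_cons (Vale.Agent.P032.Lt.q R0Q018.q385_1) (q_cons (Vale.Agent.P032.Lt.q R0Q018.q385_2) q_nil))))

theorem p386 : Pat 73 73 TBm TCm (CB.map Fm) R0Q018.P386 R0Q018.I386 := Vale.Agent.P032.Lt.pat_eq (E' := R0Q018.E) eB (pat_step (by decide +kernel) (q_cons (Vale.Agent.P032.Lt.q R0Q018.q386_0) (q_cons (Vale.Agent.P032.Lt.q R0Q018.q386_1) (q_cons (Vale.Agent.P032.Lt.q R0Q018.q386_2) (q_cons (Vale.Agent.P032.Lt.q R0Q018.q386_3) (q_cons (Vale.Agent.P032.Lt.q R0Q018.q386_4) q_nil))))))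

theorem p387 : Pat 73 73 TBm TCm (CB.map Fm) R0Q018.P387 R0Q018.I387 := Vale.Agent.P032.Lt.pat_eq (E' := R0Q018.E) eB (pat_step (by decide +kernel) (q_cons (Vale.Agent.P032.Lt.q R0Q018.q387_0) (q_cons (Vale.Agent.P032.Lt.q R0Q018.q387_1) (q_cons (Vale.Agent.P032.Lt.q R0Q018.q387_2) (q_cons (Vale.Agent.P032.Lt.q R0Q018.q387_3) (q_cons (Vale.Agent.P032.Lt.q R0Q018.q387_4) (q_cons (Vale.Agent.P032.Lt.q R0Q018.q387_5) (q_cons (Vale.Agent.P032.Lt.q R0Q018.q387_6) (q_cons (Vale.Agent.P032.Lt.q R0Q018.q387_7) (q_cons (Vale.Agent.P032.Lt.q R0Q018.q387_8) (q_cons (Vale.Agent.P032.Lt.q R0Q018.q387_9) (q_cons (Vale.Agent.P032.Lt.q R0Q018.q387_10) (q_cons (Vale.Agent.P032.Lt.q R0Q018.q387_11) q_nil)))))))))))))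

theorem p388 : Pat 73 73 TBm TCm (CB.map Fm) R0Q018.P388 R0Q018.I388 := Vale.Agent.P032.Lt.pat_eq (E' := R0Q018.E) eB (pat_step (by decide +kernel) (q_cons (Vale.Agent.P032.Lt.q R0Q018.q388_0) (q_cons (Vale.Agent.P032.Lt.q R0Q018.q388_1) (q_cons (Vale.Agent.P032.Lt.q R0Q018.q388_2) (q_cons (Vale.Agent.P032.Lt.q R0Q018.q388_3) (q_cons (Vale.Agent.P032.Lt.q R0Q018.q388_4) q_nil))))))

theorem p389 : Pat 73 73 TBm TCm (CB.map Fm) R0Q018.P389 R0Q018.I389 := Vale.Agent.P032.Lt.pat_eq (E' := R0Q018.E) eB (pat_step (by decide +kernel) (q_cons (Vale.Agent.P032.Lt.q R0Q018.q389_0) (q_cons (Vale.Agent.P032.Lt.q R0Q018.q389_1) (q_cons (Vale.Agent.P032.Lt.q R0Q018.q389_2) (q_cons (Vale.Agent.P032.Lt.q R0Q018.q389_3) (q_cons (Vale.Agent.P032.Lt.q R0Q018.q389_4) q_nil))))))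

theorem p390 : Pat 73 73 TBm TCm (CB.map Fm) R0Q018.P390 R0Q018.I390 := Vale.Agent.P032.Lt.pat_eq (E' := R0Q018.E) eB (pat_step (by decide +kernel) (q_cons (Vale.Agent.P032.Lt.q R0Q018.q390_0) (q_cons (Vale.Agent.P032.Lt.q R0Q018.q390_1) (q_cons (Vale.Agent.P032.Lt.q R0Q018.q390_2) (q_cons (Vale.Agent.P032.Lt.q R0Q018.q390_3) (q_cons (Vale.Agent.P032.Lt.q R0Q018.q390_4) (q_cons (Vale.Agent.P032.Lt.q R0Q018.q390_5) (q_cons (Vale.Agent.P032.Lt.q R0Q018.q390_6) (q_cons (Vale.Agent.P032.Lt.q R0Q018.q390_7) (q_cons (Vale.Agent.P032.Lt.q R0Q018.q390_8) (q_cons (Vale.Agent.P032.Lt.q R0Q018.q390_9) (q_cons (Vale.Agent.P032.Lt.q R0Q018.q390_10) (q_cons (Vale.Agent.P032.Lt.q R0Q018.q390_11) q_nil)))))))))))))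

theorem p391 : Pat 73 73 TBm TCm (CB.map Fm) R0Q018.P391 R0Q018.I391 := Vale.Agent.P032.Lt.pat_eq (E' := R0Q018.E) eB (pat_step (by decide +kernel) (q_cons (Vale.Agent.P032.Lt.q R0Q018.q391_0) (q_cons (Vale.Agent.P032.Lt.q R0Q018.q391_1) (q_cons (Vale.Agent.P032.Lt.q R0Q018.q391_2) q_nil))))

theorem p392 : Pat 73 73 TBm TCm (CB.map Fm) R0Q018.P392 R0Q018.I392 := Vale.Agent.P032.Lt.pat_eq (E' := R0Q018.E) eB (pat_step (by decide +kernel) (q_cons (Vale.Agent.P032.Lt.q R0Q018.q392_0) (q_cons (Vale.Agent.P032.Lt.q R0Q018.q392_1) (q_cons (Vale.Agent.P032.Lt.q R0Q018.q392_2) (q_cons (Vale.Agent.P032.Lt.q R0Q018.q392_3) (q_cons (Vale.Agent.P032.Lt.q R0Q018.q392_4) (q_cons (Vale.Agent.P032.Lt.q R0Q018.q392_5) (q_cons (Vale.Agent.P032.Lt.q R0Q018.q392_6) (q_cons (Vale.Agent.P032.Lt.q R0Q018.q392_7) (q_cons (Vale.Agent.P032.Lt.q R0Q018.q392_8) (q_cons (Vale.Agent.P032.Lt.q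 R0Q018.q392_9) q_nil)))))))))))

theorem p393 : Pat 73 73 TBm TCm (CB.map Fm) R0Q018.P393 R0Q018.I393 := Vale.Agent.P032.Lt.pat_eq (E' := R0Q018.E) eB (pat_step (by decide +kernel) (q_cons (Vale.Agent.P032.Lt.q R0Q018.q393_0) (q_cons (Vale.Agent.P032.Lt.q R0Q018.q393_1) (q_cons (Vale.Agent.P032.Lt.q R0Q018.q393_2) (q_cons (Vale.Agent.P032.Lt.q R0Q018.q393_3) (q_cons (Vale.Agent.P032.Lt.q R0Q018.q393_4) (q_cons (Vale.Agent.P032.Lt.q R0Q018.q393_5) (q_cons (Vale.Agent.P032.Lt.q R0Q018.q393_6) (q_cons (Vale.Agent.P032.Lt.q R0Q018.q393_7) q_nil)))))))))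

theorem p394 : Pat 73 73 TBm TCm (CB.map Fm) R0Q018.P394 R0Q018.I394 := Vale.Agent.P032.Lt.pat_eq (E' := R0Q018.E) eB (pat_step (by decide +kernel) (q_cons (Vale.Agent.P032.Lt.q R0Q018.q394_0) (q_cons (Vale.Agent.P032.Lt.q R0Q018.q394_1) (q_cons (Vale.Agent.P032.Lt.q R0Q018.q394_2) (q_cons (Vale.Agent.P032.Lt.q R0Q018.q394_3) (q_cons (Vale.Agent.P032.Lt.q R0Q018.q394_4) (q_cons (Vale.Agent.P032.Lt.q R0Q018.q394_5) (q_cons (Vale.Agent.P032.Lt.q R0Q018.q394_6) (q_cons (Vale.Agent.P032.Lt.q R0Q018.q394_7) (q_cons (Vale.Agent.P032.Lt.q R0Q018.q394_8) (q_cons (Vale.Agent.P032.Lt.q R0Q018.q394_9) q_nil)))))))))))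

theorem p395 : Pat 73 73 TBm TCm (CB.map Fm) R0Q018.P395 R0Q018.I395 := Vale.Agent.P032.Lt.pat_eq (E' := R0Q018.E) eB (pat_step (by decide +kernel) (q_cons (Vale.Agent.P032.Lt.q R0Q018.q395_0) (q_cons (Vale.Agent.P032.Lt.q R0Q018.q395_1) (q_cons (Vale.Agent.P032.Lt.q R0Q018.q395_2) (q_cons (Vale.Agent.P032.Lt.q R0Q018.q395_3) (q_cons (Vale.Agent.P032.Lt.q R0Q018.q395_4) (q_cons (Vale.Agent.P032.Lt.q R0Q018.q395_5) (q_cons (Vale.Agent.P032.Lt.q R0Q018.q395_6) (q_cons (Vale.Agent.P032.Lt.q R0Q018.q395_7) q_nil)))))))))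

theorem p396 : Pat 73 73 TBm TCm (CB.map Fm) R0Q018.P396 R0Q018.I396 := Vale.Agent.P032.Lt.pat_eq (E' := R0Q018.E) eB (pat_step (by decide +kernel) (q_cons (Vale.Agent.P032.Lt.q R0Q018.q396_0) (q_cons (Vale.Agent.P032.Lt.q R0Q018.q396_1) (q_cons (Vale.Agent.P032.Lt.q R0Q018.q396_2) q_nil))))

theorem p397 : Pat 73 73 TBm TCm (CB.map Fm) R0Q018.P397 R0Q018.I397 := Vale.Agent.P032.Lt.pat_eq (E' := R0Q018.E) eB (pat_step (by decide +kernel) (q_cons (Vale.Agent.P032.Lt.q R0Q018.q397_0) (q_cons (Vale.Agent.P032.Lt.q R0Q018.q397_1) (q_cons (Vale.Agent.P032.Lt.q R0Q018.q397_2) q_nil))))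

theorem p398 : Pat 73 73 TBm TCm (CB.map Fm) R0Q018.P398 R0Q018.I398 := Vale.Agent.P032.Lt.pat_eq (E' := R0Q018.E) eB (pat_step (by decide +kernel) (q_cons (Vale.Agent.P032.Lt.q R0Q018.q398_0) (q_cons (Vale.Agent.P032.Lt.q R0Q018.q398_1) (q_cons (Vale.Agent.P032.Lt.q R0Q018.q398_2) (q_cons (Vale.Agent.P032.Lt.q R0Q018.q398_3) q_nil)))))

def C399 : List ℕ := [0, 4, 8, 12, 16, 20, 24, 355329]
theorem p399 : Pat 73 73 TBm TCm (C399.map Fm) R0Q018.P399 R0Q018.I399 := Vale.Agent.P032.Lt.pat_eq (E' := R0Q018.E399) (by decide +kernel) (pat_step (by decide +kernel) (q_cons (Vale.Agent.P032.Lt.q R0Q018.q399_0) (q_cons (Vale.Agent.P032.Lt.q R0Q018.q399_1) (q_cons (Vale.Agent.P032.Lt.q R0Q018.q399_2) (q_cons (Vale.Agent.P032.Lt.q R0Q018.q399_3) q_nil)))))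

def C400 : List ℕ := [0, 4, 8, 12, 16, 20, 24, 217089, 346113, 477185, 479233, 481281, 608257, 610305, 612353, 741377]
theorem p400 : Pat 73 73 TBm TCm (C400.map Fm) R0Q018.P400 R0Q018.I400 := Vale.Agent.P032.Lt.pat_eq (E' := R0Q018.E400) (by decide +kernel) (pat_step (by decide +kernel) (q_cons (Vale.Agent.P032.Lt.q R0Q018.q400_0) q_nil))

theorem p401 : Pat 73 73 TBm TCm (CB.map Fm) R0Q018.P401 R0Q018.I401 := Vale.Agent.P032.Lt.pat_eq (E' := R0Q018.E) eB (pat_step (by decide +kernel) (q_cons (Vale.Agent.P032.Lt.q R0Q018.q401_0) (q_cons (Vale.Agent.P032.Lt.q R0Q018.q401_1) (q_cons (Vale.Agent.P032.Lt.q R0Q018.q401_2) q_nil))))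

theorem p402 : Pat 73 73 TBm TCm (CB.map Fm) R0Q018.P402 R0Q018.I402 := Vale.Agent.P032.Lt.pat_eq (E' := R0Q018.E) eB (pat_step (by decide +kernel) (q_cons (Vale.Agent.P032.Lt.q R0Q018.q402_0) (q_cons (Vale.Agent.P032.Lt.q R0Q018.q402_1) (q_cons (Vale.Agent.P032.Lt.q R0Q018.q402_2) (q_cons (Vale.Agent.P032.Lt.q R0Q018.q402_3) (q_cons (Vale.Agent.P032.Lt.q R0Q018.q402_4) (q_cons (Vale.Agent.P032.Lt.q R0Q018.q402_5) (q_cons (Vale.Agent.P032.Lt.q R0Q018.q402_6) (q_cons (Vale.Agent.P032.Lt.q R0Q018.q402_7) q_nil)))))))))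

theorem p403 : Pat 73 73 TBm TCm (CB.map Fm) R0Q018.P403 R0Q018.I403 := Vale.Agent.P032.Lt.pat_eq (E' := R0Q018.E) eB (pat_step (by decide +kernel) (q_cons (Vale.Agent.P032.Lt.q R0Q018.q403_0) (q_cons (Vale.Agent.P032.Lt.q R0Q018.q403_1) q_nil)))

theorem p404 : Pat 73 73 TBm TCm (CB.map Fm) R0Q018.P404 R0Q018.I404 := Vale.Agent.P032.Lt.pat_eq (E' := R0Q018.E) eB (pat_step (by decide +kernel) (q_cons (Vale.Agent.P032.Lt.q R0Q018.q404_0) q_nil))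

theorem p405 : Pat 73 73 TBm TCm (CB.map Fm) R0Q019.P405 R0Q019.I405 := Vale.Agent.P032.Lt.pat_eq (E' := R0Q019.E) eB (pat_step (by decide +kernel) (q_cons (Vale.Agent.P032.Lt.q R0Q019.q405_0) (q_cons (Vale.Agent.P032.Lt.q R0Q019.q405_1) q_nil)))

def C406 : List ℕ := [0, 4, 8, 12, 16, 20, 24, 212993, 344065, 475137, 737281]
theorem p406 : Pat 73 73 TBm TCm (C406.map Fm) R0Q019.P406 R0Q019.I406 := Vale.Agent.P032.Lt.pat_eq (E' := R0Q019.E406) (by decide +kernel) (pat_step (by decide +kernel) (q_cons (Vale.Agent.P032.Lt.q R0Q019.q406_0) (q_cons (Vale.Agent.P032.Lt.q R0Q019.q406_1) q_nil)))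

theorem p407 : Pat 73 73 TBm TCm (CB.map Fm) R0Q019.P407 R0Q019.I407 := Vale.Agent.P032.Lt.pat_eq (E' := R0Q019.E) eB (pat_step (by decide +kernel) (q_cons (Vale.Agent.P032.Lt.q R0Q019.q407_0) q_nil))

def C408 : List ℕ := [0, 4, 8, 12, 16, 20, 24, 475137, 606209, 737281]
theorem p408 : Pat 73 73 TBm TCm (C408.map Fm) R0Q019.P408 R0Q019.I408 := Vale.Agent.P032.Lt.pat_eq (E' := R0Q019.E408) (by decide +kernel) (pat_step (by decide +kernel) (q_cons (Vale.Agent.P032.Lt.q R0Q019.q408_0) q_nil))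

theorem p409 : Pat 73 73 TBm TCm (CB.map Fm) R0Q019.P409 R0Q019.I409 := Vale.Agent.P032.Lt.pat_eq (E' := R0Q019.E) eB (pat_step (by decide +kernel) (q_cons (Vale.Agent.P032.Lt.q R0Q019.q409_0) (q_cons (Vale.Agent.P032.Lt.q R0Q019.q409_1) (q_cons (Vale.Agent.P032.Lt.q R0Q019.q409_2) q_nil))))

theorem p410 : Pat 73 73 TBm TCm (CB.map Fm) R0Q019.P410 R0Q019.I410 := Vale.Agent.P032.Lt.pat_eq (E' := R0Q019.E) eB (pat_step (by decide +kernel) (q_cons (Vale.Agent.P032.Lt.q R0Q019.q410_0) (q_cons (Vale.Agent.P032.Lt.q R0Q019.q410_1) q_nil)))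

theorem p411 : Pat 73 73 TBm TCm (CB.map Fm) R0Q019.P411 R0Q019.I411 := Vale.Agent.P032.Lt.pat_eq (E' := R0Q019.E) eB (pat_step (by decide +kernel) (q_cons (Vale.Agent.P032.Lt.q R0Q019.q411_0) q_nil))

theorem p412 : Pat 73 73 TBm TCm (CB.map Fm) R0Q019.P412 [] := Vale.Agent.P032.Lt.pat_eq (E' := R0Q019.E) eB (pat_end (by decide +kernel) (Vale.Agent.P032.Lt.q R0Q019.q412))

theorem p413 : Pat 73 73 TBm TCm (CB.map Fm) R0Q019.P413 R0Q019.I413 := Vale.Agent.P032.Lt.pat_eq (E' := R0Q019.E) eB (pat_step (by decide +kernel) (q_cons (Vale.Agent.P032.Lt.q R0Q019.q413_0) (q_cons (Vale.Agent.P032.Lt.q R0Q019.q413_1) q_nil)))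

def C414 : List ℕ := [0, 4, 8, 12, 16, 20, 24, 212993, 344065, 475137, 606209, 737281]
theorem p414 : Pat 73 73 TBm TCm (C414.map Fm) R0Q019.P414 R0Q019.I414 := Vale.Agent.P032.Lt.pat_eq (E' := R0Q019.E414) (by decide +kernel) (pat_step (by decide +kernel) (q_cons (Vale.Agent.P032.Lt.q R0Q019.q414_0) q_nil))

theorem p415 : Pat 73 73 TBm TCm (CB.map Fm) R0Q019.P415 R0Q019.I415 := Vale.Agent.P032.Lt.pat_eq (E' := R0Q019.E) eB (pat_step (by decide +kernel) (q_cons (Vale.Agent.P032.Lt.q R0Q019.q415_0) (q_cons (Vale.Agent.P032.Lt.q R0Q019.q415_1) (q_cons (Vale.Agent.P032.Lt.q R0Q019.q415_2) (q_cons (Vale.Agent.P032.Lt.q R0Q019.q415_3) (q_cons (Vale.Agent.P032.Lt.q R0Q019.q415_4) (q_cons (Vale.Agent.P032.Lt.q R0Q019.q415_5) (q_cons (Vale.Agent.P032.Lt.q R0Q019.q415_6) (q_cons (Vale.Agent.P032.Lt.q R0Q019.q415_7) (q_cons (Vale.Agent.P032.Lt.q R0Q019.q415_8)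 (q_cons (Vale.Agent.P032.Lt.q R0Q019.q415_9) (q_cons (Vale.Agent.P032.Lt.q R0Q019.q415_10) (q_cons (Vale.Agent.P032.Lt.q R0Q019.q415_11) (q_cons (Vale.Agent.P032.Lt.q R0Q019.q415_12) (q_cons (Vale.Agent.P032.Lt.q R0Q019.q415_13) (q_cons (Vale.Agent.P032.Lt.q R0Q019.q415_14) (q_cons (Vale.Agent.P032.Lt.q R0Q019.q415_15) (q_cons (Vale.Agent.P032.Lt.q R0Q019.q415_16) (q_cons (Vale.Agent.P032.Lt.q R0Q019.q415_17) (q_cons (Vale.Agent.P032.Lt.q R0Q019.q415_18) (q_cons (Vale.Agent.P032.Lt.q R0Q019.q415_19) (q_cons (Vale.Agent.P032.Lt.q R0Q019.q415_20) (q_cons (Vale.Agent.P032.Lt.q R0Q019.q415_21) (q_cons (Vale.Agent.P032.Lt.q R0Q019.q415_22) (q_cons (Vale.Agent.P032.Lt.q R0Q019.q415_23) (q_cons (Vale.Agent.P032.Lt.q R0Q019.q415_24) q_nil))))))))))))))))))))))))))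

theorem p416 : Pat 73 73 TBm TCm (CB.map Fm) R0Q019.P416 R0Q019.I416 := Vale.Agent.P032.Lt.pat_eq (E' := R0Q019.E) eB (pat_step (by decide +kernel) (q_cons (Vale.Agent.P032.Lt.q R0Q019.q416_0) (q_cons (Vale.Agent.P032.Lt.q R0Q019.q416_1) (q_cons (Vale.Agent.P032.Lt.q R0Q019.q416_2) (q_cons (Vale.Agent.P032.Lt.q R0Q019.q416_3) (q_cons (Vale.Agent.P032.Lt.q R0Q019.q416_4) (q_cons (Vale.Agent.P032.Lt.q R0Q019.q416_5) (q_cons (Vale.Agent.P032.Lt.q R0Q019.q416_6) (q_cons (Vale.Agent.P032.Lt.q R0Q019.q416_7) (q_cons (Vale.Agent.P032.Lt.q R0Q019.q416_8) q_nil))))))))))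

def C417 : List ℕ := [0, 4, 8, 12, 16, 20, 24, 222209]
theorem p417 : Pat 73 73 TBm TCm (C417.map Fm) R0Q019.P417 R0Q019.I417 := Vale.Agent.P032.Lt.pat_eq (E' := R0Q019.E417) (by decide +kernel) (pat_step (by decide +kernel) (q_cons (Vale.Agent.P032.Lt.q R0Q019.q417_0) (q_cons (Vale.Agent.P032.Lt.q R0Q019.q417_1) (q_cons (Vale.Agent.P032.Lt.q R0Q019.q417_2) (q_cons (Vale.Agent.P032.Lt.q R0Q019.q417_3) (q_cons (Vale.Agent.P032.Lt.q R0Q019.q417_4) (q_cons (Vale.Agent.P032.Lt.q R0Q019.q417_5) (q_cons (Vale.Agent.P032.Lt.q R0Q019.q417_6) (q_cons (Vale.Agent.P032.Lt.q R0Q019.q417_7) (q_cons (Vale.Agent.P032.Lt.q R0Q019.q417_8) (q_cons (Vale.Agent.P032.Lt.q R0Q019.q417_9) (q_cons (Vale.Agent.P032.Lt.q R0Q019.q417_10) (q_cons (Vale.Agent.P032.Lt.q R0Q019.q417_11) (q_cons (Vale.Agent.P032.Lt.q R0Q019.q417_12) q_nil))))))))))))))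

theorem p418 : Pat 73 73 TBm TCm (CB.map Fm) R0Q019.P418 R0Q019.I418 := Vale.Agent.P032.Lt.pat_eq (E' := R0Q019.E) eB (pat_step (by decide +kernel) (q_cons (Vale.Agent.P032.Lt.q R0Q019.q418_0) (q_cons (Vale.Agent.P032.Lt.q R0Q019.q418_1) (q_cons (Vale.Agent.P032.Lt.q R0Q019.q418_2) (q_cons (Vale.Agent.P032.Lt.q R0Q019.q418_3) (q_cons (Vale.Agent.P032.Lt.q R0Q019.q418_4) (q_cons (Vale.Agent.P032.Lt.q R0Q019.q418_5) (q_cons (Vale.Agent.P032.Lt.q R0Q019.q418_6) q_nil))))))))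

def C419 : List ℕ := [0, 4, 8, 12, 16, 20, 24, 222209, 606209, 737281]
theorem p419 : Pat 73 73 TBm TCm (C419.map Fm) R0Q019.P419 R0Q019.I419 := Vale.Agent.P032.Lt.pat_eq (E' := R0Q019.E419) (by decide +kernel) (pat_step (by decide +kernel) (q_cons (Vale.Agent.P032.Lt.q R0Q019.q419_0) (q_cons (Vale.Agent.P032.Lt.q R0Q019.q419_1) (q_cons (Vale.Agent.P032.Lt.q R0Q019.q419_2) (q_cons (Vale.Agent.P032.Lt.q R0Q019.q419_3) (q_cons (Vale.Agent.P032.Lt.q R0Q019.q419_4) (q_cons (Vale.Agent.P032.Lt.q R0Q019.q419_5) (q_cons (Vale.Agent.P032.Lt.q R0Q019.q419_6) (q_cons (Vale.Agent.P032.Lt.q R0Q019.q419_7) (q_cons (Vale.Agent.P032.Lt.q R0Q019.q419_8) (q_cons (Vale.Agent.P032.Lt.q R0Q019.q419_9) (q_cons (Vale.Agent.P032.Lt.q R0Q019.q419_10) (q_cons (Vale.Agent.P032.Lt.q R0Q019.q419_11) (q_cons (Vale.Agent.P032.Lt.q R0Q019.q419_12) (q_cons (Vale.Agent.P032.Lt.q R0Q019.q419_13)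 q_nil)))))))))))))))

theorem p420 : Pat 73 73 TBm TCm (CB.map Fm) R0Q019.P420 R0Q019.I420 := Vale.Agent.P032.Lt.pat_eq (E' := R0Q019.E) eB (pat_step (by decide +kernel) (q_cons (Vale.Agent.P032.Lt.q R0Q019.q420_0) q_nil))

theorem p421 : Pat 73 73 TBm TCm (CB.map Fm) R0Q019.P421 R0Q019.I421 := Vale.Agent.P032.Lt.pat_eq (E' := R0Q019.E) eB (pat_step (by decide +kernel) (q_cons (Vale.Agent.P032.Lt.q R0Q019.q421_0) (q_cons (Vale.Agent.P032.Lt.q R0Q019.q421_1) q_nil)))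

theorem p422 : Pat 73 73 TBm TCm (CB.map Fm) R0Q019.P422 R0Q019.I422 := Vale.Agent.P032.Lt.pat_eq (E' := R0Q019.E) eB (pat_step (by decide +kernel) (q_cons (Vale.Agent.P032.Lt.q R0Q019.q422_0) (q_cons (Vale.Agent.P032.Lt.q R0Q019.q422_1) (q_cons (Vale.Agent.P032.Lt.q R0Q019.q422_2) (q_cons (Vale.Agent.P032.Lt.q R0Q019.q422_3) (q_cons (Vale.Agent.P032.Lt.q R0Q019.q422_4) q_nil))))))

theorem p423 : Pat 73 73 TBm TCm (CB.map Fm) R0Q019.P423 R0Q019.I423 := Vale.Agent.P032.Lt.pat_eq (E' := R0Q019.E) eB (pat_step (by decide +kernel) (q_cons (Vale.Agent.P032.Lt.q R0Q019.q423_0) (q_cons (Vale.Agent.P032.Lt.q R0Q019.q423_1) q_nil)))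

theorem p424 : Pat 73 73 TBm TCm (CB.map Fm) R0Q019.P424 R0Q019.I424 := Vale.Agent.P032.Lt.pat_eq (E' := R0Q019.E) eB (pat_step (by decide +kernel) (q_cons (Vale.Agent.P032.Lt.q R0Q019.q424_0) (q_cons (Vale.Agent.P032.Lt.q R0Q019.q424_1) (q_cons (Vale.Agent.P032.Lt.q R0Q019.q424_2) q_nil))))

theorem p425 : Pat 73 73 TBm TCm (CB.map Fm) R0Q019.P425 R0Q019.I425 := Vale.Agent.P032.Lt.pat_eq (E' := R0Q019.E) eB (pat_step (by decide +kernel) (q_cons (Vale.Agent.P032.Lt.q R0Q019.q425_0) (q_cons (Vale.Agent.P032.Lt.q R0Q019.q425_1) q_nil)))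

theorem p426 : Pat 73 73 TBm TCm (CB.map Fm) R0Q019.P426 R0Q019.I426 := Vale.Agent.P032.Lt.pat_eq (E' := R0Q019.E) eB (pat_step (by decide +kernel) (q_cons (Vale.Agent.P032.Lt.q R0Q019.q426_0) (q_cons (Vale.Agent.P032.Lt.q R0Q019.q426_1) (q_cons (Vale.Agent.P032.Lt.q R0Q019.q426_2) (q_cons (Vale.Agent.P032.Lt.q R0Q019.q426_3) (q_cons (Vale.Agent.P032.Lt.q R0Q019.q426_4) (q_cons (Vale.Agent.P032.Lt.q R0Q019.q426_5) q_nil)))))))

theorem p427 : Pat 73 73 TBm TCm (CB.map Fm) R0Q019.P427 R0Q019.I427 := Vale.Agent.P032.Lt.pat_eq (E' := R0Q019.E) eB (pat_step (by decide +kernel) (q_cons (Vale.Agent.P032.Lt.q R0Q019.q427_0) (q_cons (Vale.Agent.P032.Lt.q R0Q019.q427_1) (q_cons (Vale.Agent.P032.Lt.q R0Q019.q427_2) q_nil))))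

theorem p428 : Pat 73 73 TBm TCm (CB.map Fm) R0Q019.P428 R0Q019.I428 := Vale.Agent.P032.Lt.pat_eq (E' := R0Q019.E) eB (pat_step (by decide +kernel) (q_cons (Vale.Agent.P032.Lt.q R0Q019.q428_0) q_nil))

theorem p429 : Pat 73 73 TBm TCm (CB.map Fm) R0Q020.P429 R0Q020.I429 := Vale.Agent.P032.Lt.pat_eq (E' := R0Q020.E) eB (pat_step (by decide +kernel) (q_cons (Vale.Agent.P032.Lt.q R0Q020.q429_0) (q_cons (Vale.Agent.P032.Lt.q R0Q020.q429_1) (q_cons (Vale.Agent.P032.Lt.q R0Q020.q429_2) (q_cons (Vale.Agent.P032.Lt.q R0Q020.q429_3) (q_cons (Vale.Agent.P032.Lt.q R0Q020.q429_4) (q_cons (Vale.Agent.P032.Lt.q R0Q020.q429_5) (q_cons (Vale.Agent.P032.Lt.q R0Q020.q429_6) q_nil))))))))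

theorem p430 : Pat 73 73 TBm TCm (CB.map Fm) R0Q020.P430 R0Q020.I430 := Vale.Agent.P032.Lt.pat_eq (E' := R0Q020.E) eB (pat_step (by decide +kernel) (q_cons (Vale.Agent.P032.Lt.q R0Q020.q430_0) (q_cons (Vale.Agent.P032.Lt.q R0Q020.q430_1) (q_cons (Vale.Agent.P032.Lt.q R0Q020.q430_2) (q_cons (Vale.Agent.P032.Lt.q R0Q020.q430_3) (q_cons (Vale.Agent.P032.Lt.q R0Q020.q430_4) q_nil))))))

theorem p431 : Pat 73 73 TBm TCm (CB.map Fm) R0Q020.P431 R0Q020.I431 := Vale.Agent.P032.Lt.pat_eq (E' := R0Q020.E) eB (pat_step (by decide +kernel) (q_cons (Vale.Agent.P032.Lt.q R0Q020.q431_0) (q_cons (Vale.Agent.P032.Lt.q R0Q020.q431_1) (q_cons (Vale.Agent.P032.Lt.q R0Q020.q431_2) (q_cons (Vale.Agent.P032.Lt.q R0Q020.q431_3) (q_cons (Vale.Agent.P032.Lt.q R0Q020.q431_4) (q_cons (Vale.Agent.P032.Lt.q R0Q020.q431_5) (q_cons (Vale.Agent.P032.Lt.q R0Q020.q431_6) (q_cons (Vale.Agent.P032.Lt.q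 R0Q020.q431_7) (q_cons (Vale.Agent.P032.Lt.q R0Q020.q431_8) (q_cons (Vale.Agent.P032.Lt.q R0Q020.q431_9) (q_cons (Vale.Agent.P032.Lt.q R0Q020.q431_10) (q_cons (Vale.Agent.P032.Lt.q R0Q020.q431_11) q_nil)))))))))))))

theorem p432 : Pat 73 73 TBm TCm (CB.map Fm) R0Q020.P432 R0Q020.I432 := Vale.Agent.P032.Lt.pat_eq (E' := R0Q020.E) eB (pat_step (by decide +kernel) (q_cons (Vale.Agent.P032.Lt.q R0Q020.q432_0) (q_cons (Vale.Agent.P032.Lt.q R0Q020.q432_1) q_nil)))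

theorem p433 : Pat 73 73 TBm TCm (CB.map Fm) R0Q020.P433 R0Q020.I433 := Vale.Agent.P032.Lt.pat_eq (E' := R0Q020.E) eB (pat_step (by decide +kernel) (q_cons (Vale.Agent.P032.Lt.q R0Q020.q433_0) (q_cons (Vale.Agent.P032.Lt.q R0Q020.q433_1) (q_cons (Vale.Agent.P032.Lt.q R0Q020.q433_2) (q_cons (Vale.Agent.P032.Lt.q R0Q020.q433_3) (q_cons (Vale.Agent.P032.Lt.q R0Q020.q433_4) (q_cons (Vale.Agent.P032.Lt.q R0Q020.q433_5) (q_cons (Vale.Agent.P032.Lt.q R0Q020.q433_6) (q_cons (Vale.Agent.P032.Lt.q R0Q020.q433_7) (q_cons (Vale.Agent.P032.Lt.q R0Q020.q433_8) (q_cons (Vale.Agent.P032.Lt.q R0Q020.q433_9) (q_cons (Vale.Agent.P032.Lt.q R0Q020.q433_10) (q_cons (Vale.Agent.P032.Lt.q R0Q020.q433_11) (q_cons (Vale.Agent.P032.Lt.q R0Q020.q433_12) (q_cons (Vale.Agent.P032.Lt.q R0Q020.q433_13) q_nil)))))))))))))))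

theorem p434 : Pat 73 73 TBm TCm (CB.map Fm) R0Q020.P434 R0Q020.I434 := Vale.Agent.P032.Lt.pat_eq (E' := R0Q020.E) eB (pat_step (by decide +kernel) (q_cons (Vale.Agent.P032.Lt.q R0Q020.q434_0) (q_cons (Vale.Agent.P032.Lt.q R0Q020.q434_1) (q_cons (Vale.Agent.P032.Lt.q R0Q020.q434_2) (q_cons (Vale.Agent.P032.Lt.q R0Q020.q434_3) (q_cons (Vale.Agent.P032.Lt.q R0Q020.q434_4) (q_cons (Vale.Agent.P032.Lt.q R0Q020.q434_5) (q_cons (Vale.Agent.P032.Lt.q R0Q020.q434_6) (q_cons (Vale.Agent.P032.Lt.q R0Q020.q434_7) q_nil)))))))))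

theorem p435 : Pat 73 73 TBm TCm (CB.map Fm) R0Q020.P435 R0Q020.I435 := Vale.Agent.P032.Lt.pat_eq (E' := R0Q020.E) eB (pat_step (by decide +kernel) (q_cons (Vale.Agent.P032.Lt.q R0Q020.q435_0) (q_cons (Vale.Agent.P032.Lt.q R0Q020.q435_1) (q_cons (Vale.Agent.P032.Lt.q R0Q020.q435_2) (q_cons (Vale.Agent.P032.Lt.q R0Q020.q435_3) q_nil)))))

theorem p436 : Pat 73 73 TBm TCm (CB.map Fm) R0Q020.P436 R0Q020.I436 := Vale.Agent.P032.Lt.pat_eq (E' := R0Q020.E) eB (pat_step (by decide +kernel) (q_cons (Vale.Agent.P032.Lt.q R0Q020.q436_0) (q_cons (Vale.Agent.P032.Lt.q R0Q020.q436_1) (q_cons (Vale.Agent.P032.Lt.q R0Q020.q436_2) (q_cons (Vale.Agent.P032.Lt.q R0Q020.q436_3) (q_cons (Vale.Agent.P032.Lt.q R0Q020.q436_4) (q_cons (Vale.Agent.P032.Lt.q R0Q020.q436_5) (q_cons (Vale.Agent.P032.Lt.q R0Q020.q436_6) (q_cons (Vale.Agent.P032.Lt.q R0Q020.q436_7) (q_cons (Vale.Agent.P032.Lt.q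 R0Q020.q436_8) (q_cons (Vale.Agent.P032.Lt.q R0Q020.q436_9) (q_cons (Vale.Agent.P032.Lt.q R0Q020.q436_10) (q_cons (Vale.Agent.P032.Lt.q R0Q020.q436_11) (q_cons (Vale.Agent.P032.Lt.q R0Q020.q436_12) (q_cons (Vale.Agent.P032.Lt.q R0Q020.q436_13) (q_cons (Vale.Agent.P032.Lt.q R0Q020.q436_14) q_nil))))))))))))))))

theorem p437 : Pat 73 73 TBm TCm (CB.map Fm) R0Q020.P437 R0Q020.I437 := Vale.Agent.P032.Lt.pat_eq (E' := R0Q020.E) eB (pat_step (by decide +kernel) (q_cons (Vale.Agent.P032.Lt.q R0Q020.q437_0) (q_cons (Vale.Agent.P032.Lt.q R0Q020.q437_1) q_nil)))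

theorem p438 : Pat 73 73 TBm TCm (CB.map Fm) R0Q020.P438 R0Q020.I438 := Vale.Agent.P032.Lt.pat_eq (E' := R0Q020.E) eB (pat_step (by decide +kernel) (q_cons (Vale.Agent.P032.Lt.q R0Q020.q438_0) (q_cons (Vale.Agent.P032.Lt.q R0Q020.q438_1) (q_cons (Vale.Agent.P032.Lt.q R0Q020.q438_2) (q_cons (Vale.Agent.P032.Lt.q R0Q020.q438_3) (q_cons (Vale.Agent.P032.Lt.q R0Q020.q438_4) q_nil))))))

theorem p439 : Pat 73 73 TBm TCm (CB.map Fm) R0Q020.P439 R0Q020.I439 := Vale.Agent.P032.Lt.pat_eq (E' := R0Q020.E) eB (pat_step (by decide +kernel) (q_cons (Vale.Agent.P032.Lt.q R0Q020.q439_0) (q_cons (Vale.Agent.P032.Lt.q R0Q020.q439_1) (q_cons (Vale.Agent.P032.Lt.q R0Q020.q439_2) (q_cons (Vale.Agent.P032.Lt.q R0Q020.q439_3) (q_cons (Vale.Agent.P032.Lt.q R0Q020.q439_4) (q_cons (Vale.Agent.P032.Lt.q R0Q020.q439_5) (q_cons (Vale.Agent.P032.Lt.q R0Q020.q439_6) (q_cons (Vale.Agent.P032.Lt.q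 R0Q020.q439_7) (q_cons (Vale.Agent.P032.Lt.q R0Q020.q439_8) (q_cons (Vale.Agent.P032.Lt.q R0Q020.q439_9) (q_cons (Vale.Agent.P032.Lt.q R0Q020.q439_10) (q_cons (Vale.Agent.P032.Lt.q R0Q020.q439_11) (q_cons (Vale.Agent.P032.Lt.q R0Q020.q439_12) (q_cons (Vale.Agent.P032.Lt.q R0Q020.q439_13) (q_cons (Vale.Agent.P032.Lt.q R0Q020.q439_14) (q_cons (Vale.Agent.P032.Lt.q R0Q020.q439_15) (q_cons (Vale.Agent.P032.Lt.q R0Q020.q439_16) (q_cons (Vale.Agent.P032.Lt.q R0Q020.q439_17) (q_cons (Vale.Agent.P032.Lt.q R0Q020.q439_18) (q_cons (Vale.Agent.P032.Lt.q R0Q020.q439_19) (q_cons (Vale.Agent.P032.Lt.q R0Q020.q439_20) (q_cons (Vale.Agent.P032.Lt.q R0Q020.q439_21) (q_cons (Vale.Agent.P032.Lt.q R0Q020.q439_22) q_nil))))))))))))))))))))))))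

theorem p440 : Pat 73 73 TBm TCm (CB.map Fm) R0Q020.P440 R0Q020.I440 := Vale.Agent.P032.Lt.pat_eq (E' := R0Q020.E) eB (pat_step (by decide +kernel) (q_cons (Vale.Agent.P032.Lt.q R0Q020.q440_0) (q_cons (Vale.Agent.P032.Lt.q R0Q020.q440_1) q_nil)))

theorem p441 : Pat 73 73 TBm TCm (CB.map Fm) R0Q020.P441 R0Q020.I441 := Vale.Agent.P032.Lt.pat_eq (E' := R0Q020.E) eB (pat_step (by decide +kernel) (q_cons (Vale.Agent.P032.Lt.q R0Q020.q441_0) (q_cons (Vale.Agent.P032.Lt.q R0Q020.q441_1) q_nil)))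

theorem p442 : Pat 73 73 TBm TCm (CB.map Fm) R0Q020.P442 R0Q020.I442 := Vale.Agent.P032.Lt.pat_eq (E' := R0Q020.E) eB (pat_step (by decide +kernel) (q_cons (Vale.Agent.P032.Lt.q R0Q020.q442_0) (q_cons (Vale.Agent.P032.Lt.q R0Q020.q442_1) (q_cons (Vale.Agent.P032.Lt.q R0Q020.q442_2) (q_cons (Vale.Agent.P032.Lt.q R0Q020.q442_3) q_nil)))))

theorem p443 : Pat 73 73 TBm TCm (CB.map Fm) R0Q020.P443 R0Q020.I443 := Vale.Agent.P032.Lt.pat_eq (E' := R0Q020.E) eB (pat_step (by decide +kernel) (q_cons (Vale.Agent.P032.Lt.q R0Q020.q443_0) (q_cons (Vale.Agent.P032.Lt.q R0Q020.q443_1) (q_cons (Vale.Agent.P032.Lt.q R0Q020.q443_2) (q_cons (Vale.Agent.P032.Lt.q R0Q020.q443_3) (q_cons (Vale.Agent.P032.Lt.q R0Q020.q443_4) (q_cons (Vale.Agent.P032.Lt.q R0Q020.q443_5) (q_cons (Vale.Agent.P032.Lt.q R0Q020.q443_6) (q_cons (Vale.Agent.P032.Lt.q R0Q020.q443_7) (q_cons (Vale.Agent.P032.Lt.q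 R0Q020.q443_8) (q_cons (Vale.Agent.P032.Lt.q R0Q020.q443_9) (q_cons (Vale.Agent.P032.Lt.q R0Q020.q443_10) (q_cons (Vale.Agent.P032.Lt.q R0Q020.q443_11) (q_cons (Vale.Agent.P032.Lt.q R0Q020.q443_12) (q_cons (Vale.Agent.P032.Lt.q R0Q020.q443_13) (q_cons (Vale.Agent.P032.Lt.q R0Q020.q443_14) (q_cons (Vale.Agent.P032.Lt.q R0Q020.q443_15) q_nil)))))))))))))))))

theorem p444 : Pat 73 73 TBm TCm (CB.map Fm) R0Q020.P444 R0Q020.I444 := Vale.Agent.P032.Lt.pat_eq (E' := R0Q020.E) eB (pat_step (by decide +kernel) (q_cons (Vale.Agent.P032.Lt.q R0Q020.q444_0) (q_cons (Vale.Agent.P032.Lt.q R0Q020.q444_1) (q_cons (Vale.Agent.P032.Lt.q R0Q020.q444_2) q_nil))))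

theorem p445 : Pat 73 73 TBm TCm (CB.map Fm) R0Q020.P445 R0Q020.I445 := Vale.Agent.P032.Lt.pat_eq (E' := R0Q020.E) eB (pat_step (by decide +kernel) (q_cons (Vale.Agent.P032.Lt.q R0Q020.q445_0) (q_cons (Vale.Agent.P032.Lt.q R0Q020.q445_1) (q_cons (Vale.Agent.P032.Lt.q R0Q020.q445_2) (q_cons (Vale.Agent.P032.Lt.q R0Q020.q445_3) (q_cons (Vale.Agent.P032.Lt.q R0Q020.q445_4) (q_cons (Vale.Agent.P032.Lt.q R0Q020.q445_5) (q_cons (Vale.Agent.P032.Lt.q R0Q020.q445_6) (q_cons (Vale.Agent.P032.Lt.q R0Q020.q445_7) (q_cons (Vale.Agent.P032.Lt.q R0Q020.q445_8) (q_cons (Vale.Agent.P032.Lt.q R0Q020.q445_9) (q_cons (Vale.Agent.P032.Lt.q R0Q020.q445_10) (q_cons (Vale.Agent.P032.Lt.q R0Q020.q445_11) (q_cons (Vale.Agent.P032.Lt.q R0Q020.q445_12) q_nil))))))))))))))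

theorem p446 : Pat 73 73 TBm TCm (CB.map Fm) R0Q020.P446 R0Q020.I446 := Vale.Agent.P032.Lt.pat_eq (E' := R0Q020.E) eB (pat_step (by decide +kernel) (q_cons (Vale.Agent.P032.Lt.q R0Q020.q446_0) (q_cons (Vale.Agent.P032.Lt.q R0Q020.q446_1) (q_cons (Vale.Agent.P032.Lt.q R0Q020.q446_2) q_nil))))

def C447 : List ℕ := [0, 4, 8, 12, 16, 20, 24, 212993, 344065, 475137, 737281]
theorem p447 : Pat 73 73 TBm TCm (C447.map Fm) R0Q020.P447 R0Q020.I447 := Vale.Agent.P032.Lt.pat_eq (E' := R0Q020.E447) (by decide +kernel) (pat_step (by decide +kernel) (q_cons (Vale.Agent.P032.Lt.q R0Q020.q447_0) q_nil))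

theorem p448 : Pat 73 73 TBm TCm (CB.map Fm) R0Q020.P448 R0Q020.I448 := Vale.Agent.P032.Lt.pat_eq (E' := R0Q020.E) eB (pat_step (by decide +kernel) (q_cons (Vale.Agent.P032.Lt.q R0Q020.q448_0) (q_cons (Vale.Agent.P032.Lt.q R0Q020.q448_1) (q_cons (Vale.Agent.P032.Lt.q R0Q020.q448_2) (q_cons (Vale.Agent.P032.Lt.q R0Q020.q448_3) (q_cons (Vale.Agent.P032.Lt.q R0Q020.q448_4) q_nil))))))

theorem p449 : Pat 73 73 TBm TCm (CB.map Fm) R0Q020.P449 R0Q020.I449 := Vale.Agent.P032.Lt.pat_eq (E' := R0Q020.E) eB (pat_step (by decide +kernel) (q_cons (Vale.Agent.P032.Lt.q R0Q020.q449_0) q_nil))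

theorem p450 : Pat 73 73 TBm TCm (CB.map Fm) R0Q021.P450 R0Q021.I450 := Vale.Agent.P032.Lt.pat_eq (E' := R0Q021.E) eB (pat_step (by decide +kernel) (q_cons (Vale.Agent.P032.Lt.q R0Q021.q450_0) (q_cons (Vale.Agent.P032.Lt.q R0Q021.q450_1) (q_cons (Vale.Agent.P032.Lt.q R0Q021.q450_2) (q_cons (Vale.Agent.P032.Lt.q R0Q021.q450_3) (q_cons (Vale.Agent.P032.Lt.q R0Q021.q450_4) (q_cons (Vale.Agent.P032.Lt.q R0Q021.q450_5) (q_cons (Vale.Agent.P032.Lt.q R0Q021.q450_6) (q_cons (Vale.Agent.P032.Lt.q R0Q021.q450_7) (q_cons (Vale.Agent.P032.Lt.q R0Q021.q450_8) (q_cons (Vale.Agent.P032.Lt.q R0Q021.q450_9) (q_cons (Vale.Agent.P032.Lt.q R0Q021.q450_10) (q_cons (Vale.Agent.P032.Lt.q R0Q021.q450_11) (q_cons (Vale.Agent.P032.Lt.q R0Q021.q450_12) q_nil))))))))))))))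

theorem p451 : Pat 73 73 TBm TCm (CB.map Fm) R0Q021.P451 R0Q021.I451 := Vale.Agent.P032.Lt.pat_eq (E' := R0Q021.E) eB (pat_step (by decide +kernel) (q_cons (Vale.Agent.P032.Lt.q R0Q021.q451_0) (q_cons (Vale.Agent.P032.Lt.q R0Q021.q451_1) (q_cons (Vale.Agent.P032.Lt.q R0Q021.q451_2) (q_cons (Vale.Agent.P032.Lt.q R0Q021.q451_3) (q_cons (Vale.Agent.P032.Lt.q R0Q021.q451_4) (q_cons (Vale.Agent.P032.Lt.q R0Q021.q451_5) (q_cons (Vale.Agent.P032.Lt.q R0Q021.q451_6) (q_cons (Vale.Agent.P032.Lt.q R0Q021.q451_7) (q_cons (Vale.Agent.P032.Lt.q R0Q021.q451_8) (q_cons (Vale.Agent.P032.Lt.q R0Q021.q451_9) (q_cons (Vale.Agent.P032.Lt.q R0Q021.q451_10) (q_cons (Vale.Agent.P032.Lt.q R0Q021.q451_11) q_nil)))))))))))))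

theorem p452 : Pat 73 73 TBm TCm (CB.map Fm) R0Q021.P452 R0Q021.I452 := Vale.Agent.P032.Lt.pat_eq (E' := R0Q021.E) eB (pat_step (by decide +kernel) (q_cons (Vale.Agent.P032.Lt.q R0Q021.q452_0) (q_cons (Vale.Agent.P032.Lt.q R0Q021.q452_1) (q_cons (Vale.Agent.P032.Lt.q R0Q021.q452_2) (q_cons (Vale.Agent.P032.Lt.q R0Q021.q452_3) (q_cons (Vale.Agent.P032.Lt.q R0Q021.q452_4) (q_cons (Vale.Agent.P032.Lt.q R0Q021.q452_5) q_nil)))))))

theorem p453 : Pat 73 73 TBm TCm (CB.map Fm) R0Q021.P453 R0Q021.I453 := Vale.Agent.P032.Lt.pat_eq (E' := R0Q021.E) eB (pat_step (by decide +kernel) (q_cons (Vale.Agent.P032.Lt.q R0Q021.q453_0) (q_cons (Vale.Agent.P032.Lt.q R0Q021.q453_1) (q_cons (Vale.Agent.P032.Lt.q R0Q021.q453_2) (q_cons (Vale.Agent.P032.Lt.q R0Q021.q453_3) (q_cons (Vale.Agent.P032.Lt.q R0Q021.q453_4) (q_cons (Vale.Agent.P032.Lt.q R0Q021.q453_5) (q_cons (Vale.Agent.P032.Lt.q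 R0Q021.q453_6) (q_cons (Vale.Agent.P032.Lt.q R0Q021.q453_7) (q_cons (Vale.Agent.P032.Lt.q R0Q021.q453_8) (q_cons (Vale.Agent.P032.Lt.q R0Q021.q453_9) (q_cons (Vale.Agent.P032.Lt.q R0Q021.q453_10) (q_cons (Vale.Agent.P032.Lt.q R0Q021.q453_11) (q_cons (Vale.Agent.P032.Lt.q R0Q021.q453_12) (q_cons (Vale.Agent.P032.Lt.q R0Q021.q453_13) (q_cons (Vale.Agent.P032.Lt.q R0Q021.q453_14) q_nil))))))))))))))))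

theorem p454 : Pat 73 73 TBm TCm (CB.map Fm) R0Q021.P454 R0Q021.I454 := Vale.Agent.P032.Lt.pat_eq (E' := R0Q021.E) eB (pat_step (by decide +kernel) (q_cons (Vale.Agent.P032.Lt.q R0Q021.q454_0) (q_cons (Vale.Agent.P032.Lt.q R0Q021.q454_1) q_nil)))

theorem p455 : Pat 73 73 TBm TCm (CB.map Fm) R0Q021.P455 R0Q021.I455 := Vale.Agent.P032.Lt.pat_eq (E' := R0Q021.E) eB (pat_step (by decide +kernel) (q_cons (Vale.Agent.P032.Lt.q R0Q021.q455_0) (q_cons (Vale.Agent.P032.Lt.q R0Q021.q455_1) (q_cons (Vale.Agent.P032.Lt.q R0Q021.q455_2) (q_cons (Vale.Agent.P032.Lt.q R0Q021.q455_3) (q_cons (Vale.Agent.P032.Lt.q R0Q021.q455_4) (q_cons (Vale.Agent.P032.Lt.q R0Q021.q455_5) (q_cons (Vale.Agent.P032.Lt.q R0Q021.q455_6) q_nil))))))))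

theorem p456 : Pat 73 73 TBm TCm (CB.map Fm) R0Q021.P456 R0Q021.I456 := Vale.Agent.P032.Lt.pat_eq (E' := R0Q021.E) eB (pat_step (by decide +kernel) (q_cons (Vale.Agent.P032.Lt.q R0Q021.q456_0) (q_cons (Vale.Agent.P032.Lt.q R0Q021.q456_1) (q_cons (Vale.Agent.P032.Lt.q R0Q021.q456_2) (q_cons (Vale.Agent.P032.Lt.q R0Q021.q456_3) q_nil)))))

theorem p457 : Pat 73 73 TBm TCm (CB.map Fm) R0Q021.P457 R0Q021.I457 := Vale.Agent.P032.Lt.pat_eq (E' := R0Q021.E) eB (pat_step (by decide +kernel) (q_cons (Vale.Agent.P032.Lt.q R0Q021.q457_0) q_nil))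

theorem p458 : Pat 73 73 TBm TCm (CB.map Fm) R0Q021.P458 R0Q021.I458 := Vale.Agent.P032.Lt.pat_eq (E' := R0Q021.E) eB (pat_step (by decide +kernel) (q_cons (Vale.Agent.P032.Lt.q R0Q021.q458_0) (q_cons (Vale.Agent.P032.Lt.q R0Q021.q458_1) (q_cons (Vale.Agent.P032.Lt.q R0Q021.q458_2) q_nil))))

theorem p459 : Pat 73 73 TBm TCm (CB.map Fm) R0Q021.P459 R0Q021.I459 := Vale.Agent.P032.Lt.pat_eq (E' := R0Q021.E) eB (pat_step (by decide +kernel) (q_cons (Vale.Agent.P032.Lt.q R0Q021.q459_0) (q_cons (Vale.Agent.P032.Lt.q R0Q021.q459_1) (q_cons (Vale.Agent.P032.Lt.q R0Q021.q459_2) (q_cons (Vale.Agent.P032.Lt.q R0Q021.q459_3) (q_cons (Vale.Agent.P032.Lt.q R0Q021.q459_4) (q_cons (Vale.Agent.P032.Lt.q R0Q021.q459_5) (q_cons (Vale.Agent.P032.Lt.q R0Q021.q459_6) (q_cons (Vale.Agent.P032.Lt.q R0Q021.q459_7) (q_cons (Vale.Agent.P032.Lt.q R0Q021.q459_8) (q_cons (Vale.Agent.P032.Lt.q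 R0Q021.q459_9) (q_cons (Vale.Agent.P032.Lt.q R0Q021.q459_10) (q_cons (Vale.Agent.P032.Lt.q R0Q021.q459_11) (q_cons (Vale.Agent.P032.Lt.q R0Q021.q459_12) (q_cons (Vale.Agent.P032.Lt.q R0Q021.q459_13) (q_cons (Vale.Agent.P032.Lt.q R0Q021.q459_14) (q_cons (Vale.Agent.P032.Lt.q R0Q021.q459_15) (q_cons (Vale.Agent.P032.Lt.q R0Q021.q459_16) (q_cons (Vale.Agent.P032.Lt.q R0Q021.q459_17) (q_cons (Vale.Agent.P032.Lt.q R0Q021.q459_18) (q_cons (Vale.Agent.P032.Lt.q R0Q021.q459_19) (q_cons (Vale.Agent.P032.Lt.q R0Q021.q459_20) (q_cons (Vale.Agent.P032.Lt.q R0Q021.q459_21) (q_cons (Vale.Agent.P032.Lt.q R0Q021.q459_22) (q_cons (Vale.Agent.P032.Lt.q R0Q021.q459_23) (q_cons (Vale.Agent.P032.Lt.q R0Q021.q459_24) (q_cons (Vale.Agent.P032.Lt.q R0Q021.q459_25) q_nil)))))))))))))))))))))))))))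

theorem p460 : Pat 73 73 TBm TCm (CB.map Fm) R0Q021.P460 R0Q021.I460 := Vale.Agent.P032.Lt.pat_eq (E' := R0Q021.E) eB (pat_step (by decide +kernel) (q_cons (Vale.Agent.P032.Lt.q R0Q021.q460_0) q_nil))

theorem p461 : Pat 73 73 TBm TCm (CB.map Fm) R0Q021.P461 R0Q021.I461 := Vale.Agent.P032.Lt.pat_eq (E' := R0Q021.E) eB (pat_step (by decide +kernel) (q_cons (Vale.Agent.P032.Lt.q R0Q021.q461_0) q_nil))

def C462 : List ℕ := [0, 4, 8, 12, 16, 20, 24, 84993, 214017, 606209, 737281, 741377]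
theorem p462 : Pat 73 73 TBm TCm (C462.map Fm) R0Q021.P462 R0Q021.I462 := Vale.Agent.P032.Lt.pat_eq (E' := R0Q021.E462) (by decide +kernel) (pat_step (by decide +kernel) (q_cons (Vale.Agent.P032.Lt.q R0Q021.q462_0) (q_cons (Vale.Agent.P032.Lt.q R0Q021.q462_1) (q_cons (Vale.Agent.P032.Lt.q R0Q021.q462_2) (q_cons (Vale.Agent.P032.Lt.q R0Q021.q462_3) (q_cons (Vale.Agent.P032.Lt.q R0Q021.q462_4) (q_cons (Vale.Agent.P032.Lt.q R0Q021.q462_5) (q_cons (Vale.Agent.P032.Lt.q R0Q021.q462_6) (q_cons (Vale.Agent.P032.Lt.q R0Q021.q462_7) (q_cons (Vale.Agent.P032.Lt.q R0Q021.q462_8) q_nil))))))))))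

theorem p463 : Pat 73 73 TBm TCm (CB.map Fm) R0Q021.P463 R0Q021.I463 := Vale.Agent.P032.Lt.pat_eq (E' := R0Q021.E) eB (pat_step (by decide +kernel) (q_cons (Vale.Agent.P032.Lt.q R0Q021.q463_0) (q_cons (Vale.Agent.P032.Lt.q R0Q021.q463_1) (q_cons (Vale.Agent.P032.Lt.q R0Q021.q463_2) (q_cons (Vale.Agent.P032.Lt.q R0Q021.q463_3) (q_cons (Vale.Agent.P032.Lt.q R0Q021.q463_4) (q_cons (Vale.Agent.P032.Lt.q R0Q021.q463_5) (q_cons (Vale.Agent.P032.Lt.q R0Q021.q463_6) (q_cons (Vale.Agent.P032.Lt.q R0Q021.q463_7) q_nil)))))))))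

theorem p464 : Pat 73 73 TBm TCm (CB.map Fm) R0Q021.P464 R0Q021.I464 := Vale.Agent.P032.Lt.pat_eq (E' := R0Q021.E) eB (pat_step (by decide +kernel) (q_cons (Vale.Agent.P032.Lt.q R0Q021.q464_0) (q_cons (Vale.Agent.P032.Lt.q R0Q021.q464_1) q_nil)))

theorem p465 : Pat 73 73 TBm TCm (CB.map Fm) R0Q021.P465 R0Q021.I465 := Vale.Agent.P032.Lt.pat_eq (E' := R0Q021.E) eB (pat_step (by decide +kernel) (q_cons (Vale.Agent.P032.Lt.q R0Q021.q465_0) (q_cons (Vale.Agent.P032.Lt.q R0Q021.q465_1) (q_cons (Vale.Agent.P032.Lt.q R0Q021.q465_2) q_nil))))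

theorem p466 : Pat 73 73 TBm TCm (CB.map Fm) R0Q021.P466 R0Q021.I466 := Vale.Agent.P032.Lt.pat_eq (E' := R0Q021.E) eB (pat_step (by decide +kernel) (q_cons (Vale.Agent.P032.Lt.q R0Q021.q466_0) (q_cons (Vale.Agent.P032.Lt.q R0Q021.q466_1) (q_cons (Vale.Agent.P032.Lt.q R0Q021.q466_2) (q_cons (Vale.Agent.P032.Lt.q R0Q021.q466_3) (q_cons (Vale.Agent.P032.Lt.q R0Q021.q466_4) (q_cons (Vale.Agent.P032.Lt.q R0Q021.q466_5) (q_cons (Vale.Agent.P032.Lt.q R0Q021.q466_6) (q_cons (Vale.Agent.P032.Lt.q R0Q021.q466_7) q_nil)))))))))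

theorem p467 : Pat 73 73 TBm TCm (CB.map Fm) R0Q021.P467 R0Q021.I467 := Vale.Agent.P032.Lt.pat_eq (E' := R0Q021.E) eB (pat_step (by decide +kernel) (q_cons (Vale.Agent.P032.Lt.q R0Q021.q467_0) (q_cons (Vale.Agent.P032.Lt.q R0Q021.q467_1) (q_cons (Vale.Agent.P032.Lt.q R0Q021.q467_2) (q_cons (Vale.Agent.P032.Lt.q R0Q021.q467_3) q_nil)))))

theorem p468 : Pat 73 73 TBm TCm (CB.map Fm) R0Q021.P468 R0Q021.I468 := Vale.Agent.P032.Lt.pat_eq (E' := R0Q021.E) eB (pat_step (by decide +kernel) (q_cons (Vale.Agent.P032.Lt.q R0Q021.q468_0) (q_cons (Vale.Agent.P032.Lt.q R0Q021.q468_1) (q_cons (Vale.Agent.P032.Lt.q R0Q021.q468_2) (q_cons (Vale.Agent.P032.Lt.q R0Q021.q468_3) (q_cons (Vale.Agent.P032.Lt.q R0Q021.q468_4) (q_cons (Vale.Agent.P032.Lt.q R0Q021.q468_5) (q_cons (Vale.Agent.P032.Lt.q R0Q021.q468_6) q_nil))))))))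

theorem p469 : Pat 73 73 TBm TCm (CB.map Fm) R0Q021.P469 R0Q021.I469 := Vale.Agent.P032.Lt.pat_eq (E' := R0Q021.E) eB (pat_step (by decide +kernel) (q_cons (Vale.Agent.P032.Lt.q R0Q021.q469_0) (q_cons (Vale.Agent.P032.Lt.q R0Q021.q469_1) (q_cons (Vale.Agent.P032.Lt.q R0Q021.q469_2) (q_cons (Vale.Agent.P032.Lt.q R0Q021.q469_3) q_nil)))))

theorem p470 : Pat 73 73 TBm TCm (CB.map Fm) R0Q021.P470 R0Q021.I470 := Vale.Agent.P032.Lt.pat_eq (E' := R0Q021.E) eB (pat_step (by decide +kernel) (q_cons (Vale.Agent.P032.Lt.q R0Q021.q470_0) (q_cons (Vale.Agent.P032.Lt.q R0Q021.q470_1) (q_cons (Vale.Agent.P032.Lt.q R0Q021.q470_2) q_nil))))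

theorem p471 : Pat 73 73 TBm TCm (CB.map Fm) R0Q021.P471 R0Q021.I471 := Vale.Agent.P032.Lt.pat_eq (E' := R0Q021.E) eB (pat_step (by decide +kernel) (q_cons (Vale.Agent.P032.Lt.q R0Q021.q471_0) (q_cons (Vale.Agent.P032.Lt.q R0Q021.q471_1) (q_cons (Vale.Agent.P032.Lt.q R0Q021.q471_2) q_nil))))

theorem p472 : Pat 73 73 TBm TCm (CB.map Fm) R0Q021.P472 R0Q021.I472 := Vale.Agent.P032.Lt.pat_eq (E' := R0Q021.E) eB (pat_step (by decide +kernel) (q_cons (Vale.Agent.P032.Lt.q R0Q021.q472_0) (q_cons (Vale.Agent.P032.Lt.q R0Q021.q472_1) q_nil)))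

theorem p473 : Pat 73 73 TBm TCm (CB.map Fm) R0Q021.P473 R0Q021.I473 := Vale.Agent.P032.Lt.pat_eq (E' := R0Q021.E) eB (pat_step (by decide +kernel) (q_cons (Vale.Agent.P032.Lt.q R0Q021.q473_0) (q_cons (Vale.Agent.P032.Lt.q R0Q021.q473_1) q_nil)))

theorem p474 : Pat 73 73 TBm TCm (CB.map Fm) R0Q022.P474 R0Q022.I474 := Vale.Agent.P032.Lt.pat_eq (E' := R0Q022.E) eB (pat_step (by decide +kernel) (q_cons (Vale.Agent.P032.Lt.q R0Q022.q474_0) (q_cons (Vale.Agent.P032.Lt.q R0Q022.q474_1) q_nil)))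

theorem p475 : Pat 73 73 TBm TCm (CB.map Fm) R0Q022.P475 R0Q022.I475 := Vale.Agent.P032.Lt.pat_eq (E' := R0Q022.E) eB (pat_step (by decide +kernel) (q_cons (Vale.Agent.P032.Lt.q R0Q022.q475_0) (q_cons (Vale.Agent.P032.Lt.q R0Q022.q475_1) q_nil)))

def C476 : List ℕ := [0, 4, 8, 12, 16, 20, 24, 89089, 212993, 220161, 344065, 347137, 475137, 611329, 737281]
theorem p476 : Pat 73 73 TBm TCm (C476.map Fm) R0Q022.P476 R0Q022.I476 := Vale.Agent.P032.Lt.pat_eq (E' := R0Q022.E476) (by decide +kernel) (pat_step (by decide +kernel) (q_cons (Vale.Agent.P032.Lt.q R0Q022.q476_0) (q_cons (Vale.Agent.P032.Lt.q R0Q022.q476_1) (q_cons (Vale.Agent.P032.Lt.q R0Q022.q476_2) (q_cons (Vale.Agent.P032.Lt.q R0Q022.q476_3) (q_cons (Vale.Agent.P032.Lt.q R0Q022.q476_4) (q_cons (Vale.Agent.P032.Lt.q R0Q022.q476_5) (q_cons (Vale.Agent.P032.Lt.q R0Q022.q476_6) (q_cons (Vale.Agent.P032.Lt.q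 R0Q022.q476_7) (q_cons (Vale.Agent.P032.Lt.q R0Q022.q476_8) q_nil))))))))))

def C477 : List ℕ := [0, 4, 8, 12, 16, 20, 24, 606209, 609281, 737281]
theorem p477 : Pat 73 73 TBm TCm (C477.map Fm) R0Q022.P477 R0Q022.I477 := Vale.Agent.P032.Lt.pat_eq (E' := R0Q022.E477) (by decide +kernel) (pat_step (by decide +kernel) (q_cons (Vale.Agent.P032.Lt.q R0Q022.q477_0) (q_cons (Vale.Agent.P032.Lt.q R0Q022.q477_1) q_nil)))

theorem p478 : Pat 73 73 TBm TCm (CB.map Fm) R0Q022.P478 R0Q022.I478 := Vale.Agent.P032.Lt.pat_eq (E' := R0Q022.E) eB (pat_step (by decide +kernel) (q_cons (Vale.Agent.P032.Lt.q R0Q022.q478_0) (q_cons (Vale.Agent.P032.Lt.q R0Q022.q478_1) (q_cons (Vale.Agent.P032.Lt.q R0Q022.q478_2) q_nil))))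

theorem p479 : Pat 73 73 TBm TCm (CB.map Fm) R0Q022.P479 R0Q022.I479 := Vale.Agent.P032.Lt.pat_eq (E' := R0Q022.E) eB (pat_step (by decide +kernel) (q_cons (Vale.Agent.P032.Lt.q R0Q022.q479_0) (q_cons (Vale.Agent.P032.Lt.q R0Q022.q479_1) (q_cons (Vale.Agent.P032.Lt.q R0Q022.q479_2) (q_cons (Vale.Agent.P032.Lt.q R0Q022.q479_3) (q_cons (Vale.Agent.P032.Lt.q R0Q022.q479_4) (q_cons (Vale.Agent.P032.Lt.q R0Q022.q479_5) (q_cons (Vale.Agent.P032.Lt.q R0Q022.q479_6) (q_cons (Vale.Agent.P032.Lt.q R0Q022.q479_7) (q_cons (Vale.Agent.P032.Lt.q R0Q022.q479_8) (q_cons (Vale.Agent.P032.Lt.q R0Q022.q479_9) (q_cons (Vale.Agent.P032.Lt.q R0Q022.q479_10) (q_cons (Vale.Agent.P032.Lt.q R0Q022.q479_11) (q_cons (Vale.Agent.P032.Lt.q R0Q022.q479_12) (q_cons (Vale.Agent.P032.Lt.q R0Q022.q479_13) (q_cons (Vale.Agent.P032.Lt.q R0Q022.q479_14) (q_cons (Vale.Agent.P032.Lt.q R0Q022.q479_15)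 (q_cons (Vale.Agent.P032.Lt.q R0Q022.q479_16) (q_cons (Vale.Agent.P032.Lt.q R0Q022.q479_17) (q_cons (Vale.Agent.P032.Lt.q R0Q022.q479_18) (q_cons (Vale.Agent.P032.Lt.q R0Q022.q479_19) (q_cons (Vale.Agent.P032.Lt.q R0Q022.q479_20) q_nil))))))))))))))))))))))

theorem p480 : Pat 73 73 TBm TCm (CB.map Fm) R0Q022.P480 R0Q022.I480 := Vale.Agent.P032.Lt.pat_eq (E' := R0Q022.E) eB (pat_step (by decide +kernel) (q_cons (Vale.Agent.P032.Lt.q R0Q022.q480_0) (q_cons (Vale.Agent.P032.Lt.q R0Q022.q480_1) (q_cons (Vale.Agent.P032.Lt.q R0Q022.q480_2) (q_cons (Vale.Agent.P032.Lt.q R0Q022.q480_3) (q_cons (Vale.Agent.P032.Lt.q R0Q022.q480_4) (q_cons (Vale.Agent.P032.Lt.q R0Q022.q480_5) (q_cons (Vale.Agent.P032.Lt.q R0Q022.q480_6) (q_cons (Vale.Agent.P032.Lt.q R0Q022.q480_7) (q_cons (Vale.Agent.P032.Lt.q R0Q022.q480_8) (q_cons (Vale.Agent.P032.Lt.q R0Q022.q480_9) (q_cons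 (Vale.Agent.P032.Lt.q R0Q022.q480_10) (q_cons (Vale.Agent.P032.Lt.q R0Q022.q480_11) (q_cons (Vale.Agent.P032.Lt.q R0Q022.q480_12) (q_cons (Vale.Agent.P032.Lt.q R0Q022.q480_13) (q_cons (Vale.Agent.P032.Lt.q R0Q022.q480_14) (q_cons (Vale.Agent.P032.Lt.q R0Q022.q480_15) (q_cons (Vale.Agent.P032.Lt.q R0Q022.q480_16) (q_cons (Vale.Agent.P032.Lt.q R0Q022.q480_17) (q_cons (Vale.Agent.P032.Lt.q R0Q022.q480_18) (q_cons (Vale.Agent.P032.Lt.q R0Q022.q480_19) q_nil)))))))))))))))))))))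

theorem p481 : Pat 73 73 TBm TCm (CB.map Fm) R0Q022.P481 R0Q022.I481 := Vale.Agent.P032.Lt.pat_eq (E' := R0Q022.E) eB (pat_step (by decide +kernel) (q_cons (Vale.Agent.P032.Lt.q R0Q022.q481_0) (q_cons (Vale.Agent.P032.Lt.q R0Q022.q481_1) (q_cons (Vale.Agent.P032.Lt.q R0Q022.q481_2) (q_cons (Vale.Agent.P032.Lt.q R0Q022.q481_3) (q_cons (Vale.Agent.P032.Lt.q R0Q022.q481_4) (q_cons (Vale.Agent.P032.Lt.q R0Q022.q481_5) (q_cons (Vale.Agent.P032.Lt.q R0Q022.q481_6) (q_cons (Vale.Agent.P032.Lt.q R0Q022.q481_7) (q_cons (Vale.Agent.P032.Lt.q R0Q022.q481_8) (q_cons (Vale.Agent.P032.Lt.q R0Q022.q481_9) q_nil)))))))))))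

theorem p482 : Pat 73 73 TBm TCm (CB.map Fm) R0Q022.P482 R0Q022.I482 := Vale.Agent.P032.Lt.pat_eq (E' := R0Q022.E) eB (pat_step (by decide +kernel) (q_cons (Vale.Agent.P032.Lt.q R0Q022.q482_0) (q_cons (Vale.Agent.P032.Lt.q R0Q022.q482_1) (q_cons (Vale.Agent.P032.Lt.q R0Q022.q482_2) q_nil))))

def C483 : List ℕ := [0, 4, 8, 12, 16, 20, 24, 214017, 476161, 479233, 606209, 737281, 741377]
theorem p483 : Pat 73 73 TBm TCm (C483.map Fm) R0Q022.P483 R0Q022.I483 := Vale.Agent.P032.Lt.pat_eq (E' := R0Q022.E483) (by decide +kernel) (pat_step (by decide +kernel) (q_cons (Vale.Agent.P032.Lt.q R0Q022.q483_0) (q_cons (Vale.Agent.P032.Lt.q R0Q022.q483_1) q_nil)))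

theorem p484 : Pat 73 73 TBm TCm (CB.map Fm) R0Q022.P484 R0Q022.I484 := Vale.Agent.P032.Lt.pat_eq (E' := R0Q022.E) eB (pat_step (by decide +kernel) (q_cons (Vale.Agent.P032.Lt.q R0Q022.q484_0) q_nil))

theorem p485 : Pat 73 73 TBm TCm (CB.map Fm) R0Q022.P485 R0Q022.I485 := Vale.Agent.P032.Lt.pat_eq (E' := R0Q022.E) eB (pat_step (by decide +kernel) (q_cons (Vale.Agent.P032.Lt.q R0Q022.q485_0) (q_cons (Vale.Agent.P032.Lt.q R0Q022.q485_1) (q_cons (Vale.Agent.P032.Lt.q R0Q022.q485_2) (q_cons (Vale.Agent.P032.Lt.q R0Q022.q485_3) q_nil)))))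

theorem p486 : Pat 73 73 TBm TCm (CB.map Fm) R0Q022.P486 R0Q022.I486 := Vale.Agent.P032.Lt.pat_eq (E' := R0Q022.E) eB (pat_step (by decide +kernel) (q_cons (Vale.Agent.P032.Lt.q R0Q022.q486_0) (q_cons (Vale.Agent.P032.Lt.q R0Q022.q486_1) (q_cons (Vale.Agent.P032.Lt.q R0Q022.q486_2) (q_cons (Vale.Agent.P032.Lt.q R0Q022.q486_3) q_nil)))))

def C487 : List ℕ := [0, 4, 8, 12, 16, 20, 24, 355329]
theorem p487 : Pat 73 73 TBm TCm (C487.map Fm) R0Q022.P487 R0Q022.I487 := Vale.Agent.P032.Lt.pat_eq (E' := R0Q022.E487) (by decide +kernel) (pat_step (by decide +kernel) (q_cons (Vale.Agent.P032.Lt.q R0Q022.q487_0) q_nil))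

theorem p488 : Pat 73 73 TBm TCm (CB.map Fm) R0Q022.P488 R0Q022.I488 := Vale.Agent.P032.Lt.pat_eq (E' := R0Q022.E) eB (pat_step (by decide +kernel) (q_cons (Vale.Agent.P032.Lt.q R0Q022.q488_0) (q_cons (Vale.Agent.P032.Lt.q R0Q022.q488_1) (q_cons (Vale.Agent.P032.Lt.q R0Q022.q488_2) (q_cons (Vale.Agent.P032.Lt.q R0Q022.q488_3) (q_cons (Vale.Agent.P032.Lt.q R0Q022.q488_4) q_nil))))))

theorem p489 : Pat 73 73 TBm TCm (CB.map Fm) R0Q022.P489 R0Q022.I489 := Vale.Agent.P032.Lt.pat_eq (E' := R0Q022.E) eB (pat_step (by decide +kernel) (q_cons (Vale.Agent.P032.Lt.q R0Q022.q489_0) q_nil))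

theorem p490 : Pat 73 73 TBm TCm (CB.map Fm) R0Q022.P490 R0Q022.I490 := Vale.Agent.P032.Lt.pat_eq (E' := R0Q022.E) eB (pat_step (by decide +kernel) (q_cons (Vale.Agent.P032.Lt.q R0Q022.q490_0) q_nil))

def C491 : List ℕ := [0, 4, 8, 12, 16, 20, 24, 737281]
theorem p491 : Pat 73 73 TBm TCm (C491.map Fm) R0Q022.P491 R0Q022.I491 := Vale.Agent.P032.Lt.pat_eq (E' := R0Q022.E491) (by decide +kernel) (pat_step (by decide +kernel) (q_cons (Vale.Agent.P032.Lt.q R0Q022.q491_0) (q_cons (Vale.Agent.P032.Lt.q R0Q022.q491_1) (q_cons (Vale.Agent.P032.Lt.q R0Q022.q491_2) (q_cons (Vale.Agent.P032.Lt.q R0Q022.q491_3) (q_cons (Vale.Agent.P032.Lt.q R0Q022.q491_4) (q_cons (Vale.Agent.P032.Lt.q R0Q022.q491_5) (q_cons (Vale.Agent.P032.Lt.q R0Q022.q491_6) (q_cons (Vale.Agent.P032.Lt.q R0Q022.q491_7) (q_cons (Vale.Agent.P032.Lt.q R0Q022.q491_8) q_nil))))))))))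

theorem p492 : Pat 73 73 TBm TCm (CB.map Fm) R0Q023.P492 R0Q023.I492 := Vale.Agent.P032.Lt.pat_eq (E' := R0Q023.E) eB (pat_step (by decide +kernel) (q_cons (Vale.Agent.P032.Lt.q R0Q023.q492_0) (q_cons (Vale.Agent.P032.Lt.q R0Q023.q492_1) (q_cons (Vale.Agent.P032.Lt.q R0Q023.q492_2) (q_cons (Vale.Agent.P032.Lt.q R0Q023.q492_3) (q_cons (Vale.Agent.P032.Lt.q R0Q023.q492_4) (q_cons (Vale.Agent.P032.Lt.q R0Q023.q492_5) (q_cons (Vale.Agent.P032.Lt.q R0Q023.q492_6) (q_cons (Vale.Agent.P032.Lt.q R0Q023.q492_7) (q_cons (Vale.Agent.P032.Lt.q R0Q023.q492_8) (q_cons (Vale.Agent.P032.Lt.q R0Q023.q492_9) (q_cons (Vale.Agent.P032.Lt.q R0Q023.q492_10) (q_cons (Vale.Agent.P032.Lt.q R0Q023.q492_11) (q_cons (Vale.Agent.P032.Lt.q R0Q023.q492_12) (q_cons (Vale.Agent.P032.Lt.q R0Q023.q492_13) (q_cons (Vale.Agent.P032.Lt.q R0Q023.q492_14) (q_cons (Vale.Agent.P032.Lt.q R0Q023.q492_15)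 q_nil)))))))))))))))))

theorem p493 : Pat 73 73 TBm TCm (CB.map Fm) R0Q023.P493 R0Q023.I493 := Vale.Agent.P032.Lt.pat_eq (E' := R0Q023.E) eB (pat_step (by decide +kernel) (q_cons (Vale.Agent.P032.Lt.q R0Q023.q493_0) (q_cons (Vale.Agent.P032.Lt.q R0Q023.q493_1) (q_cons (Vale.Agent.P032.Lt.q R0Q023.q493_2) (q_cons (Vale.Agent.P032.Lt.q R0Q023.q493_3) q_nil)))))

theorem p494 : Pat 73 73 TBm TCm (CB.map Fm) R0Q023.P494 R0Q023.I494 := Vale.Agent.P032.Lt.pat_eq (E' := R0Q023.E) eB (pat_step (by decide +kernel) (q_cons (Vale.Agent.P032.Lt.q R0Q023.q494_0) (q_cons (Vale.Agent.P032.Lt.q R0Q023.q494_1) (q_cons (Vale.Agent.P032.Lt.q R0Q023.q494_2) (q_cons (Vale.Agent.P032.Lt.q R0Q023.q494_3) (q_cons (Vale.Agent.P032.Lt.q R0Q023.q494_4) (q_cons (Vale.Agent.P032.Lt.q R0Q023.q494_5) (q_cons (Vale.Agent.P032.Lt.q R0Q023.q494_6) (q_cons (Vale.Agent.P032.Lt.q R0Q023.q494_7)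 (q_cons (Vale.Agent.P032.Lt.q R0Q023.q494_8) (q_cons (Vale.Agent.P032.Lt.q R0Q023.q494_9) (q_cons (Vale.Agent.P032.Lt.q R0Q023.q494_10) (q_cons (Vale.Agent.P032.Lt.q R0Q023.q494_11) (q_cons (Vale.Agent.P032.Lt.q R0Q023.q494_12) (q_cons (Vale.Agent.P032.Lt.q R0Q023.q494_13) (q_cons (Vale.Agent.P032.Lt.q R0Q023.q494_14) (q_cons (Vale.Agent.P032.Lt.q R0Q023.q494_15) (q_cons (Vale.Agent.P032.Lt.q R0Q023.q494_16) (q_cons (Vale.Agent.P032.Lt.q R0Q023.q494_17) (q_cons (Vale.Agent.P032.Lt.q R0Q023.q494_18) (q_cons (Vale.Agent.P032.Lt.q R0Q023.q494_19) (q_cons (Vale.Agent.P032.Lt.q R0Q023.q494_20) (q_cons (Vale.Agent.P032.Lt.q R0Q023.q494_21) (q_cons (Vale.Agent.P032.Lt.q R0Q023.q494_22) (q_cons (Vale.Agent.P032.Lt.q R0Q023.q494_23) (q_cons (Vale.Agent.P032.Lt.q R0Q023.q494_24) q_nil))))))))))))))))))))))))))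

theorem p495 : Pat 73 73 TBm TCm (CB.map Fm) R0Q023.P495 R0Q023.I495 := Vale.Agent.P032.Lt.pat_eq (E' := R0Q023.E) eB (pat_step (by decide +kernel) (q_cons (Vale.Agent.P032.Lt.q R0Q023.q495_0) (q_cons (Vale.Agent.P032.Lt.q R0Q023.q495_1) (q_cons (Vale.Agent.P032.Lt.q R0Q023.q495_2) (q_cons (Vale.Agent.P032.Lt.q R0Q023.q495_3) (q_cons (Vale.Agent.P032.Lt.q R0Q023.q495_4) (q_cons (Vale.Agent.P032.Lt.q R0Q023.q495_5) (q_cons (Vale.Agent.P032.Lt.q R0Q023.q495_6) (q_cons (Vale.Agent.P032.Lt.q R0Q023.q495_7) (q_cons (Vale.Agent.P032.Lt.q R0Q023.q495_8) (q_cons (Vale.Agent.P032.Lt.q R0Q023.q495_9) q_nil)))))))))))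

theorem p496 : Pat 73 73 TBm TCm (CB.map Fm) R0Q023.P496 R0Q023.I496 := Vale.Agent.P032.Lt.pat_eq (E' := R0Q023.E) eB (pat_step (by decide +kernel) (q_cons (Vale.Agent.P032.Lt.q R0Q023.q496_0) (q_cons (Vale.Agent.P032.Lt.q R0Q023.q496_1) (q_cons (Vale.Agent.P032.Lt.q R0Q023.q496_2) (q_cons (Vale.Agent.P032.Lt.q R0Q023.q496_3) (q_cons (Vale.Agent.P032.Lt.q R0Q023.q496_4) (q_cons (Vale.Agent.P032.Lt.q R0Q023.q496_5) (q_cons (Vale.Agent.P032.Lt.q R0Q023.q496_6) (q_cons (Vale.Agent.P032.Lt.q R0Q023.q496_7) (q_cons (Vale.Agent.P032.Lt.q R0Q023.q496_8) (q_cons (Vale.Agent.P032.Lt.q R0Q023.q496_9) (q_cons (Vale.Agent.P032.Lt.q R0Q023.q496_10) (q_cons (Vale.Agent.P032.Lt.q R0Q023.q496_11) (q_cons (Vale.Agent.P032.Lt.q R0Q023.q496_12) (q_cons (Vale.Agent.P032.Lt.q R0Q023.q496_13) (q_cons (Vale.Agent.P032.Lt.q R0Q023.q496_14) q_nil))))))))))))))))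

theorem p497 : Pat 73 73 TBm TCm (CB.map Fm) R0Q023.P497 R0Q023.I497 := Vale.Agent.P032.Lt.pat_eq (E' := R0Q023.E) eB (pat_step (by decide +kernel) (q_cons (Vale.Agent.P032.Lt.q R0Q023.q497_0) (q_cons (Vale.Agent.P032.Lt.q R0Q023.q497_1) (q_cons (Vale.Agent.P032.Lt.q R0Q023.q497_2) (q_cons (Vale.Agent.P032.Lt.q R0Q023.q497_3) (q_cons (Vale.Agent.P032.Lt.q R0Q023.q497_4) (q_cons (Vale.Agent.P032.Lt.q R0Q023.q497_5) (q_cons (Vale.Agent.P032.Lt.q R0Q023.q497_6) (q_cons (Vale.Agent.P032.Lt.q R0Q023.q497_7) (q_cons (Vale.Agent.P032.Lt.q R0Q023.q497_8) (q_cons (Vale.Agent.P032.Lt.q R0Q023.q497_9) (q_cons (Vale.Agent.P032.Lt.q R0Q023.q497_10) (q_cons (Vale.Agent.P032.Lt.q R0Q023.q497_11) (q_cons (Vale.Agent.P032.Lt.q R0Q023.q497_12) (q_cons (Vale.Agent.P032.Lt.q R0Q023.q497_13) (q_cons (Vale.Agent.P032.Lt.q R0Q023.q497_14) (q_cons (Vale.Agent.P032.Lt.q R0Q023.q497_15)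 (q_cons (Vale.Agent.P032.Lt.q R0Q023.q497_16) q_nil))))))))))))))))))

theorem p498 : Pat 73 73 TBm TCm (CB.map Fm) R0Q023.P498 R0Q023.I498 := Vale.Agent.P032.Lt.pat_eq (E' := R0Q023.E) eB (pat_step (by decide +kernel) (q_cons (Vale.Agent.P032.Lt.q R0Q023.q498_0) (q_cons (Vale.Agent.P032.Lt.q R0Q023.q498_1) (q_cons (Vale.Agent.P032.Lt.q R0Q023.q498_2) (q_cons (Vale.Agent.P032.Lt.q R0Q023.q498_3) (q_cons (Vale.Agent.P032.Lt.q R0Q023.q498_4) (q_cons (Vale.Agent.P032.Lt.q R0Q023.q498_5) (q_cons (Vale.Agent.P032.Lt.q R0Q023.q498_6) (q_cons (Vale.Agent.P032.Lt.q R0Q023.q498_7) (q_cons (Vale.Agent.P032.Lt.q R0Q023.q498_8) (q_cons (Vale.Agent.P032.Lt.q R0Q023.q498_9) (q_cons (Vale.Agent.P032.Lt.q R0Q023.q498_10) (q_cons (Vale.Agent.P032.Lt.q R0Q023.q498_11) (q_cons (Vale.Agent.P032.Lt.q R0Q023.q498_12) (q_cons (Vale.Agent.P032.Lt.q R0Q023.q498_13) q_nil)))))))))))))))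

theorem p499 : Pat 73 73 TBm TCm (CB.map Fm) R0Q023.P499 R0Q023.I499 := Vale.Agent.P032.Lt.pat_eq (E' := R0Q023.E) eB (pat_step (by decide +kernel) (q_cons (Vale.Agent.P032.Lt.q R0Q023.q499_0) (q_cons (Vale.Agent.P032.Lt.q R0Q023.q499_1) (q_cons (Vale.Agent.P032.Lt.q R0Q023.q499_2) (q_cons (Vale.Agent.P032.Lt.q R0Q023.q499_3) (q_cons (Vale.Agent.P032.Lt.q R0Q023.q499_4) (q_cons (Vale.Agent.P032.Lt.q R0Q023.q499_5) (q_cons (Vale.Agent.P032.Lt.q R0Q023.q499_6) (q_cons (Vale.Agent.P032.Lt.q R0Q023.q499_7) (q_cons (Vale.Agent.P032.Lt.q R0Q023.q499_8) (q_cons (Vale.Agent.P032.Lt.q R0Q023.q499_9) (q_cons (Vale.Agent.P032.Lt.q R0Q023.q499_10) (q_cons (Vale.Agent.P032.Lt.q R0Q023.q499_11) (q_cons (Vale.Agent.P032.Lt.q R0Q023.q499_12) (q_cons (Vale.Agent.P032.Lt.q R0Q023.q499_13) (q_cons (Vale.Agent.P032.Lt.q R0Q023.q499_14) (q_cons (Vale.Agent.P032.Lt.q R0Q023.q499_15)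 (q_cons (Vale.Agent.P032.Lt.q R0Q023.q499_16) (q_cons (Vale.Agent.P032.Lt.q R0Q023.q499_17) (q_cons (Vale.Agent.P032.Lt.q R0Q023.q499_18) (q_cons (Vale.Agent.P032.Lt.q R0Q023.q499_19) (q_cons (Vale.Agent.P032.Lt.q R0Q023.q499_20) q_nil))))))))))))))))))))))

def C500 : List ℕ := [0, 4, 8, 12, 16, 20, 24, 216065, 344065, 475137, 737281]
theorem p500 : Pat 73 73 TBm TCm (C500.map Fm) R0Q023.P500 R0Q023.I500 := Vale.Agent.P032.Lt.pat_eq (E' := R0Q023.E500) (by decide +kernel) (pat_step (by decide +kernel) (q_cons (Vale.Agent.P032.Lt.q R0Q023.q500_0) (q_cons (Vale.Agent.P032.Lt.q R0Q023.q500_1) (q_cons (Vale.Agent.P032.Lt.q R0Q023.q500_2) (q_cons (Vale.Agent.P032.Lt.q R0Q023.q500_3) (q_cons (Vale.Agent.P032.Lt.q R0Q023.q500_4) (q_cons (Vale.Agent.P032.Lt.q R0Q023.q500_5) (q_cons (Vale.Agent.P032.Lt.q R0Q023.q500_6) q_nil))))))))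

theorem p501 : Pat 73 73 TBm TCm (CB.map Fm) R0Q024.P501 R0Q024.I501 := Vale.Agent.P032.Lt.pat_eq (E' := R0Q024.E) eB (pat_step (by decide +kernel) (q_cons (Vale.Agent.P032.Lt.q R0Q024.q501_0) (q_cons (Vale.Agent.P032.Lt.q R0Q024.q501_1) (q_cons (Vale.Agent.P032.Lt.q R0Q024.q501_2) (q_cons (Vale.Agent.P032.Lt.q R0Q024.q501_3) (q_cons (Vale.Agent.P032.Lt.q R0Q024.q501_4) (q_cons (Vale.Agent.P032.Lt.q R0Q024.q501_5) (q_cons (Vale.Agent.P032.Lt.q R0Q024.q501_6) (q_cons (Vale.Agent.P032.Lt.q R0Q024.q501_7) (q_cons (Vale.Agent.P032.Lt.q R0Q024.q501_8) (q_cons (Vale.Agent.P032.Lt.q R0Q024.q501_9) (q_cons (Vale.Agent.P032.Lt.q R0Q024.q501_10) (q_cons (Vale.Agent.P032.Lt.q R0Q024.q501_11) (q_cons (Vale.Agent.P032.Lt.q R0Q024.q501_12) (q_cons (Vale.Agent.P032.Lt.q R0Q024.q501_13) (q_cons (Vale.Agent.P032.Lt.q R0Q024.q501_14) (q_cons (Vale.Agent.P032.Lt.q R0Q024.q501_15)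 (q_cons (Vale.Agent.P032.Lt.q R0Q024.q501_16) q_nil))))))))))))))))))

theorem p502 : Pat 73 73 TBm TCm (CB.map Fm) R0Q024.P502 R0Q024.I502 := Vale.Agent.P032.Lt.pat_eq (E' := R0Q024.E) eB (pat_step (by decide +kernel) (q_cons (Vale.Agent.P032.Lt.q R0Q024.q502_0) (q_cons (Vale.Agent.P032.Lt.q R0Q024.q502_1) (q_cons (Vale.Agent.P032.Lt.q R0Q024.q502_2) q_nil))))

theorem p503 : Pat 73 73 TBm TCm (CB.map Fm) R0Q024.P503 R0Q024.I503 := Vale.Agent.P032.Lt.pat_eq (E' := R0Q024.E) eB (pat_step (by decide +kernel) (q_cons (Vale.Agent.P032.Lt.q R0Q024.q503_0) q_nil))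

theorem p504 : Pat 73 73 TBm TCm (CB.map Fm) R0Q024.P504 R0Q024.I504 := Vale.Agent.P032.Lt.pat_eq (E' := R0Q024.E) eB (pat_step (by decide +kernel) (q_cons (Vale.Agent.P032.Lt.q R0Q024.q504_0) (q_cons (Vale.Agent.P032.Lt.q R0Q024.q504_1) q_nil)))

theorem p505 : Pat 73 73 TBm TCm (CB.map Fm) R0Q024.P505 R0Q024.I505 := Vale.Agent.P032.Lt.pat_eq (E' := R0Q024.E) eB (pat_step (by decide +kernel) (q_cons (Vale.Agent.P032.Lt.q R0Q024.q505_0) q_nil))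

theorem p506 : Pat 73 73 TBm TCm (CB.map Fm) R0Q024.P506 R0Q024.I506 := Vale.Agent.P032.Lt.pat_eq (E' := R0Q024.E) eB (pat_step (by decide +kernel) (q_cons (Vale.Agent.P032.Lt.q R0Q024.q506_0) (q_cons (Vale.Agent.P032.Lt.q R0Q024.q506_1) (q_cons (Vale.Agent.P032.Lt.q R0Q024.q506_2) (q_cons (Vale.Agent.P032.Lt.q R0Q024.q506_3) (q_cons (Vale.Agent.P032.Lt.q R0Q024.q506_4) q_nil))))))

theorem p507 : Pat 73 73 TBm TCm (CB.map Fm) R0Q024.P507 R0Q024.I507 := Vale.Agent.P032.Lt.pat_eq (E' := R0Q024.E) eB (pat_step (by decide +kernel) (q_cons (Vale.Agent.P032.Lt.q R0Q024.q507_0) (q_cons (Vale.Agent.P032.Lt.q R0Q024.q507_1) (q_cons (Vale.Agent.P032.Lt.q R0Q024.q507_2) q_nil))))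

theorem p508 : Pat 73 73 TBm TCm (CB.map Fm) R0Q024.P508 R0Q024.I508 := Vale.Agent.P032.Lt.pat_eq (E' := R0Q024.E) eB (pat_step (by decide +kernel) (q_cons (Vale.Agent.P032.Lt.q R0Q024.q508_0) (q_cons (Vale.Agent.P032.Lt.q R0Q024.q508_1) (q_cons (Vale.Agent.P032.Lt.q R0Q024.q508_2) q_nil))))

theorem p509 : Pat 73 73 TBm TCm (CB.map Fm) R0Q024.P509 R0Q024.I509 := Vale.Agent.P032.Lt.pat_eq (E' := R0Q024.E) eB (pat_step (by decide +kernel) (q_cons (Vale.Agent.P032.Lt.q R0Q024.q509_0) q_nil))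

theorem p510 : Pat 73 73 TBm TCm (CB.map Fm) R0Q024.P510 R0Q024.I510 := Vale.Agent.P032.Lt.pat_eq (E' := R0Q024.E) eB (pat_step (by decide +kernel) (q_cons (Vale.Agent.P032.Lt.q R0Q024.q510_0) q_nil))

theorem p511 : Pat 73 73 TBm TCm (CB.map Fm) R0Q024.P511 R0Q024.I511 := Vale.Agent.P032.Lt.pat_eq (E' := R0Q024.E) eB (pat_step (by decide +kernel) (q_cons (Vale.Agent.P032.Lt.q R0Q024.q511_0) (q_cons (Vale.Agent.P032.Lt.q R0Q024.q511_1) q_nil)))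

def L : List (List ℕ) := [R0Q018.P384, R0Q018.P385, R0Q018.P386, R0Q018.P387, R0Q018.P388, R0Q018.P389, R0Q018.P390, R0Q018.P391, R0Q018.P392, R0Q018.P393, R0Q018.P394, R0Q018.P395, R0Q018.P396, R0Q018.P397, R0Q018.P398, R0Q018.P399, R0Q018.P400, R0Q018.P401, R0Q018.P402, R0Q018.P403, R0Q018.P404, R0Q019.P405, R0Q019.P406, R0Q019.P407, R0Q019.P408, R0Q019.P409, R0Q019.P410, R0Q019.P411, R0Q019.P412, R0Q019.P413, R0Q019.P414, R0Q019.P415, R0Q019.P416, R0Q019.P417, R0Q019.P418, R0Q019.P419, R0Q019.P420, R0Q019.P421, R0Q019.P422, R0Q019.P423, R0Q019.P424, R0Q019.P425, R0Q019.P426, R0Q019.P427, R0Q019.P428, R0Q020.P429, R0Q020.P430, R0Q020.P431, R0Q020.P432, R0Q020.P433, R0Q020.P434, R0Q020.P435, R0Q020.P436, R0Q020.P437, R0Q020.P438, R0Q020.P439, R0Q020.P440, R0Q020.P441, R0Q020.P442, R0Q020.P443, R0Q020.P444, R0Q020.P445, R0Q020.P446, R0Q020.P447, R0Q020.P448,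 R0Q020.P449, R0Q021.P450, R0Q021.P451, R0Q021.P452, R0Q021.P453, R0Q021.P454, R0Q021.P455, R0Q021.P456, R0Q021.P457, R0Q021.P458, R0Q021.P459, R0Q021.P460, R0Q021.P461, R0Q021.P462, R0Q021.P463, R0Q021.P464, R0Q021.P465, R0Q021.P466, R0Q021.P467, R0Q021.P468, R0Q021.P469, R0Q021.P470, R0Q021.P471, R0Q021.P472, R0Q021.P473, R0Q022.P474, R0Q022.P475, R0Q022.P476, R0Q022.P477, R0Q022.P478, R0Q022.P479, R0Q022.P480, R0Q022.P481, R0Q022.P482, R0Q022.P483, R0Q022.P484, R0Q022.P485, R0Q022.P486, R0Q022.P487, R0Q022.P488, R0Q022.P489, R0Q022.P490, R0Q022.P491, R0Q023.P492, R0Q023.P493, R0Q023.P494, R0Q023.P495, R0Q023.P496, R0Q023.P497, R0Q023.P498, R0Q023.P499, R0Q023.P500, R0Q024.P501, R0Q024.P502, R0Q024.P503, R0Q024.P504, R0Q024.P505, R0Q024.P506, R0Q024.P507, R0Q024.P508, R0Q024.P509, R0Q024.P510, R0Q024.P511]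

theorem all : ∀ P ∈ L, CrtF 73 73 TBm TCm (Vale.Agent.P032.Fam.fam2 (Vale.Agent.P032.Fam.im0)) P := crtF_cons p384 (crtF_cons p385 (crtF_cons p386 (crtF_cons p387 (crtF_cons p388 (crtF_cons p389 (crtF_cons p390 (crtF_cons p391 (crtF_cons p392 (crtF_cons p393 (crtF_cons p394 (crtF_cons p395 (crtF_cons p396 (crtF_cons p397 (crtF_cons p398 (crtF_cons p399 (crtF_cons p400 (crtF_cons p401 (crtF_cons p402 (crtF_cons p403 (crtF_cons p404 (crtF_cons p405 (crtF_cons p406 (crtF_cons p407 (crtF_cons p408 (crtF_cons p409 (crtF_cons p410 (crtF_cons p411 (crtF_cons p412 (crtF_cons p413 (crtF_cons p414 (crtF_cons p415 (crtF_cons p416 (crtF_cons p417 (crtF_cons p418 (crtF_cons p419 (crtF_cons p420 (crtF_cons p421 (crtF_cons p422 (crtF_cons p423 (crtF_cons p424 (crtF_cons p425 (crtF_cons p426 (crtF_cons p427 (crtF_cons p428 (crtF_cons p429 (crtF_cons p430 (crtF_cons p431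 (crtF_cons p432 (crtF_cons p433 (crtF_cons p434 (crtF_cons p435 (crtF_cons p436 (crtF_cons p437 (crtF_cons p438 (crtF_cons p439 (crtF_cons p440 (crtF_cons p441 (crtF_cons p442 (crtF_cons p443 (crtF_cons p444 (crtF_cons p445 (crtF_cons p446 (crtF_cons p447 (crtF_cons p448 (crtF_cons p449 (crtF_cons p450 (crtF_cons p451 (crtF_cons p452 (crtF_cons p453 (crtF_cons p454 (crtF_cons p455 (crtF_cons p456 (crtF_cons p457 (crtF_cons p458 (crtF_cons p459 (crtF_cons p460 (crtF_cons p461 (crtF_cons p462 (crtF_cons p463 (crtF_cons p464 (crtF_cons p465 (crtF_cons p466 (crtF_cons p467 (crtF_cons p468 (crtF_cons p469 (crtF_cons p470 (crtF_cons p471 (crtF_cons p472 (crtF_cons p473 (crtF_cons p474 (crtF_cons p475 (crtF_cons p476 (crtF_cons p477 (crtF_cons p478 (crtF_cons p479 (crtF_cons p480 (crtF_cons p481 (crtF_cons p482 (crtF_cons p483 (crtF_cons p484 (crtF_cons p485 (crtF_cons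 p486 (crtF_cons p487 (crtF_cons p488 (crtF_cons p489 (crtF_cons p490 (crtF_cons p491 (crtF_cons p492 (crtF_cons p493 (crtF_cons p494 (crtF_cons p495 (crtF_cons p496 (crtF_cons p497 (crtF_cons p498 (crtF_cons p499 (crtF_cons p500 (crtF_cons p501 (crtF_cons p502 (crtF_cons p503 (crtF_cons p504 (crtF_cons p505 (crtF_cons p506 (crtF_cons p507 (crtF_cons p508 (crtF_cons p509 (crtF_cons p510 (crtF_cons p511 crtF_nil)))))))))))))))))))))))))))))))))))))))))))))))))))))))))))))))))))))))))))))))))))))))))))))))))))))))))))))))))))))))))))))))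

theorem ch : chT 73 73 TCm s0_003 L = true := by decide +kernel

end Vale.Agent.P032X.Cert.XP.B1b.R0H003
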