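import Vale.Agent.P032X.H892.LtH
import Vale.Agent.P032X.H286.W73
import Vale.Agent.P032X.Cert.XP.B1b.R0T
import Vale.Agent.P032X.Cert.XP.B1b.R0Q025
import Vale.Agent.P032X.Cert.XP.B1b.R0Q026
import Vale.Agent.P032X.Cert.XP.B1b.R0Q027
import Vale.Agent.P032X.Cert.XP.B1b.R0Q028
import Vale.Agent.P032X.Cert.XP.B1b.R0Q029
import Vale.Agent.P032X.Cert.XP.B1b.R0Q030

set_option maxRecDepth 1000000

namespace Vale.Agent.P032X.Cert.XP.B1b.R0H004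

open Vale.Agent.P032.H820.K Vale.Agent.P032.H357.MK Vale.Agent.P032.H286.E Vale.Agent.P032.H61 Vale.Agent.P032X.Cert.XP.B1b

noncomputable abbrev Fm : ℕ → List ℕ := Vale.Agent.P032.Fam.fam2 (Vale.Agent.P032.Fam.im0)

def CB : List ℕ := [0, 4, 8, 12, 16, 20, 24]

theorem eB : Vale.Agent.P032.Lt.eqLL (CB.map Fm) R0Q025.E = true := by decide +kernel

def C512 : List ℕ := [0, 4, 8, 12, 16, 20, 24, 344065, 345089, 354305, 475137, 737281]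
theorem p512 : Pat 73 73 TBm TCm (C512.map Fm) R0Q025.P512 R0Q025.I512 := Vale.Agent.P032.Lt.pat_eq (E' := R0Q025.E512) (by decide +kernel) (pat_step (by decide +kernel) (q_cons (Vale.Agent.P032.Lt.q R0Q025.q512_0) (q_cons (Vale.Agent.P032.Lt.q R0Q025.q512_1) (q_cons (Vale.Agent.P032.Lt.q R0Q025.q512_2) q_nil))))

theorem p513 : Pat 73 73 TBm TCm (CB.map Fm) R0Q025.P513 R0Q025.I513 := Vale.Agent.P032.Lt.pat_eq (E' := R0Q025.E) eB (pat_step (by decide +kernel) (q_cons (Vale.Agent.P032.Lt.q R0Q025.q513_0) (q_cons (Vale.Agent.P032.Lt.q R0Q025.q513_1) (q_cons (Vale.Agent.P032.Lt.q R0Q025.q513_2) (q_cons (Vale.Agent.P032.Lt.q R0Q025.q513_3) q_nil)))))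

theorem p514 : Pat 73 73 TBm TCm (CB.map Fm) R0Q025.P514 R0Q025.I514 := Vale.Agent.P032.Lt.pat_eq (E' := R0Q025.E) eB (pat_step (by decide +kernel) (q_cons (Vale.Agent.P032.Lt.q R0Q025.q514_0) (q_cons (Vale.Agent.P032.Lt.q R0Q025.q514_1) (q_cons (Vale.Agent.P032.Lt.q R0Q025.q514_2) (q_cons (Vale.Agent.P032.Lt.q R0Q025.q514_3) q_nil)))))

theorem p515 : Pat 73 73 TBm TCm (CB.map Fm) R0Q025.P515 R0Q025.I515 := Vale.Agent.P032.Lt.pat_eq (E' := R0Q025.E) eB (pat_step (by decide +kernel) (q_cons (Vale.Agent.P032.Lt.q R0Q025.q515_0) (q_cons (Vale.Agent.P032.Lt.q R0Q025.q515_1) (q_cons (Vale.Agent.P032.Lt.q R0Q025.q515_2) (q_cons (Vale.Agent.P032.Lt.q R0Q025.q515_3) (q_cons (Vale.Agent.P032.Lt.q R0Q025.q515_4) (q_cons (Vale.Agent.P032.Lt.q R0Q025.q515_5) (q_cons (Vale.Agent.P032.Lt.q R0Q025.q515_6) (q_cons (Vale.Agent.P032.Lt.q R0Q025.q515_7) (q_cons (Vale.Agent.P032.Lt.q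 R0Q025.q515_8) (q_cons (Vale.Agent.P032.Lt.q R0Q025.q515_9) (q_cons (Vale.Agent.P032.Lt.q R0Q025.q515_10) (q_cons (Vale.Agent.P032.Lt.q R0Q025.q515_11) (q_cons (Vale.Agent.P032.Lt.q R0Q025.q515_12) (q_cons (Vale.Agent.P032.Lt.q R0Q025.q515_13) (q_cons (Vale.Agent.P032.Lt.q R0Q025.q515_14) (q_cons (Vale.Agent.P032.Lt.q R0Q025.q515_15) (q_cons (Vale.Agent.P032.Lt.q R0Q025.q515_16) (q_cons (Vale.Agent.P032.Lt.q R0Q025.q515_17) (q_cons (Vale.Agent.P032.Lt.q R0Q025.q515_18) (q_cons (Vale.Agent.P032.Lt.q R0Q025.q515_19) q_nil)))))))))))))))))))))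

def C516 : List ℕ := [0, 4, 8, 12, 16, 20, 24, 82945, 89089, 475137, 737281]
theorem p516 : Pat 73 73 TBm TCm (C516.map Fm) R0Q025.P516 R0Q025.I516 := Vale.Agent.P032.Lt.pat_eq (E' := R0Q025.E516) (by decide +kernel) (pat_step (by decide +kernel) (q_cons (Vale.Agent.P032.Lt.q R0Q025.q516_0) (q_cons (Vale.Agent.P032.Lt.q R0Q025.q516_1) (q_cons (Vale.Agent.P032.Lt.q R0Q025.q516_2) (q_cons (Vale.Agent.P032.Lt.q R0Q025.q516_3) (q_cons (Vale.Agent.P032.Lt.q R0Q025.q516_4) (q_cons (Vale.Agent.P032.Lt.q R0Q025.q516_5) (q_cons (Vale.Agent.P032.Lt.q R0Q025.q516_6) q_nil))))))))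

def C517 : List ℕ := [0, 4, 8, 12, 16, 20, 24, 81921, 212993, 355329, 606209]
theorem p517 : Pat 73 73 TBm TCm (C517.map Fm) R0Q025.P517 R0Q025.I517 := Vale.Agent.P032.Lt.pat_eq (E' := R0Q025.E517) (by decide +kernel) (pat_step (by decide +kernel) (q_cons (Vale.Agent.P032.Lt.q R0Q025.q517_0) (q_cons (Vale.Agent.P032.Lt.q R0Q025.q517_1) (q_cons (Vale.Agent.P032.Lt.q R0Q025.q517_2) (q_cons (Vale.Agent.P032.Lt.q R0Q025.q517_3) (q_cons (Vale.Agent.P032.Lt.q R0Q025.q517_4) (q_cons (Vale.Agent.P032.Lt.q R0Q025.q517_5) (q_cons (Vale.Agent.P032.Lt.q R0Q025.q517_6) (q_cons (Vale.Agent.P032.Lt.q R0Q025.q517_7) (q_cons (Vale.Agent.P032.Lt.q R0Q025.q517_8) (q_cons (Vale.Agent.P032.Lt.q R0Q025.q517_9) q_nil)))))))))))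

def C518 : List ℕ := [0, 4, 8, 12, 16, 20, 24, 82945, 475137, 737281]
theorem p518 : Pat 73 73 TBm TCm (C518.map Fm) R0Q025.P518 R0Q025.I518 := Vale.Agent.P032.Lt.pat_eq (E' := R0Q025.E518) (by decide +kernel) (pat_step (by decide +kernel) (q_cons (Vale.Agent.P032.Lt.q R0Q025.q518_0) (q_cons (Vale.Agent.P032.Lt.q R0Q025.q518_1) (q_cons (Vale.Agent.P032.Lt.q R0Q025.q518_2) (q_cons (Vale.Agent.P032.Lt.q R0Q025.q518_3) (q_cons (Vale.Agent.P032.Lt.q R0Q025.q518_4) (q_cons (Vale.Agent.P032.Lt.q R0Q025.q518_5) q_nil)))))))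

theorem p519 : Pat 73 73 TBm TCm (CB.map Fm) R0Q025.P519 R0Q025.I519 := Vale.Agent.P032.Lt.pat_eq (E' := R0Q025.E) eB (pat_step (by decide +kernel) (q_cons (Vale.Agent.P032.Lt.q R0Q025.q519_0) q_nil))

theorem p520 : Pat 73 73 TBm TCm (CB.map Fm) R0Q025.P520 R0Q025.I520 := Vale.Agent.P032.Lt.pat_eq (E' := R0Q025.E) eB (pat_step (by decide +kernel) (q_cons (Vale.Agent.P032.Lt.q R0Q025.q520_0) (q_cons (Vale.Agent.P032.Lt.q R0Q025.q520_1) (q_cons (Vale.Agent.P032.Lt.q R0Q025.q520_2) (q_cons (Vale.Agent.P032.Lt.q R0Q025.q520_3) q_nil)))))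

theorem p521 : Pat 73 73 TBm TCm (CB.map Fm) R0Q025.P521 R0Q025.I521 := Vale.Agent.P032.Lt.pat_eq (E' := R0Q025.E) eB (pat_step (by decide +kernel) (q_cons (Vale.Agent.P032.Lt.q R0Q025.q521_0) (q_cons (Vale.Agent.P032.Lt.q R0Q025.q521_1) (q_cons (Vale.Agent.P032.Lt.q R0Q025.q521_2) q_nil))))

theorem p522 : Pat 73 73 TBm TCm (CB.map Fm) R0Q025.P522 R0Q025.I522 := Vale.Agent.P032.Lt.pat_eq (E' := R0Q025.E) eB (pat_step (by decide +kernel) (q_cons (Vale.Agent.P032.Lt.q R0Q025.q522_0) (q_cons (Vale.Agent.P032.Lt.q R0Q025.q522_1) (q_cons (Vale.Agent.P032.Lt.q R0Q025.q522_2) (q_cons (Vale.Agent.P032.Lt.q R0Q025.q522_3) (q_cons (Vale.Agent.P032.Lt.q R0Q025.q522_4) q_nil))))))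

theorem p523 : Pat 73 73 TBm TCm (CB.map Fm) R0Q025.P523 R0Q025.I523 := Vale.Agent.P032.Lt.pat_eq (E' := R0Q025.E) eB (pat_step (by decide +kernel) (q_cons (Vale.Agent.P032.Lt.q R0Q025.q523_0) (q_cons (Vale.Agent.P032.Lt.q R0Q025.q523_1) (q_cons (Vale.Agent.P032.Lt.q R0Q025.q523_2) (q_cons (Vale.Agent.P032.Lt.q R0Q025.q523_3) (q_cons (Vale.Agent.P032.Lt.q R0Q025.q523_4) (q_cons (Vale.Agent.P032.Lt.q R0Q025.q523_5) (q_cons (Vale.Agent.P032.Lt.q R0Q025.q523_6) (q_cons (Vale.Agent.P032.Lt.q R0Q025.q523_7) (q_cons (Vale.Agent.P032.Lt.q R0Q025.q523_8) (q_cons (Vale.Agent.P032.Lt.q R0Q025.q523_9) (q_cons (Vale.Agent.P032.Lt.q R0Q025.q523_10) (q_cons (Vale.Agent.P032.Lt.q R0Q025.q523_11) q_nil)))))))))))))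

theorem p524 : Pat 73 73 TBm TCm (CB.map Fm) R0Q025.P524 R0Q025.I524 := Vale.Agent.P032.Lt.pat_eq (E' := R0Q025.E) eB (pat_step (by decide +kernel) (q_cons (Vale.Agent.P032.Lt.q R0Q025.q524_0) q_nil))

theorem p525 : Pat 73 73 TBm TCm (CB.map Fm) R0Q025.P525 R0Q025.I525 := Vale.Agent.P032.Lt.pat_eq (E' := R0Q025.E) eB (pat_step (by decide +kernel) (q_cons (Vale.Agent.P032.Lt.q R0Q025.q525_0) q_nil))

theorem p526 : Pat 73 73 TBm TCm (CB.map Fm) R0Q025.P526 R0Q025.I526 := Vale.Agent.P032.Lt.pat_eq (E' := R0Q025.E) eB (pat_step (by decide +kernel) (q_cons (Vale.Agent.P032.Lt.q R0Q025.q526_0) (q_cons (Vale.Agent.P032.Lt.q R0Q025.q526_1) (q_cons (Vale.Agent.P032.Lt.q R0Q025.q526_2) q_nil))))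

theorem p527 : Pat 73 73 TBm TCm (CB.map Fm) R0Q025.P527 R0Q025.I527 := Vale.Agent.P032.Lt.pat_eq (E' := R0Q025.E) eB (pat_step (by decide +kernel) (q_cons (Vale.Agent.P032.Lt.q R0Q025.q527_0) (q_cons (Vale.Agent.P032.Lt.q R0Q025.q527_1) (q_cons (Vale.Agent.P032.Lt.q R0Q025.q527_2) (q_cons (Vale.Agent.P032.Lt.q R0Q025.q527_3) (q_cons (Vale.Agent.P032.Lt.q R0Q025.q527_4) q_nil))))))

theorem p528 : Pat 73 73 TBm TCm (CB.map Fm) R0Q025.P528 R0Q025.I528 := Vale.Agent.P032.Lt.pat_eq (E' := R0Q025.E) eB (pat_step (by decide +kernel) (q_cons (Vale.Agent.P032.Lt.q R0Q025.q528_0) (q_cons (Vale.Agent.P032.Lt.q R0Q025.q528_1) (q_cons (Vale.Agent.P032.Lt.q R0Q025.q528_2) (q_cons (Vale.Agent.P032.Lt.q R0Q025.q528_3) (q_cons (Vale.Agent.P032.Lt.q R0Q025.q528_4) (q_cons (Vale.Agent.P032.Lt.q R0Q025.q528_5) (q_cons (Vale.Agent.P032.Lt.q R0Q025.q528_6) (q_cons (Vale.Agent.P032.Lt.q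 R0Q025.q528_7) (q_cons (Vale.Agent.P032.Lt.q R0Q025.q528_8) (q_cons (Vale.Agent.P032.Lt.q R0Q025.q528_9) (q_cons (Vale.Agent.P032.Lt.q R0Q025.q528_10) (q_cons (Vale.Agent.P032.Lt.q R0Q025.q528_11) (q_cons (Vale.Agent.P032.Lt.q R0Q025.q528_12) q_nil))))))))))))))

theorem p529 : Pat 73 73 TBm TCm (CB.map Fm) R0Q025.P529 R0Q025.I529 := Vale.Agent.P032.Lt.pat_eq (E' := R0Q025.E) eB (pat_step (by decide +kernel) (q_cons (Vale.Agent.P032.Lt.q R0Q025.q529_0) q_nil))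

theorem p530 : Pat 73 73 TBm TCm (CB.map Fm) R0Q025.P530 R0Q025.I530 := Vale.Agent.P032.Lt.pat_eq (E' := R0Q025.E) eB (pat_step (by decide +kernel) (q_cons (Vale.Agent.P032.Lt.q R0Q025.q530_0) (q_cons (Vale.Agent.P032.Lt.q R0Q025.q530_1) (q_cons (Vale.Agent.P032.Lt.q R0Q025.q530_2) (q_cons (Vale.Agent.P032.Lt.q R0Q025.q530_3) (q_cons (Vale.Agent.P032.Lt.q R0Q025.q530_4) q_nil))))))

theorem p531 : Pat 73 73 TBm TCm (CB.map Fm) R0Q025.P531 R0Q025.I531 := Vale.Agent.P032.Lt.pat_eq (E' := R0Q025.E) eB (pat_step (by decide +kernel) (q_cons (Vale.Agent.P032.Lt.q R0Q025.q531_0) q_nil))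

theorem p532 : Pat 73 73 TBm TCm (CB.map Fm) R0Q025.P532 R0Q025.I532 := Vale.Agent.P032.Lt.pat_eq (E' := R0Q025.E) eB (pat_step (by decide +kernel) (q_cons (Vale.Agent.P032.Lt.q R0Q025.q532_0) q_nil))

theorem p533 : Pat 73 73 TBm TCm (CB.map Fm) R0Q025.P533 R0Q025.I533 := Vale.Agent.P032.Lt.pat_eq (E' := R0Q025.E) eB (pat_step (by decide +kernel) (q_cons (Vale.Agent.P032.Lt.q R0Q025.q533_0) q_nil))

def C534 : List ℕ := [0, 4, 8, 12, 16, 20, 24, 81921, 212993]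
theorem p534 : Pat 73 73 TBm TCm (C534.map Fm) R0Q025.P534 R0Q025.I534 := Vale.Agent.P032.Lt.pat_eq (E' := R0Q025.E534) (by decide +kernel) (pat_step (by decide +kernel) (q_cons (Vale.Agent.P032.Lt.q R0Q025.q534_0) (q_cons (Vale.Agent.P032.Lt.q R0Q025.q534_1) (q_cons (Vale.Agent.P032.Lt.q R0Q025.q534_2) q_nil))))

theorem p535 : Pat 73 73 TBm TCm (CB.map Fm) R0Q025.P535 R0Q025.I535 := Vale.Agent.P032.Lt.pat_eq (E' := R0Q025.E) eB (pat_step (by decide +kernel) (q_cons (Vale.Agent.P032.Lt.q R0Q025.q535_0) q_nil))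

theorem p536 : Pat 73 73 TBm TCm (CB.map Fm) R0Q025.P536 R0Q025.I536 := Vale.Agent.P032.Lt.pat_eq (E' := R0Q025.E) eB (pat_step (by decide +kernel) (q_cons (Vale.Agent.P032.Lt.q R0Q025.q536_0) (q_cons (Vale.Agent.P032.Lt.q R0Q025.q536_1) q_nil)))

theorem p537 : Pat 73 73 TBm TCm (CB.map Fm) R0Q025.P537 R0Q025.I537 := Vale.Agent.P032.Lt.pat_eq (E' := R0Q025.E) eB (pat_step (by decide +kernel) (q_cons (Vale.Agent.P032.Lt.q R0Q025.q537_0) (q_cons (Vale.Agent.P032.Lt.q R0Q025.q537_1) q_nil)))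

theorem p538 : Pat 73 73 TBm TCm (CB.map Fm) R0Q025.P538 R0Q025.I538 := Vale.Agent.P032.Lt.pat_eq (E' := R0Q025.E) eB (pat_step (by decide +kernel) (q_cons (Vale.Agent.P032.Lt.q R0Q025.q538_0) (q_cons (Vale.Agent.P032.Lt.q R0Q025.q538_1) q_nil)))

theorem p539 : Pat 73 73 TBm TCm (CB.map Fm) R0Q025.P539 R0Q025.I539 := Vale.Agent.P032.Lt.pat_eq (E' := R0Q025.E) eB (pat_step (by decide +kernel) (q_cons (Vale.Agent.P032.Lt.q R0Q025.q539_0) (q_cons (Vale.Agent.P032.Lt.q R0Q025.q539_1) q_nil)))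

theorem p540 : Pat 73 73 TBm TCm (CB.map Fm) R0Q025.P540 R0Q025.I540 := Vale.Agent.P032.Lt.pat_eq (E' := R0Q025.E) eB (pat_step (by decide +kernel) (q_cons (Vale.Agent.P032.Lt.q R0Q025.q540_0) (q_cons (Vale.Agent.P032.Lt.q R0Q025.q540_1) q_nil)))

theorem p541 : Pat 73 73 TBm TCm (CB.map Fm) R0Q025.P541 R0Q025.I541 := Vale.Agent.P032.Lt.pat_eq (E' := R0Q025.E) eB (pat_step (by decide +kernel) (q_cons (Vale.Agent.P032.Lt.q R0Q025.q541_0) q_nil))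

theorem p542 : Pat 73 73 TBm TCm (CB.map Fm) R0Q025.P542 R0Q025.I542 := Vale.Agent.P032.Lt.pat_eq (E' := R0Q025.E) eB (pat_step (by decide +kernel) (q_cons (Vale.Agent.P032.Lt.q R0Q025.q542_0) q_nil))

theorem p543 : Pat 73 73 TBm TCm (CB.map Fm) R0Q025.P543 R0Q025.I543 := Vale.Agent.P032.Lt.pat_eq (E' := R0Q025.E) eB (pat_step (by decide +kernel) (q_cons (Vale.Agent.P032.Lt.q R0Q025.q543_0) (q_cons (Vale.Agent.P032.Lt.q R0Q025.q543_1) (q_cons (Vale.Agent.P032.Lt.q R0Q025.q543_2) q_nil))))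

def C544 : List ℕ := [0, 4, 8, 12, 16, 20, 24, 212993, 606209, 737281]
theorem p544 : Pat 73 73 TBm TCm (C544.map Fm) R0Q025.P544 R0Q025.I544 := Vale.Agent.P032.Lt.pat_eq (E' := R0Q025.E544) (by decide +kernel) (pat_step (by decide +kernel) (q_cons (Vale.Agent.P032.Lt.q R0Q025.q544_0) (q_cons (Vale.Agent.P032.Lt.q R0Q025.q544_1) (q_cons (Vale.Agent.P032.Lt.q R0Q025.q544_2) (q_cons (Vale.Agent.P032.Lt.q R0Q025.q544_3) (q_cons (Vale.Agent.P032.Lt.q R0Q025.q544_4) (q_cons (Vale.Agent.P032.Lt.q R0Q025.q544_5) (q_cons (Vale.Agent.P032.Lt.q R0Q025.q544_6) (q_cons (Vale.Agent.P032.Lt.q R0Q025.q544_7) q_nil)))))))))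

theorem p545 : Pat 73 73 TBm TCm (CB.map Fm) R0Q026.P545 R0Q026.I545 := Vale.Agent.P032.Lt.pat_eq (E' := R0Q026.E) eB (pat_step (by decide +kernel) (q_cons (Vale.Agent.P032.Lt.q R0Q026.q545_0) (q_cons (Vale.Agent.P032.Lt.q R0Q026.q545_1) (q_cons (Vale.Agent.P032.Lt.q R0Q026.q545_2) (q_cons (Vale.Agent.P032.Lt.q R0Q026.q545_3) (q_cons (Vale.Agent.P032.Lt.q R0Q026.q545_4) (q_cons (Vale.Agent.P032.Lt.q R0Q026.q545_5) q_nil)))))))

theorem p546 : Pat 73 73 TBm TCm (CB.map Fm) R0Q026.P546 R0Q026.I546 := Vale.Agent.P032.Lt.pat_eq (E' := R0Q026.E) eB (pat_step (by decide +kernel) (q_cons (Vale.Agent.P032.Lt.q R0Q026.q546_0) (q_cons (Vale.Agent.P032.Lt.q R0Q026.q546_1) (q_cons (Vale.Agent.P032.Lt.q R0Q026.q546_2) (q_cons (Vale.Agent.P032.Lt.q R0Q026.q546_3) (q_cons (Vale.Agent.P032.Lt.q R0Q026.q546_4) (q_cons (Vale.Agent.P032.Lt.q R0Q026.q546_5) (q_cons (Vale.Agent.P032.Lt.q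 R0Q026.q546_6) (q_cons (Vale.Agent.P032.Lt.q R0Q026.q546_7) (q_cons (Vale.Agent.P032.Lt.q R0Q026.q546_8) (q_cons (Vale.Agent.P032.Lt.q R0Q026.q546_9) (q_cons (Vale.Agent.P032.Lt.q R0Q026.q546_10) q_nil))))))))))))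

theorem p547 : Pat 73 73 TBm TCm (CB.map Fm) R0Q026.P547 R0Q026.I547 := Vale.Agent.P032.Lt.pat_eq (E' := R0Q026.E) eB (pat_step (by decide +kernel) (q_cons (Vale.Agent.P032.Lt.q R0Q026.q547_0) (q_cons (Vale.Agent.P032.Lt.q R0Q026.q547_1) (q_cons (Vale.Agent.P032.Lt.q R0Q026.q547_2) (q_cons (Vale.Agent.P032.Lt.q R0Q026.q547_3) (q_cons (Vale.Agent.P032.Lt.q R0Q026.q547_4) (q_cons (Vale.Agent.P032.Lt.q R0Q026.q547_5) (q_cons (Vale.Agent.P032.Lt.q R0Q026.q547_6) (q_cons (Vale.Agent.P032.Lt.q R0Q026.q547_7) q_nil)))))))))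

theorem p548 : Pat 73 73 TBm TCm (CB.map Fm) R0Q026.P548 R0Q026.I548 := Vale.Agent.P032.Lt.pat_eq (E' := R0Q026.E) eB (pat_step (by decide +kernel) (q_cons (Vale.Agent.P032.Lt.q R0Q026.q548_0) q_nil))

theorem p549 : Pat 73 73 TBm TCm (CB.map Fm) R0Q026.P549 R0Q026.I549 := Vale.Agent.P032.Lt.pat_eq (E' := R0Q026.E) eB (pat_step (by decide +kernel) (q_cons (Vale.Agent.P032.Lt.q R0Q026.q549_0) (q_cons (Vale.Agent.P032.Lt.q R0Q026.q549_1) (q_cons (Vale.Agent.P032.Lt.q R0Q026.q549_2) (q_cons (Vale.Agent.P032.Lt.q R0Q026.q549_3) q_nil)))))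

theorem p550 : Pat 73 73 TBm TCm (CB.map Fm) R0Q026.P550 R0Q026.I550 := Vale.Agent.P032.Lt.pat_eq (E' := R0Q026.E) eB (pat_step (by decide +kernel) (q_cons (Vale.Agent.P032.Lt.q R0Q026.q550_0) (q_cons (Vale.Agent.P032.Lt.q R0Q026.q550_1) (q_cons (Vale.Agent.P032.Lt.q R0Q026.q550_2) (q_cons (Vale.Agent.P032.Lt.q R0Q026.q550_3) q_nil)))))

theorem p551 : Pat 73 73 TBm TCm (CB.map Fm) R0Q026.P551 R0Q026.I551 := Vale.Agent.P032.Lt.pat_eq (E' := R0Q026.E) eB (pat_step (by decide +kernel) (q_cons (Vale.Agent.P032.Lt.q R0Q026.q551_0) (q_cons (Vale.Agent.P032.Lt.q R0Q026.q551_1) (q_cons (Vale.Agent.P032.Lt.q R0Q026.q551_2) (q_cons (Vale.Agent.P032.Lt.q R0Q026.q551_3) (q_cons (Vale.Agent.P032.Lt.q R0Q026.q551_4) q_nil))))))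

theorem p552 : Pat 73 73 TBm TCm (CB.map Fm) R0Q026.P552 R0Q026.I552 := Vale.Agent.P032.Lt.pat_eq (E' := R0Q026.E) eB (pat_step (by decide +kernel) (q_cons (Vale.Agent.P032.Lt.q R0Q026.q552_0) (q_cons (Vale.Agent.P032.Lt.q R0Q026.q552_1) (q_cons (Vale.Agent.P032.Lt.q R0Q026.q552_2) (q_cons (Vale.Agent.P032.Lt.q R0Q026.q552_3) q_nil)))))

theorem p553 : Pat 73 73 TBm TCm (CB.map Fm) R0Q026.P553 R0Q026.I553 := Vale.Agent.P032.Lt.pat_eq (E' := R0Q026.E) eB (pat_step (by decide +kernel) (q_cons (Vale.Agent.P032.Lt.q R0Q026.q553_0) (q_cons (Vale.Agent.P032.Lt.q R0Q026.q553_1) (q_cons (Vale.Agent.P032.Lt.q R0Q026.q553_2) (q_cons (Vale.Agent.P032.Lt.q R0Q026.q553_3) (q_cons (Vale.Agent.P032.Lt.q R0Q026.q553_4) (q_cons (Vale.Agent.P032.Lt.q R0Q026.q553_5) q_nil)))))))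

theorem p554 : Pat 73 73 TBm TCm (CB.map Fm) R0Q026.P554 R0Q026.I554 := Vale.Agent.P032.Lt.pat_eq (E' := R0Q026.E) eB (pat_step (by decide +kernel) (q_cons (Vale.Agent.P032.Lt.q R0Q026.q554_0) (q_cons (Vale.Agent.P032.Lt.q R0Q026.q554_1) (q_cons (Vale.Agent.P032.Lt.q R0Q026.q554_2) (q_cons (Vale.Agent.P032.Lt.q R0Q026.q554_3) q_nil)))))

theorem p555 : Pat 73 73 TBm TCm (CB.map Fm) R0Q026.P555 R0Q026.I555 := Vale.Agent.P032.Lt.pat_eq (E' := R0Q026.E) eB (pat_step (by decide +kernel) (q_cons (Vale.Agent.P032.Lt.q R0Q026.q555_0) (q_cons (Vale.Agent.P032.Lt.q R0Q026.q555_1) (q_cons (Vale.Agent.P032.Lt.q R0Q026.q555_2) (q_cons (Vale.Agent.P032.Lt.q R0Q026.q555_3) (q_cons (Vale.Agent.P032.Lt.q R0Q026.q555_4) (q_cons (Vale.Agent.P032.Lt.q R0Q026.q555_5) (q_cons (Vale.Agent.P032.Lt.q R0Q026.q555_6) (q_cons (Vale.Agent.P032.Lt.q R0Q026.q555_7) (q_cons (Vale.Agent.P032.Lt.q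 R0Q026.q555_8) (q_cons (Vale.Agent.P032.Lt.q R0Q026.q555_9) q_nil)))))))))))

theorem p556 : Pat 73 73 TBm TCm (CB.map Fm) R0Q026.P556 R0Q026.I556 := Vale.Agent.P032.Lt.pat_eq (E' := R0Q026.E) eB (pat_step (by decide +kernel) (q_cons (Vale.Agent.P032.Lt.q R0Q026.q556_0) (q_cons (Vale.Agent.P032.Lt.q R0Q026.q556_1) (q_cons (Vale.Agent.P032.Lt.q R0Q026.q556_2) (q_cons (Vale.Agent.P032.Lt.q R0Q026.q556_3) (q_cons (Vale.Agent.P032.Lt.q R0Q026.q556_4) (q_cons (Vale.Agent.P032.Lt.q R0Q026.q556_5) (q_cons (Vale.Agent.P032.Lt.q R0Q026.q556_6) (q_cons (Vale.Agent.P032.Lt.q R0Q026.q556_7) (q_cons (Vale.Agent.P032.Lt.q R0Q026.q556_8) (q_cons (Vale.Agent.P032.Lt.q R0Q026.q556_9) (q_cons (Vale.Agent.P032.Lt.q R0Q026.q556_10) (q_cons (Vale.Agent.P032.Lt.q R0Q026.q556_11) (q_cons (Vale.Agent.P032.Lt.q R0Q026.q556_12) (q_cons (Vale.Agent.P032.Lt.q R0Q026.q556_13) (q_cons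 (Vale.Agent.P032.Lt.q R0Q026.q556_14) (q_cons (Vale.Agent.P032.Lt.q R0Q026.q556_15) q_nil)))))))))))))))))

theorem p557 : Pat 73 73 TBm TCm (CB.map Fm) R0Q026.P557 R0Q026.I557 := Vale.Agent.P032.Lt.pat_eq (E' := R0Q026.E) eB (pat_step (by decide +kernel) (q_cons (Vale.Agent.P032.Lt.q R0Q026.q557_0) q_nil))

theorem p558 : Pat 73 73 TBm TCm (CB.map Fm) R0Q026.P558 R0Q026.I558 := Vale.Agent.P032.Lt.pat_eq (E' := R0Q026.E) eB (pat_step (by decide +kernel) (q_cons (Vale.Agent.P032.Lt.q R0Q026.q558_0) (q_cons (Vale.Agent.P032.Lt.q R0Q026.q558_1) (q_cons (Vale.Agent.P032.Lt.q R0Q026.q558_2) (q_cons (Vale.Agent.P032.Lt.q R0Q026.q558_3) q_nil)))))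

theorem p559 : Pat 73 73 TBm TCm (CB.map Fm) R0Q026.P559 R0Q026.I559 := Vale.Agent.P032.Lt.pat_eq (E' := R0Q026.E) eB (pat_step (by decide +kernel) (q_cons (Vale.Agent.P032.Lt.q R0Q026.q559_0) (q_cons (Vale.Agent.P032.Lt.q R0Q026.q559_1) (q_cons (Vale.Agent.P032.Lt.q R0Q026.q559_2) q_nil))))

def C560 : List ℕ := [0, 4, 8, 12, 16, 20, 24, 82945]
theorem p560 : Pat 73 73 TBm TCm (C560.map Fm) R0Q026.P560 R0Q026.I560 := Vale.Agent.P032.Lt.pat_eq (E' := R0Q026.E560) (by decide +kernel) (pat_step (by decide +kernel) (q_cons (Vale.Agent.P032.Lt.q R0Q026.q560_0) (q_cons (Vale.Agent.P032.Lt.q R0Q026.q560_1) (q_cons (Vale.Agent.P032.Lt.q R0Q026.q560_2) (q_cons (Vale.Agent.P032.Lt.q R0Q026.q560_3) (q_cons (Vale.Agent.P032.Lt.q R0Q026.q560_4) q_nil))))))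

theorem p561 : Pat 73 73 TBm TCm (CB.map Fm) R0Q026.P561 R0Q026.I561 := Vale.Agent.P032.Lt.pat_eq (E' := R0Q026.E) eB (pat_step (by decide +kernel) (q_cons (Vale.Agent.P032.Lt.q R0Q026.q561_0) q_nil))

theorem p562 : Pat 73 73 TBm TCm (CB.map Fm) R0Q026.P562 R0Q026.I562 := Vale.Agent.P032.Lt.pat_eq (E' := R0Q026.E) eB (pat_step (by decide +kernel) (q_cons (Vale.Agent.P032.Lt.q R0Q026.q562_0) (q_cons (Vale.Agent.P032.Lt.q R0Q026.q562_1) (q_cons (Vale.Agent.P032.Lt.q R0Q026.q562_2) q_nil))))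

theorem p563 : Pat 73 73 TBm TCm (CB.map Fm) R0Q026.P563 R0Q026.I563 := Vale.Agent.P032.Lt.pat_eq (E' := R0Q026.E) eB (pat_step (by decide +kernel) (q_cons (Vale.Agent.P032.Lt.q R0Q026.q563_0) (q_cons (Vale.Agent.P032.Lt.q R0Q026.q563_1) (q_cons (Vale.Agent.P032.Lt.q R0Q026.q563_2) (q_cons (Vale.Agent.P032.Lt.q R0Q026.q563_3) q_nil)))))

def C564 : List ℕ := [0, 4, 8, 12, 16, 20, 24, 82945]
theorem p564 : Pat 73 73 TBm TCm (C564.map Fm) R0Q026.P564 R0Q026.I564 := Vale.Agent.P032.Lt.pat_eq (E' := R0Q026.E564) (by decide +kernel) (pat_step (by decide +kernel) (q_cons (Vale.Agent.P032.Lt.q R0Q026.q564_0) (q_cons (Vale.Agent.P032.Lt.q R0Q026.q564_1) (q_cons (Vale.Agent.P032.Lt.q R0Q026.q564_2) (q_cons (Vale.Agent.P032.Lt.q R0Q026.q564_3) (q_cons (Vale.Agent.P032.Lt.q R0Q026.q564_4) (q_cons (Vale.Agent.P032.Lt.q R0Q026.q564_5) (q_cons (Vale.Agent.P032.Lt.q R0Q026.q564_6)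 (q_cons (Vale.Agent.P032.Lt.q R0Q026.q564_7) (q_cons (Vale.Agent.P032.Lt.q R0Q026.q564_8) (q_cons (Vale.Agent.P032.Lt.q R0Q026.q564_9) (q_cons (Vale.Agent.P032.Lt.q R0Q026.q564_10) (q_cons (Vale.Agent.P032.Lt.q R0Q026.q564_11) (q_cons (Vale.Agent.P032.Lt.q R0Q026.q564_12) (q_cons (Vale.Agent.P032.Lt.q R0Q026.q564_13) (q_cons (Vale.Agent.P032.Lt.q R0Q026.q564_14) q_nil))))))))))))))))

theorem p565 : Pat 73 73 TBm TCm (CB.map Fm) R0Q026.P565 R0Q026.I565 := Vale.Agent.P032.Lt.pat_eq (E' := R0Q026.E) eB (pat_step (by decide +kernel) (q_cons (Vale.Agent.P032.Lt.q R0Q026.q565_0) (q_cons (Vale.Agent.P032.Lt.q R0Q026.q565_1) (q_cons (Vale.Agent.P032.Lt.q R0Q026.q565_2) (q_cons (Vale.Agent.P032.Lt.q R0Q026.q565_3) (q_cons (Vale.Agent.P032.Lt.q R0Q026.q565_4) (q_cons (Vale.Agent.P032.Lt.q R0Q026.q565_5) q_nil)))))))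

theorem p566 : Pat 73 73 TBm TCm (CB.map Fm) R0Q026.P566 R0Q026.I566 := Vale.Agent.P032.Lt.pat_eq (E' := R0Q026.E) eB (pat_step (by decide +kernel) (q_cons (Vale.Agent.P032.Lt.q R0Q026.q566_0) (q_cons (Vale.Agent.P032.Lt.q R0Q026.q566_1) (q_cons (Vale.Agent.P032.Lt.q R0Q026.q566_2) (q_cons (Vale.Agent.P032.Lt.q R0Q026.q566_3) q_nil)))))

theorem p567 : Pat 73 73 TBm TCm (CB.map Fm) R0Q026.P567 R0Q026.I567 := Vale.Agent.P032.Lt.pat_eq (E' := R0Q026.E) eB (pat_step (by decide +kernel) (q_cons (Vale.Agent.P032.Lt.q R0Q026.q567_0) (q_cons (Vale.Agent.P032.Lt.q R0Q026.q567_1) (q_cons (Vale.Agent.P032.Lt.q R0Q026.q567_2) (q_cons (Vale.Agent.P032.Lt.q R0Q026.q567_3) (q_cons (Vale.Agent.P032.Lt.q R0Q026.q567_4) q_nil))))))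

theorem p568 : Pat 73 73 TBm TCm (CB.map Fm) R0Q027.P568 R0Q027.I568 := Vale.Agent.P032.Lt.pat_eq (E' := R0Q027.E) eB (pat_step (by decide +kernel) (q_cons (Vale.Agent.P032.Lt.q R0Q027.q568_0) (q_cons (Vale.Agent.P032.Lt.q R0Q027.q568_1) (q_cons (Vale.Agent.P032.Lt.q R0Q027.q568_2) (q_cons (Vale.Agent.P032.Lt.q R0Q027.q568_3) (q_cons (Vale.Agent.P032.Lt.q R0Q027.q568_4) (q_cons (Vale.Agent.P032.Lt.q R0Q027.q568_5) (q_cons (Vale.Agent.P032.Lt.q R0Q027.q568_6) (q_cons (Vale.Agent.P032.Lt.q R0Q027.q568_7) (q_cons (Vale.Agent.P032.Lt.q R0Q027.q568_8) (q_cons (Vale.Agent.P032.Lt.q R0Q027.q568_9) (q_cons (Vale.Agent.P032.Lt.q R0Q027.q568_10) (q_cons (Vale.Agent.P032.Lt.q R0Q027.q568_11) (q_cons (Vale.Agent.P032.Lt.q R0Q027.q568_12) (q_cons (Vale.Agent.P032.Lt.q R0Q027.q568_13) (q_cons (Vale.Agent.P032.Lt.q R0Q027.q568_14) (q_cons (Vale.Agent.P032.Lt.q R0Q027.q568_15)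 (q_cons (Vale.Agent.P032.Lt.q R0Q027.q568_16) (q_cons (Vale.Agent.P032.Lt.q R0Q027.q568_17) (q_cons (Vale.Agent.P032.Lt.q R0Q027.q568_18) q_nil))))))))))))))))))))

theorem p569 : Pat 73 73 TBm TCm (CB.map Fm) R0Q027.P569 R0Q027.I569 := Vale.Agent.P032.Lt.pat_eq (E' := R0Q027.E) eB (pat_step (by decide +kernel) (q_cons (Vale.Agent.P032.Lt.q R0Q027.q569_0) q_nil))

def C570 : List ℕ := [0, 4, 8, 12, 16, 20, 24, 82945, 212993, 475137, 737281]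
theorem p570 : Pat 73 73 TBm TCm (C570.map Fm) R0Q027.P570 R0Q027.I570 := Vale.Agent.P032.Lt.pat_eq (E' := R0Q027.E570) (by decide +kernel) (pat_step (by decide +kernel) (q_cons (Vale.Agent.P032.Lt.q R0Q027.q570_0) (q_cons (Vale.Agent.P032.Lt.q R0Q027.q570_1) (q_cons (Vale.Agent.P032.Lt.q R0Q027.q570_2) (q_cons (Vale.Agent.P032.Lt.q R0Q027.q570_3) (q_cons (Vale.Agent.P032.Lt.q R0Q027.q570_4) (q_cons (Vale.Agent.P032.Lt.q R0Q027.q570_5) q_nil)))))))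

theorem p571 : Pat 73 73 TBm TCm (CB.map Fm) R0Q027.P571 R0Q027.I571 := Vale.Agent.P032.Lt.pat_eq (E' := R0Q027.E) eB (pat_step (by decide +kernel) (q_cons (Vale.Agent.P032.Lt.q R0Q027.q571_0) (q_cons (Vale.Agent.P032.Lt.q R0Q027.q571_1) (q_cons (Vale.Agent.P032.Lt.q R0Q027.q571_2) (q_cons (Vale.Agent.P032.Lt.q R0Q027.q571_3) (q_cons (Vale.Agent.P032.Lt.q R0Q027.q571_4) (q_cons (Vale.Agent.P032.Lt.q R0Q027.q571_5) (q_cons (Vale.Agent.P032.Lt.q R0Q027.q571_6) (q_cons (Vale.Agent.P032.Lt.q R0Q027.q571_7) (q_cons (Vale.Agent.P032.Lt.q R0Q027.q571_8) (q_cons (Vale.Agent.P032.Lt.q R0Q027.q571_9) (q_cons (Vale.Agent.P032.Lt.q R0Q027.q571_10) (q_cons (Vale.Agent.P032.Lt.q R0Q027.q571_11) (q_cons (Vale.Agent.P032.Lt.q R0Q027.q571_12) (q_cons (Vale.Agent.P032.Lt.q R0Q027.q571_13) (q_cons (Vale.Agent.P032.Lt.q R0Q027.q571_14) (q_cons (Vale.Agent.P032.Lt.q R0Q027.q571_15)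 q_nil)))))))))))))))))

theorem p572 : Pat 73 73 TBm TCm (CB.map Fm) R0Q027.P572 R0Q027.I572 := Vale.Agent.P032.Lt.pat_eq (E' := R0Q027.E) eB (pat_step (by decide +kernel) (q_cons (Vale.Agent.P032.Lt.q R0Q027.q572_0) (q_cons (Vale.Agent.P032.Lt.q R0Q027.q572_1) (q_cons (Vale.Agent.P032.Lt.q R0Q027.q572_2) (q_cons (Vale.Agent.P032.Lt.q R0Q027.q572_3) (q_cons (Vale.Agent.P032.Lt.q R0Q027.q572_4) (q_cons (Vale.Agent.P032.Lt.q R0Q027.q572_5) (q_cons (Vale.Agent.P032.Lt.q R0Q027.q572_6) (q_cons (Vale.Agent.P032.Lt.q R0Q027.q572_7) q_nil)))))))))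

theorem p573 : Pat 73 73 TBm TCm (CB.map Fm) R0Q027.P573 R0Q027.I573 := Vale.Agent.P032.Lt.pat_eq (E' := R0Q027.E) eB (pat_step (by decide +kernel) (q_cons (Vale.Agent.P032.Lt.q R0Q027.q573_0) q_nil))

theorem p574 : Pat 73 73 TBm TCm (CB.map Fm) R0Q027.P574 R0Q027.I574 := Vale.Agent.P032.Lt.pat_eq (E' := R0Q027.E) eB (pat_step (by decide +kernel) (q_cons (Vale.Agent.P032.Lt.q R0Q027.q574_0) (q_cons (Vale.Agent.P032.Lt.q R0Q027.q574_1) q_nil)))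

theorem p575 : Pat 73 73 TBm TCm (CB.map Fm) R0Q027.P575 R0Q027.I575 := Vale.Agent.P032.Lt.pat_eq (E' := R0Q027.E) eB (pat_step (by decide +kernel) (q_cons (Vale.Agent.P032.Lt.q R0Q027.q575_0) (q_cons (Vale.Agent.P032.Lt.q R0Q027.q575_1) q_nil)))

theorem p576 : Pat 73 73 TBm TCm (CB.map Fm) R0Q027.P576 R0Q027.I576 := Vale.Agent.P032.Lt.pat_eq (E' := R0Q027.E) eB (pat_step (by decide +kernel) (q_cons (Vale.Agent.P032.Lt.q R0Q027.q576_0) (q_cons (Vale.Agent.P032.Lt.q R0Q027.q576_1) (q_cons (Vale.Agent.P032.Lt.q R0Q027.q576_2) (q_cons (Vale.Agent.P032.Lt.q R0Q027.q576_3) (q_cons (Vale.Agent.P032.Lt.q R0Q027.q576_4) q_nil))))))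

theorem p577 : Pat 73 73 TBm TCm (CB.map Fm) R0Q027.P577 R0Q027.I577 := Vale.Agent.P032.Lt.pat_eq (E' := R0Q027.E) eB (pat_step (by decide +kernel) (q_cons (Vale.Agent.P032.Lt.q R0Q027.q577_0) (q_cons (Vale.Agent.P032.Lt.q R0Q027.q577_1) (q_cons (Vale.Agent.P032.Lt.q R0Q027.q577_2) (q_cons (Vale.Agent.P032.Lt.q R0Q027.q577_3) q_nil)))))

def C578 : List ℕ := [0, 4, 8, 12, 16, 20, 24, 212993, 344065, 475137, 737281]
theorem p578 : Pat 73 73 TBm TCm (C578.map Fm) R0Q027.P578 R0Q027.I578 := Vale.Agent.P032.Lt.pat_eq (E' := R0Q027.E578) (by decide +kernel) (pat_step (by decide +kernel) (q_cons (Vale.Agent.P032.Lt.q R0Q027.q578_0) (q_cons (Vale.Agent.P032.Lt.q R0Q027.q578_1) (q_cons (Vale.Agent.P032.Lt.q R0Q027.q578_2) (q_cons (Vale.Agent.P032.Lt.q R0Q027.q578_3) (q_cons (Vale.Agent.P032.Lt.q R0Q027.q578_4) q_nil))))))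

theorem p579 : Pat 73 73 TBm TCm (CB.map Fm) R0Q027.P579 R0Q027.I579 := Vale.Agent.P032.Lt.pat_eq (E' := R0Q027.E) eB (pat_step (by decide +kernel) (q_cons (Vale.Agent.P032.Lt.q R0Q027.q579_0) (q_cons (Vale.Agent.P032.Lt.q R0Q027.q579_1) (q_cons (Vale.Agent.P032.Lt.q R0Q027.q579_2) (q_cons (Vale.Agent.P032.Lt.q R0Q027.q579_3) (q_cons (Vale.Agent.P032.Lt.q R0Q027.q579_4) (q_cons (Vale.Agent.P032.Lt.q R0Q027.q579_5) (q_cons (Vale.Agent.P032.Lt.q R0Q027.q579_6) q_nil))))))))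

def C580 : List ℕ := [0, 4, 8, 12, 16, 20, 24, 84993, 91137, 212993, 475137, 607233, 737281]
theorem p580 : Pat 73 73 TBm TCm (C580.map Fm) R0Q027.P580 R0Q027.I580 := Vale.Agent.P032.Lt.pat_eq (E' := R0Q027.E580) (by decide +kernel) (pat_step (by decide +kernel) (q_cons (Vale.Agent.P032.Lt.q R0Q027.q580_0) (q_cons (Vale.Agent.P032.Lt.q R0Q027.q580_1) (q_cons (Vale.Agent.P032.Lt.q R0Q027.q580_2) (q_cons (Vale.Agent.P032.Lt.q R0Q027.q580_3) (q_cons (Vale.Agent.P032.Lt.q R0Q027.q580_4) (q_cons (Vale.Agent.P032.Lt.q R0Q027.q580_5) (q_cons (Vale.Agent.P032.Lt.q R0Q027.q580_6) (q_cons (Vale.Agent.P032.Lt.q R0Q027.q580_7) (q_cons (Vale.Agent.P032.Lt.q R0Q027.q580_8) (q_cons (Vale.Agent.P032.Lt.q R0Q027.q580_9) (q_cons (Vale.Agent.P032.Lt.q R0Q027.q580_10) (q_cons (Vale.Agent.P032.Lt.q R0Q027.q580_11) (q_cons (Vale.Agent.P032.Lt.q R0Q027.q580_12) (q_cons (Vale.Agent.P032.Lt.q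 R0Q027.q580_13) (q_cons (Vale.Agent.P032.Lt.q R0Q027.q580_14) (q_cons (Vale.Agent.P032.Lt.q R0Q027.q580_15) (q_cons (Vale.Agent.P032.Lt.q R0Q027.q580_16) q_nil))))))))))))))))))

theorem p581 : Pat 73 73 TBm TCm (CB.map Fm) R0Q027.P581 R0Q027.I581 := Vale.Agent.P032.Lt.pat_eq (E' := R0Q027.E) eB (pat_step (by decide +kernel) (q_cons (Vale.Agent.P032.Lt.q R0Q027.q581_0) (q_cons (Vale.Agent.P032.Lt.q R0Q027.q581_1) (q_cons (Vale.Agent.P032.Lt.q R0Q027.q581_2) (q_cons (Vale.Agent.P032.Lt.q R0Q027.q581_3) q_nil)))))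

def C582 : List ℕ := [0, 4, 8, 12, 16, 20, 24, 220161, 344065, 606209, 737281]
theorem p582 : Pat 73 73 TBm TCm (C582.map Fm) R0Q027.P582 R0Q027.I582 := Vale.Agent.P032.Lt.pat_eq (E' := R0Q027.E582) (by decide +kernel) (pat_step (by decide +kernel) (q_cons (Vale.Agent.P032.Lt.q R0Q027.q582_0) (q_cons (Vale.Agent.P032.Lt.q R0Q027.q582_1) (q_cons (Vale.Agent.P032.Lt.q R0Q027.q582_2) (q_cons (Vale.Agent.P032.Lt.q R0Q027.q582_3) (q_cons (Vale.Agent.P032.Lt.q R0Q027.q582_4) (q_cons (Vale.Agent.P032.Lt.q R0Q027.q582_5) q_nil)))))))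

theorem p583 : Pat 73 73 TBm TCm (CB.map Fm) R0Q027.P583 R0Q027.I583 := Vale.Agent.P032.Lt.pat_eq (E' := R0Q027.E) eB (pat_step (by decide +kernel) (q_cons (Vale.Agent.P032.Lt.q R0Q027.q583_0) (q_cons (Vale.Agent.P032.Lt.q R0Q027.q583_1) (q_cons (Vale.Agent.P032.Lt.q R0Q027.q583_2) (q_cons (Vale.Agent.P032.Lt.q R0Q027.q583_3) (q_cons (Vale.Agent.P032.Lt.q R0Q027.q583_4) (q_cons (Vale.Agent.P032.Lt.q R0Q027.q583_5) (q_cons (Vale.Agent.P032.Lt.q R0Q027.q583_6) q_nil))))))))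

theorem p584 : Pat 73 73 TBm TCm (CB.map Fm) R0Q027.P584 R0Q027.I584 := Vale.Agent.P032.Lt.pat_eq (E' := R0Q027.E) eB (pat_step (by decide +kernel) (q_cons (Vale.Agent.P032.Lt.q R0Q027.q584_0) (q_cons (Vale.Agent.P032.Lt.q R0Q027.q584_1) (q_cons (Vale.Agent.P032.Lt.q R0Q027.q584_2) (q_cons (Vale.Agent.P032.Lt.q R0Q027.q584_3) q_nil)))))

theorem p585 : Pat 73 73 TBm TCm (CB.map Fm) R0Q027.P585 R0Q027.I585 := Vale.Agent.P032.Lt.pat_eq (E' := R0Q027.E) eB (pat_step (by decide +kernel) (q_cons (Vale.Agent.P032.Lt.q R0Q027.q585_0) (q_cons (Vale.Agent.P032.Lt.q R0Q027.q585_1) (q_cons (Vale.Agent.P032.Lt.q R0Q027.q585_2) (q_cons (Vale.Agent.P032.Lt.q R0Q027.q585_3) q_nil)))))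

def C586 : List ℕ := [0, 4, 8, 12, 16, 20, 24, 344065, 475137, 737281]
theorem p586 : Pat 73 73 TBm TCm (C586.map Fm) R0Q027.P586 R0Q027.I586 := Vale.Agent.P032.Lt.pat_eq (E' := R0Q027.E586) (by decide +kernel) (pat_step (by decide +kernel) (q_cons (Vale.Agent.P032.Lt.q R0Q027.q586_0) (q_cons (Vale.Agent.P032.Lt.q R0Q027.q586_1) q_nil)))

def C587 : List ℕ := [0, 4, 8, 12, 16, 20, 24, 475137, 737281]
theorem p587 : Pat 73 73 TBm TCm (C587.map Fm) R0Q027.P587 R0Q027.I587 := Vale.Agent.P032.Lt.pat_eq (E' := R0Q027.E587) (by decide +kernel) (pat_step (by decide +kernel) (q_cons (Vale.Agent.P032.Lt.q R0Q027.q587_0) q_nil))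

theorem p588 : Pat 73 73 TBm TCm (CB.map Fm) R0Q027.P588 R0Q027.I588 := Vale.Agent.P032.Lt.pat_eq (E' := R0Q027.E) eB (pat_step (by decide +kernel) (q_cons (Vale.Agent.P032.Lt.q R0Q027.q588_0) (q_cons (Vale.Agent.P032.Lt.q R0Q027.q588_1) (q_cons (Vale.Agent.P032.Lt.q R0Q027.q588_2) (q_cons (Vale.Agent.P032.Lt.q R0Q027.q588_3) (q_cons (Vale.Agent.P032.Lt.q R0Q027.q588_4) (q_cons (Vale.Agent.P032.Lt.q R0Q027.q588_5) (q_cons (Vale.Agent.P032.Lt.q R0Q027.q588_6) (q_cons (Vale.Agent.P032.Lt.q R0Q027.q588_7) (q_cons (Vale.Agent.P032.Lt.q R0Q027.q588_8) (q_cons (Vale.Agent.P032.Lt.q R0Q027.q588_9) (q_cons (Vale.Agent.P032.Lt.q R0Q027.q588_10) (q_cons (Vale.Agent.P032.Lt.q R0Q027.q588_11) q_nil)))))))))))))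

theorem p589 : Pat 73 73 TBm TCm (CB.map Fm) R0Q028.P589 R0Q028.I589 := Vale.Agent.P032.Lt.pat_eq (E' := R0Q028.E) eB (pat_step (by decide +kernel) (q_cons (Vale.Agent.P032.Lt.q R0Q028.q589_0) (q_cons (Vale.Agent.P032.Lt.q R0Q028.q589_1) (q_cons (Vale.Agent.P032.Lt.q R0Q028.q589_2) q_nil))))

theorem p590 : Pat 73 73 TBm TCm (CB.map Fm) R0Q028.P590 R0Q028.I590 := Vale.Agent.P032.Lt.pat_eq (E' := R0Q028.E) eB (pat_step (by decide +kernel) (q_cons (Vale.Agent.P032.Lt.q R0Q028.q590_0) q_nil))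

theorem p591 : Pat 73 73 TBm TCm (CB.map Fm) R0Q028.P591 R0Q028.I591 := Vale.Agent.P032.Lt.pat_eq (E' := R0Q028.E) eB (pat_step (by decide +kernel) (q_cons (Vale.Agent.P032.Lt.q R0Q028.q591_0) q_nil))

theorem p592 : Pat 73 73 TBm TCm (CB.map Fm) R0Q028.P592 R0Q028.I592 := Vale.Agent.P032.Lt.pat_eq (E' := R0Q028.E) eB (pat_step (by decide +kernel) (q_cons (Vale.Agent.P032.Lt.q R0Q028.q592_0) (q_cons (Vale.Agent.P032.Lt.q R0Q028.q592_1) (q_cons (Vale.Agent.P032.Lt.q R0Q028.q592_2) (q_cons (Vale.Agent.P032.Lt.q R0Q028.q592_3) (q_cons (Vale.Agent.P032.Lt.q R0Q028.q592_4) (q_cons (Vale.Agent.P032.Lt.q R0Q028.q592_5) q_nil)))))))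

theorem p593 : Pat 73 73 TBm TCm (CB.map Fm) R0Q028.P593 R0Q028.I593 := Vale.Agent.P032.Lt.pat_eq (E' := R0Q028.E) eB (pat_step (by decide +kernel) (q_cons (Vale.Agent.P032.Lt.q R0Q028.q593_0) q_nil))

theorem p594 : Pat 73 73 TBm TCm (CB.map Fm) R0Q028.P594 R0Q028.I594 := Vale.Agent.P032.Lt.pat_eq (E' := R0Q028.E) eB (pat_step (by decide +kernel) (q_cons (Vale.Agent.P032.Lt.q R0Q028.q594_0) q_nil))

theorem p595 : Pat 73 73 TBm TCm (CB.map Fm) R0Q028.P595 R0Q028.I595 := Vale.Agent.P032.Lt.pat_eq (E' := R0Q028.E) eB (pat_step (by decide +kernel) (q_cons (Vale.Agent.P032.Lt.q R0Q028.q595_0) (q_cons (Vale.Agent.P032.Lt.q R0Q028.q595_1) (q_cons (Vale.Agent.P032.Lt.q R0Q028.q595_2) (q_cons (Vale.Agent.P032.Lt.q R0Q028.q595_3) (q_cons (Vale.Agent.P032.Lt.q R0Q028.q595_4) (q_cons (Vale.Agent.P032.Lt.q R0Q028.q595_5) (q_cons (Vale.Agent.P032.Lt.q R0Q028.q595_6)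 q_nil))))))))

theorem p596 : Pat 73 73 TBm TCm (CB.map Fm) R0Q028.P596 R0Q028.I596 := Vale.Agent.P032.Lt.pat_eq (E' := R0Q028.E) eB (pat_step (by decide +kernel) (q_cons (Vale.Agent.P032.Lt.q R0Q028.q596_0) q_nil))

theorem p597 : Pat 73 73 TBm TCm (CB.map Fm) R0Q028.P597 R0Q028.I597 := Vale.Agent.P032.Lt.pat_eq (E' := R0Q028.E) eB (pat_step (by decide +kernel) (q_cons (Vale.Agent.P032.Lt.q R0Q028.q597_0) (q_cons (Vale.Agent.P032.Lt.q R0Q028.q597_1) (q_cons (Vale.Agent.P032.Lt.q R0Q028.q597_2) (q_cons (Vale.Agent.P032.Lt.q R0Q028.q597_3) (q_cons (Vale.Agent.P032.Lt.q R0Q028.q597_4) (q_cons (Vale.Agent.P032.Lt.q R0Q028.q597_5) q_nil)))))))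

theorem p598 : Pat 73 73 TBm TCm (CB.map Fm) R0Q028.P598 R0Q028.I598 := Vale.Agent.P032.Lt.pat_eq (E' := R0Q028.E) eB (pat_step (by decide +kernel) (q_cons (Vale.Agent.P032.Lt.q R0Q028.q598_0) (q_cons (Vale.Agent.P032.Lt.q R0Q028.q598_1) q_nil)))

def C599 : List ℕ := [0, 4, 8, 12, 16, 20, 24, 82945, 212993, 606209, 737281]
theorem p599 : Pat 73 73 TBm TCm (C599.map Fm) R0Q028.P599 R0Q028.I599 := Vale.Agent.P032.Lt.pat_eq (E' := R0Q028.E599) (by decide +kernel) (pat_step (by decide +kernel) (q_cons (Vale.Agent.P032.Lt.q R0Q028.q599_0) (q_cons (Vale.Agent.P032.Lt.q R0Q028.q599_1) (q_cons (Vale.Agent.P032.Lt.q R0Q028.q599_2) (q_cons (Vale.Agent.P032.Lt.q R0Q028.q599_3) (q_cons (Vale.Agent.P032.Lt.q R0Q028.q599_4) (q_cons (Vale.Agent.P032.Lt.q R0Q028.q599_5) (q_cons (Vale.Agent.P032.Lt.q R0Q028.q599_6) q_nil))))))))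

theorem p600 : Pat 73 73 TBm TCm (CB.map Fm) R0Q028.P600 R0Q028.I600 := Vale.Agent.P032.Lt.pat_eq (E' := R0Q028.E) eB (pat_step (by decide +kernel) (q_cons (Vale.Agent.P032.Lt.q R0Q028.q600_0) (q_cons (Vale.Agent.P032.Lt.q R0Q028.q600_1) (q_cons (Vale.Agent.P032.Lt.q R0Q028.q600_2) (q_cons (Vale.Agent.P032.Lt.q R0Q028.q600_3) (q_cons (Vale.Agent.P032.Lt.q R0Q028.q600_4) (q_cons (Vale.Agent.P032.Lt.q R0Q028.q600_5) q_nil)))))))

def C601 : List ℕ := [0, 4, 8, 12, 16, 20, 24, 82945, 212993, 217089, 476161, 606209, 737281]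
theorem p601 : Pat 73 73 TBm TCm (C601.map Fm) R0Q028.P601 R0Q028.I601 := Vale.Agent.P032.Lt.pat_eq (E' := R0Q028.E601) (by decide +kernel) (pat_step (by decide +kernel) (q_cons (Vale.Agent.P032.Lt.q R0Q028.q601_0) (q_cons (Vale.Agent.P032.Lt.q R0Q028.q601_1) (q_cons (Vale.Agent.P032.Lt.q R0Q028.q601_2) (q_cons (Vale.Agent.P032.Lt.q R0Q028.q601_3) (q_cons (Vale.Agent.P032.Lt.q R0Q028.q601_4) (q_cons (Vale.Agent.P032.Lt.q R0Q028.q601_5) q_nil)))))))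

def C602 : List ℕ := [0, 4, 8, 12, 16, 20, 24, 212993, 475137, 737281, 741377]
theorem p602 : Pat 73 73 TBm TCm (C602.map Fm) R0Q028.P602 R0Q028.I602 := Vale.Agent.P032.Lt.pat_eq (E' := R0Q028.E602) (by decide +kernel) (pat_step (by decide +kernel) (q_cons (Vale.Agent.P032.Lt.q R0Q028.q602_0) (q_cons (Vale.Agent.P032.Lt.q R0Q028.q602_1) (q_cons (Vale.Agent.P032.Lt.q R0Q028.q602_2) (q_cons (Vale.Agent.P032.Lt.q R0Q028.q602_3) (q_cons (Vale.Agent.P032.Lt.q R0Q028.q602_4) (q_cons (Vale.Agent.P032.Lt.q R0Q028.q602_5) (q_cons (Vale.Agent.P032.Lt.q R0Q028.q602_6) q_nil))))))))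

theorem p603 : Pat 73 73 TBm TCm (CB.map Fm) R0Q028.P603 R0Q028.I603 := Vale.Agent.P032.Lt.pat_eq (E' := R0Q028.E) eB (pat_step (by decide +kernel) (q_cons (Vale.Agent.P032.Lt.q R0Q028.q603_0) (q_cons (Vale.Agent.P032.Lt.q R0Q028.q603_1) q_nil)))

theorem p604 : Pat 73 73 TBm TCm (CB.map Fm) R0Q028.P604 R0Q028.I604 := Vale.Agent.P032.Lt.pat_eq (E' := R0Q028.E) eB (pat_step (by decide +kernel) (q_cons (Vale.Agent.P032.Lt.q R0Q028.q604_0) (q_cons (Vale.Agent.P032.Lt.q R0Q028.q604_1) (q_cons (Vale.Agent.P032.Lt.q R0Q028.q604_2) (q_cons (Vale.Agent.P032.Lt.q R0Q028.q604_3) q_nil)))))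

def C605 : List ℕ := [0, 4, 8, 12, 16, 20, 24, 355329, 475137, 737281]
theorem p605 : Pat 73 73 TBm TCm (C605.map Fm) R0Q028.P605 R0Q028.I605 := Vale.Agent.P032.Lt.pat_eq (E' := R0Q028.E605) (by decide +kernel) (pat_step (by decide +kernel) (q_cons (Vale.Agent.P032.Lt.q R0Q028.q605_0) (q_cons (Vale.Agent.P032.Lt.q R0Q028.q605_1) q_nil)))

theorem p606 : Pat 73 73 TBm TCm (CB.map Fm) R0Q028.P606 R0Q028.I606 := Vale.Agent.P032.Lt.pat_eq (E' := R0Q028.E) eB (pat_step (by decide +kernel) (q_cons (Vale.Agent.P032.Lt.q R0Q028.q606_0) (q_cons (Vale.Agent.P032.Lt.q R0Q028.q606_1) (q_cons (Vale.Agent.P032.Lt.q R0Q028.q606_2) (q_cons (Vale.Agent.P032.Lt.q R0Q028.q606_3) (q_cons (Vale.Agent.P032.Lt.q R0Q028.q606_4) (q_cons (Vale.Agent.P032.Lt.q R0Q028.q606_5) (q_cons (Vale.Agent.P032.Lt.q R0Q028.q606_6) (q_cons (Vale.Agent.P032.Lt.q R0Q028.q606_7) (q_cons (Vale.Agent.P032.Lt.q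 R0Q028.q606_8) (q_cons (Vale.Agent.P032.Lt.q R0Q028.q606_9) (q_cons (Vale.Agent.P032.Lt.q R0Q028.q606_10) (q_cons (Vale.Agent.P032.Lt.q R0Q028.q606_11) (q_cons (Vale.Agent.P032.Lt.q R0Q028.q606_12) (q_cons (Vale.Agent.P032.Lt.q R0Q028.q606_13) (q_cons (Vale.Agent.P032.Lt.q R0Q028.q606_14) (q_cons (Vale.Agent.P032.Lt.q R0Q028.q606_15) (q_cons (Vale.Agent.P032.Lt.q R0Q028.q606_16) (q_cons (Vale.Agent.P032.Lt.q R0Q028.q606_17) (q_cons (Vale.Agent.P032.Lt.q R0Q028.q606_18) (q_cons (Vale.Agent.P032.Lt.q R0Q028.q606_19) q_nil)))))))))))))))))))))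

theorem p607 : Pat 73 73 TBm TCm (CB.map Fm) R0Q028.P607 R0Q028.I607 := Vale.Agent.P032.Lt.pat_eq (E' := R0Q028.E) eB (pat_step (by decide +kernel) (q_cons (Vale.Agent.P032.Lt.q R0Q028.q607_0) (q_cons (Vale.Agent.P032.Lt.q R0Q028.q607_1) (q_cons (Vale.Agent.P032.Lt.q R0Q028.q607_2) (q_cons (Vale.Agent.P032.Lt.q R0Q028.q607_3) (q_cons (Vale.Agent.P032.Lt.q R0Q028.q607_4) q_nil))))))

theorem p608 : Pat 73 73 TBm TCm (CB.map Fm) R0Q028.P608 R0Q028.I608 := Vale.Agent.P032.Lt.pat_eq (E' := R0Q028.E) eB (pat_step (by decide +kernel) (q_cons (Vale.Agent.P032.Lt.q R0Q028.q608_0) (q_cons (Vale.Agent.P032.Lt.q R0Q028.q608_1) (q_cons (Vale.Agent.P032.Lt.q R0Q028.q608_2) (q_cons (Vale.Agent.P032.Lt.q R0Q028.q608_3) (q_cons (Vale.Agent.P032.Lt.q R0Q028.q608_4) (q_cons (Vale.Agent.P032.Lt.q R0Q028.q608_5) (q_cons (Vale.Agent.P032.Lt.q R0Q028.q608_6) (q_cons (Vale.Agent.P032.Lt.q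 R0Q028.q608_7) (q_cons (Vale.Agent.P032.Lt.q R0Q028.q608_8) q_nil))))))))))

theorem p609 : Pat 73 73 TBm TCm (CB.map Fm) R0Q028.P609 R0Q028.I609 := Vale.Agent.P032.Lt.pat_eq (E' := R0Q028.E) eB (pat_step (by decide +kernel) (q_cons (Vale.Agent.P032.Lt.q R0Q028.q609_0) (q_cons (Vale.Agent.P032.Lt.q R0Q028.q609_1) (q_cons (Vale.Agent.P032.Lt.q R0Q028.q609_2) (q_cons (Vale.Agent.P032.Lt.q R0Q028.q609_3) (q_cons (Vale.Agent.P032.Lt.q R0Q028.q609_4) (q_cons (Vale.Agent.P032.Lt.q R0Q028.q609_5) (q_cons (Vale.Agent.P032.Lt.q R0Q028.q609_6) (q_cons (Vale.Agent.P032.Lt.q R0Q028.q609_7) (q_cons (Vale.Agent.P032.Lt.q R0Q028.q609_8) q_nil))))))))))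

def C610 : List ℕ := [0, 4, 8, 12, 16, 20, 24, 214017, 220161, 475137, 617473, 737281]
theorem p610 : Pat 73 73 TBm TCm (C610.map Fm) R0Q028.P610 R0Q028.I610 := Vale.Agent.P032.Lt.pat_eq (E' := R0Q028.E610) (by decide +kernel) (pat_step (by decide +kernel) (q_cons (Vale.Agent.P032.Lt.q R0Q028.q610_0) (q_cons (Vale.Agent.P032.Lt.q R0Q028.q610_1) (q_cons (Vale.Agent.P032.Lt.q R0Q028.q610_2) (q_cons (Vale.Agent.P032.Lt.q R0Q028.q610_3) (q_cons (Vale.Agent.P032.Lt.q R0Q028.q610_4) (q_cons (Vale.Agent.P032.Lt.q R0Q028.q610_5) (q_cons (Vale.Agent.P032.Lt.q R0Q028.q610_6) q_nil))))))))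

theorem p611 : Pat 73 73 TBm TCm (CB.map Fm) R0Q028.P611 R0Q028.I611 := Vale.Agent.P032.Lt.pat_eq (E' := R0Q028.E) eB (pat_step (by decide +kernel) (q_cons (Vale.Agent.P032.Lt.q R0Q028.q611_0) (q_cons (Vale.Agent.P032.Lt.q R0Q028.q611_1) q_nil)))

theorem p612 : Pat 73 73 TBm TCm (CB.map Fm) R0Q028.P612 R0Q028.I612 := Vale.Agent.P032.Lt.pat_eq (E' := R0Q028.E) eB (pat_step (by decide +kernel) (q_cons (Vale.Agent.P032.Lt.q R0Q028.q612_0) (q_cons (Vale.Agent.P032.Lt.q R0Q028.q612_1) (q_cons (Vale.Agent.P032.Lt.q R0Q028.q612_2) (q_cons (Vale.Agent.P032.Lt.q R0Q028.q612_3) (q_cons (Vale.Agent.P032.Lt.q R0Q028.q612_4) (q_cons (Vale.Agent.P032.Lt.q R0Q028.q612_5) (q_cons (Vale.Agent.P032.Lt.q R0Q028.q612_6) (q_cons (Vale.Agent.P032.Lt.q R0Q028.q612_7) q_nil)))))))))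

theorem p613 : Pat 73 73 TBm TCm (CB.map Fm) R0Q028.P613 R0Q028.I613 := Vale.Agent.P032.Lt.pat_eq (E' := R0Q028.E) eB (pat_step (by decide +kernel) (q_cons (Vale.Agent.P032.Lt.q R0Q028.q613_0) (q_cons (Vale.Agent.P032.Lt.q R0Q028.q613_1) (q_cons (Vale.Agent.P032.Lt.q R0Q028.q613_2) (q_cons (Vale.Agent.P032.Lt.q R0Q028.q613_3) q_nil)))))

theorem p614 : Pat 73 73 TBm TCm (CB.map Fm) R0Q028.P614 R0Q028.I614 := Vale.Agent.P032.Lt.pat_eq (E' := R0Q028.E) eB (pat_step (by decide +kernel) (q_cons (Vale.Agent.P032.Lt.q R0Q028.q614_0) (q_cons (Vale.Agent.P032.Lt.q R0Q028.q614_1) (q_cons (Vale.Agent.P032.Lt.q R0Q028.q614_2) q_nil))))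

def C615 : List ℕ := [0, 4, 8, 12, 16, 20, 24, 344065]
theorem p615 : Pat 73 73 TBm TCm (C615.map Fm) R0Q029.P615 R0Q029.I615 := Vale.Agent.P032.Lt.pat_eq (E' := R0Q029.E615) (by decide +kernel) (pat_step (by decide +kernel) (q_cons (Vale.Agent.P032.Lt.q R0Q029.q615_0) (q_cons (Vale.Agent.P032.Lt.q R0Q029.q615_1) (q_cons (Vale.Agent.P032.Lt.q R0Q029.q615_2) (q_cons (Vale.Agent.P032.Lt.q R0Q029.q615_3) (q_cons (Vale.Agent.P032.Lt.q R0Q029.q615_4) (q_cons (Vale.Agent.P032.Lt.q R0Q029.q615_5) (q_cons (Vale.Agent.P032.Lt.q R0Q029.q615_6) (q_cons (Vale.Agent.P032.Lt.q R0Q029.q615_7) (q_cons (Vale.Agent.P032.Lt.q R0Q029.q615_8) (q_cons (Vale.Agent.P032.Lt.q R0Q029.q615_9) (q_cons (Vale.Agent.P032.Lt.q R0Q029.q615_10) (q_cons (Vale.Agent.P032.Lt.q R0Q029.q615_11) (q_cons (Vale.Agent.P032.Lt.q R0Q029.q615_12) (q_cons (Vale.Agent.P032.Lt.q R0Q029.q615_13) (q_cons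 (Vale.Agent.P032.Lt.q R0Q029.q615_14) (q_cons (Vale.Agent.P032.Lt.q R0Q029.q615_15) (q_cons (Vale.Agent.P032.Lt.q R0Q029.q615_16) (q_cons (Vale.Agent.P032.Lt.q R0Q029.q615_17) (q_cons (Vale.Agent.P032.Lt.q R0Q029.q615_18) q_nil))))))))))))))))))))

theorem p616 : Pat 73 73 TBm TCm (CB.map Fm) R0Q029.P616 R0Q029.I616 := Vale.Agent.P032.Lt.pat_eq (E' := R0Q029.E) eB (pat_step (by decide +kernel) (q_cons (Vale.Agent.P032.Lt.q R0Q029.q616_0) (q_cons (Vale.Agent.P032.Lt.q R0Q029.q616_1) (q_cons (Vale.Agent.P032.Lt.q R0Q029.q616_2) q_nil))))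

theorem p617 : Pat 73 73 TBm TCm (CB.map Fm) R0Q029.P617 R0Q029.I617 := Vale.Agent.P032.Lt.pat_eq (E' := R0Q029.E) eB (pat_step (by decide +kernel) (q_cons (Vale.Agent.P032.Lt.q R0Q029.q617_0) (q_cons (Vale.Agent.P032.Lt.q R0Q029.q617_1) (q_cons (Vale.Agent.P032.Lt.q R0Q029.q617_2) (q_cons (Vale.Agent.P032.Lt.q R0Q029.q617_3) (q_cons (Vale.Agent.P032.Lt.q R0Q029.q617_4) q_nil))))))

theorem p618 : Pat 73 73 TBm TCm (CB.map Fm) R0Q029.P618 R0Q029.I618 := Vale.Agent.P032.Lt.pat_eq (E' := R0Q029.E) eB (pat_step (by decide +kernel) (q_cons (Vale.Agent.P032.Lt.q R0Q029.q618_0) (q_cons (Vale.Agent.P032.Lt.q R0Q029.q618_1) (q_cons (Vale.Agent.P032.Lt.q R0Q029.q618_2) (q_cons (Vale.Agent.P032.Lt.q R0Q029.q618_3) (q_cons (Vale.Agent.P032.Lt.q R0Q029.q618_4) (q_cons (Vale.Agent.P032.Lt.q R0Q029.q618_5) (q_cons (Vale.Agent.P032.Lt.q R0Q029.q618_6) (q_cons (Vale.Agent.P032.Lt.q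 R0Q029.q618_7) (q_cons (Vale.Agent.P032.Lt.q R0Q029.q618_8) (q_cons (Vale.Agent.P032.Lt.q R0Q029.q618_9) (q_cons (Vale.Agent.P032.Lt.q R0Q029.q618_10) (q_cons (Vale.Agent.P032.Lt.q R0Q029.q618_11) (q_cons (Vale.Agent.P032.Lt.q R0Q029.q618_12) (q_cons (Vale.Agent.P032.Lt.q R0Q029.q618_13) (q_cons (Vale.Agent.P032.Lt.q R0Q029.q618_14) (q_cons (Vale.Agent.P032.Lt.q R0Q029.q618_15) (q_cons (Vale.Agent.P032.Lt.q R0Q029.q618_16) (q_cons (Vale.Agent.P032.Lt.q R0Q029.q618_17) (q_cons (Vale.Agent.P032.Lt.q R0Q029.q618_18) (q_cons (Vale.Agent.P032.Lt.q R0Q029.q618_19) (q_cons (Vale.Agent.P032.Lt.q R0Q029.q618_20) (q_cons (Vale.Agent.P032.Lt.q R0Q029.q618_21) (q_cons (Vale.Agent.P032.Lt.q R0Q029.q618_22) q_nil))))))))))))))))))))))))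

theorem p619 : Pat 73 73 TBm TCm (CB.map Fm) R0Q029.P619 R0Q029.I619 := Vale.Agent.P032.Lt.pat_eq (E' := R0Q029.E) eB (pat_step (by decide +kernel) (q_cons (Vale.Agent.P032.Lt.q R0Q029.q619_0) (q_cons (Vale.Agent.P032.Lt.q R0Q029.q619_1) (q_cons (Vale.Agent.P032.Lt.q R0Q029.q619_2) (q_cons (Vale.Agent.P032.Lt.q R0Q029.q619_3) (q_cons (Vale.Agent.P032.Lt.q R0Q029.q619_4) (q_cons (Vale.Agent.P032.Lt.q R0Q029.q619_5) (q_cons (Vale.Agent.P032.Lt.q R0Q029.q619_6) (q_cons (Vale.Agent.P032.Lt.q R0Q029.q619_7) (q_cons (Vale.Agent.P032.Lt.q R0Q029.q619_8) (q_cons (Vale.Agent.P032.Lt.q R0Q029.q619_9) (q_cons (Vale.Agent.P032.Lt.q R0Q029.q619_10) (q_cons (Vale.Agent.P032.Lt.q R0Q029.q619_11) (q_cons (Vale.Agent.P032.Lt.q R0Q029.q619_12) (q_cons (Vale.Agent.P032.Lt.q R0Q029.q619_13) (q_cons (Vale.Agent.P032.Lt.q R0Q029.q619_14) (q_cons (Vale.Agent.P032.Lt.q R0Q029.q619_15)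 (q_cons (Vale.Agent.P032.Lt.q R0Q029.q619_16) (q_cons (Vale.Agent.P032.Lt.q R0Q029.q619_17) (q_cons (Vale.Agent.P032.Lt.q R0Q029.q619_18) q_nil))))))))))))))))))))

theorem p620 : Pat 73 73 TBm TCm (CB.map Fm) R0Q029.P620 R0Q029.I620 := Vale.Agent.P032.Lt.pat_eq (E' := R0Q029.E) eB (pat_step (by decide +kernel) (q_cons (Vale.Agent.P032.Lt.q R0Q029.q620_0) (q_cons (Vale.Agent.P032.Lt.q R0Q029.q620_1) (q_cons (Vale.Agent.P032.Lt.q R0Q029.q620_2) (q_cons (Vale.Agent.P032.Lt.q R0Q029.q620_3) (q_cons (Vale.Agent.P032.Lt.q R0Q029.q620_4) (q_cons (Vale.Agent.P032.Lt.q R0Q029.q620_5) (q_cons (Vale.Agent.P032.Lt.q R0Q029.q620_6) (q_cons (Vale.Agent.P032.Lt.q R0Q029.q620_7) (q_cons (Vale.Agent.P032.Lt.q R0Q029.q620_8) (q_cons (Vale.Agent.P032.Lt.q R0Q029.q620_9) (q_cons (Vale.Agent.P032.Lt.q R0Q029.q620_10) (q_cons (Vale.Agent.P032.Lt.q R0Q029.q620_11) (q_cons (Vale.Agent.P032.Lt.q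 R0Q029.q620_12) (q_cons (Vale.Agent.P032.Lt.q R0Q029.q620_13) (q_cons (Vale.Agent.P032.Lt.q R0Q029.q620_14) q_nil))))))))))))))))

theorem p621 : Pat 73 73 TBm TCm (CB.map Fm) R0Q029.P621 R0Q029.I621 := Vale.Agent.P032.Lt.pat_eq (E' := R0Q029.E) eB (pat_step (by decide +kernel) (q_cons (Vale.Agent.P032.Lt.q R0Q029.q621_0) (q_cons (Vale.Agent.P032.Lt.q R0Q029.q621_1) (q_cons (Vale.Agent.P032.Lt.q R0Q029.q621_2) (q_cons (Vale.Agent.P032.Lt.q R0Q029.q621_3) (q_cons (Vale.Agent.P032.Lt.q R0Q029.q621_4) (q_cons (Vale.Agent.P032.Lt.q R0Q029.q621_5) (q_cons (Vale.Agent.P032.Lt.q R0Q029.q621_6) (q_cons (Vale.Agent.P032.Lt.q R0Q029.q621_7) (q_cons (Vale.Agent.P032.Lt.q R0Q029.q621_8) (q_cons (Vale.Agent.P032.Lt.q R0Q029.q621_9) (q_cons (Vale.Agent.P032.Lt.q R0Q029.q621_10) (q_cons (Vale.Agent.P032.Lt.q R0Q029.q621_11) (q_cons (Vale.Agent.P032.Lt.q R0Q029.q621_12)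 (q_cons (Vale.Agent.P032.Lt.q R0Q029.q621_13) (q_cons (Vale.Agent.P032.Lt.q R0Q029.q621_14) (q_cons (Vale.Agent.P032.Lt.q R0Q029.q621_15) (q_cons (Vale.Agent.P032.Lt.q R0Q029.q621_16) q_nil))))))))))))))))))

theorem p622 : Pat 73 73 TBm TCm (CB.map Fm) R0Q029.P622 R0Q029.I622 := Vale.Agent.P032.Lt.pat_eq (E' := R0Q029.E) eB (pat_step (by decide +kernel) (q_cons (Vale.Agent.P032.Lt.q R0Q029.q622_0) (q_cons (Vale.Agent.P032.Lt.q R0Q029.q622_1) q_nil)))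

theorem p623 : Pat 73 73 TBm TCm (CB.map Fm) R0Q029.P623 R0Q029.I623 := Vale.Agent.P032.Lt.pat_eq (E' := R0Q029.E) eB (pat_step (by decide +kernel) (q_cons (Vale.Agent.P032.Lt.q R0Q029.q623_0) q_nil))

theorem p624 : Pat 73 73 TBm TCm (CB.map Fm) R0Q029.P624 R0Q029.I624 := Vale.Agent.P032.Lt.pat_eq (E' := R0Q029.E) eB (pat_step (by decide +kernel) (q_cons (Vale.Agent.P032.Lt.q R0Q029.q624_0) (q_cons (Vale.Agent.P032.Lt.q R0Q029.q624_1) (q_cons (Vale.Agent.P032.Lt.q R0Q029.q624_2) (q_cons (Vale.Agent.P032.Lt.q R0Q029.q624_3) (q_cons (Vale.Agent.P032.Lt.q R0Q029.q624_4) (q_cons (Vale.Agent.P032.Lt.q R0Q029.q624_5) (q_cons (Vale.Agent.P032.Lt.q R0Q029.q624_6) (q_cons (Vale.Agent.P032.Lt.q R0Q029.q624_7) (q_cons (Vale.Agent.P032.Lt.q R0Q029.q624_8) (q_cons (Vale.Agent.P032.Lt.q R0Q029.q624_9) (q_cons (Vale.Agent.P032.Lt.q R0Q029.q624_10) (q_cons (Vale.Agent.P032.Lt.q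 R0Q029.q624_11) (q_cons (Vale.Agent.P032.Lt.q R0Q029.q624_12) (q_cons (Vale.Agent.P032.Lt.q R0Q029.q624_13) (q_cons (Vale.Agent.P032.Lt.q R0Q029.q624_14) (q_cons (Vale.Agent.P032.Lt.q R0Q029.q624_15) (q_cons (Vale.Agent.P032.Lt.q R0Q029.q624_16) (q_cons (Vale.Agent.P032.Lt.q R0Q029.q624_17) (q_cons (Vale.Agent.P032.Lt.q R0Q029.q624_18) (q_cons (Vale.Agent.P032.Lt.q R0Q029.q624_19) (q_cons (Vale.Agent.P032.Lt.q R0Q029.q624_20) (q_cons (Vale.Agent.P032.Lt.q R0Q029.q624_21) (q_cons (Vale.Agent.P032.Lt.q R0Q029.q624_22) (q_cons (Vale.Agent.P032.Lt.q R0Q029.q624_23) (q_cons (Vale.Agent.P032.Lt.q R0Q029.q624_24) (q_cons (Vale.Agent.P032.Lt.q R0Q029.q624_25) (q_cons (Vale.Agent.P032.Lt.q R0Q029.q624_26) (q_cons (Vale.Agent.P032.Lt.q R0Q029.q624_27) (q_cons (Vale.Agent.P032.Lt.q R0Q029.q624_28) (q_cons (Vale.Agent.P032.Lt.q R0Q029.q624_29) (q_cons (Vale.Agent.P032.Lt.q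 R0Q029.q624_30) (q_cons (Vale.Agent.P032.Lt.q R0Q029.q624_31) (q_cons (Vale.Agent.P032.Lt.q R0Q029.q624_32) (q_cons (Vale.Agent.P032.Lt.q R0Q029.q624_33) (q_cons (Vale.Agent.P032.Lt.q R0Q029.q624_34) (q_cons (Vale.Agent.P032.Lt.q R0Q029.q624_35) (q_cons (Vale.Agent.P032.Lt.q R0Q029.q624_36) (q_cons (Vale.Agent.P032.Lt.q R0Q029.q624_37) (q_cons (Vale.Agent.P032.Lt.q R0Q029.q624_38) (q_cons (Vale.Agent.P032.Lt.q R0Q029.q624_39) (q_cons (Vale.Agent.P032.Lt.q R0Q029.q624_40) (q_cons (Vale.Agent.P032.Lt.q R0Q029.q624_41) (q_cons (Vale.Agent.P032.Lt.q R0Q029.q624_42) (q_cons (Vale.Agent.P032.Lt.q R0Q029.q624_43) (q_cons (Vale.Agent.P032.Lt.q R0Q029.q624_44) q_nil))))))))))))))))))))))))))))))))))))))))))))))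

def C625 : List ℕ := [0, 4, 8, 12, 16, 20, 24, 475137, 606209, 737281]
theorem p625 : Pat 73 73 TBm TCm (C625.map Fm) R0Q029.P625 R0Q029.I625 := Vale.Agent.P032.Lt.pat_eq (E' := R0Q029.E625) (by decide +kernel) (pat_step (by decide +kernel) (q_cons (Vale.Agent.P032.Lt.q R0Q029.q625_0) (q_cons (Vale.Agent.P032.Lt.q R0Q029.q625_1) (q_cons (Vale.Agent.P032.Lt.q R0Q029.q625_2) (q_cons (Vale.Agent.P032.Lt.q R0Q029.q625_3) (q_cons (Vale.Agent.P032.Lt.q R0Q029.q625_4) (q_cons (Vale.Agent.P032.Lt.q R0Q029.q625_5) (q_cons (Vale.Agent.P032.Lt.q R0Q029.q625_6) (q_cons (Vale.Agent.P032.Lt.q R0Q029.q625_7) (q_cons (Vale.Agent.P032.Lt.q R0Q029.q625_8) (q_cons (Vale.Agent.P032.Lt.q R0Q029.q625_9) (q_cons (Vale.Agent.P032.Lt.q R0Q029.q625_10) q_nil))))))))))))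

theorem p626 : Pat 73 73 TBm TCm (CB.map Fm) R0Q029.P626 R0Q029.I626 := Vale.Agent.P032.Lt.pat_eq (E' := R0Q029.E) eB (pat_step (by decide +kernel) (q_cons (Vale.Agent.P032.Lt.q R0Q029.q626_0) (q_cons (Vale.Agent.P032.Lt.q R0Q029.q626_1) (q_cons (Vale.Agent.P032.Lt.q R0Q029.q626_2) (q_cons (Vale.Agent.P032.Lt.q R0Q029.q626_3) (q_cons (Vale.Agent.P032.Lt.q R0Q029.q626_4) (q_cons (Vale.Agent.P032.Lt.q R0Q029.q626_5) (q_cons (Vale.Agent.P032.Lt.q R0Q029.q626_6) (q_cons (Vale.Agent.P032.Lt.q R0Q029.q626_7) (q_cons (Vale.Agent.P032.Lt.q R0Q029.q626_8) (q_cons (Vale.Agent.P032.Lt.q R0Q029.q626_9) (q_cons (Vale.Agent.P032.Lt.q R0Q029.q626_10) q_nil))))))))))))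

theorem p627 : Pat 73 73 TBm TCm (CB.map Fm) R0Q029.P627 R0Q029.I627 := Vale.Agent.P032.Lt.pat_eq (E' := R0Q029.E) eB (pat_step (by decide +kernel) (q_cons (Vale.Agent.P032.Lt.q R0Q029.q627_0) q_nil))

theorem p628 : Pat 73 73 TBm TCm (CB.map Fm) R0Q029.P628 R0Q029.I628 := Vale.Agent.P032.Lt.pat_eq (E' := R0Q029.E) eB (pat_step (by decide +kernel) (q_cons (Vale.Agent.P032.Lt.q R0Q029.q628_0) q_nil))

theorem p629 : Pat 73 73 TBm TCm (CB.map Fm) R0Q030.P629 R0Q030.I629 := Vale.Agent.P032.Lt.pat_eq (E' := R0Q030.E) eB (pat_step (by decide +kernel) (q_cons (Vale.Agent.P032.Lt.q R0Q030.q629_0) q_nil))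

theorem p630 : Pat 73 73 TBm TCm (CB.map Fm) R0Q030.P630 R0Q030.I630 := Vale.Agent.P032.Lt.pat_eq (E' := R0Q030.E) eB (pat_step (by decide +kernel) (q_cons (Vale.Agent.P032.Lt.q R0Q030.q630_0) (q_cons (Vale.Agent.P032.Lt.q R0Q030.q630_1) (q_cons (Vale.Agent.P032.Lt.q R0Q030.q630_2) (q_cons (Vale.Agent.P032.Lt.q R0Q030.q630_3) (q_cons (Vale.Agent.P032.Lt.q R0Q030.q630_4) (q_cons (Vale.Agent.P032.Lt.q R0Q030.q630_5) (q_cons (Vale.Agent.P032.Lt.q R0Q030.q630_6) (q_cons (Vale.Agent.P032.Lt.q R0Q030.q630_7) (q_cons (Vale.Agent.P032.Lt.q R0Q030.q630_8) (q_cons (Vale.Agent.P032.Lt.q R0Q030.q630_9) (q_cons (Vale.Agent.P032.Lt.q R0Q030.q630_10) (q_cons (Vale.Agent.P032.Lt.q R0Q030.q630_11) (q_cons (Vale.Agent.P032.Lt.q R0Q030.q630_12) (q_cons (Vale.Agent.P032.Lt.q R0Q030.q630_13) (q_cons (Vale.Agent.P032.Lt.q R0Q030.q630_14) (q_cons (Vale.Agent.P032.Lt.q R0Q030.q630_15)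 (q_cons (Vale.Agent.P032.Lt.q R0Q030.q630_16) (q_cons (Vale.Agent.P032.Lt.q R0Q030.q630_17) (q_cons (Vale.Agent.P032.Lt.q R0Q030.q630_18) (q_cons (Vale.Agent.P032.Lt.q R0Q030.q630_19) q_nil)))))))))))))))))))))

def C631 : List ℕ := [0, 4, 8, 12, 16, 20, 24, 212993, 347137, 606209, 737281]
theorem p631 : Pat 73 73 TBm TCm (C631.map Fm) R0Q030.P631 R0Q030.I631 := Vale.Agent.P032.Lt.pat_eq (E' := R0Q030.E631) (by decide +kernel) (pat_step (by decide +kernel) (q_cons (Vale.Agent.P032.Lt.q R0Q030.q631_0) (q_cons (Vale.Agent.P032.Lt.q R0Q030.q631_1) (q_cons (Vale.Agent.P032.Lt.q R0Q030.q631_2) (q_cons (Vale.Agent.P032.Lt.q R0Q030.q631_3) q_nil)))))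

theorem p632 : Pat 73 73 TBm TCm (CB.map Fm) R0Q030.P632 R0Q030.I632 := Vale.Agent.P032.Lt.pat_eq (E' := R0Q030.E) eB (pat_step (by decide +kernel) (q_cons (Vale.Agent.P032.Lt.q R0Q030.q632_0) (q_cons (Vale.Agent.P032.Lt.q R0Q030.q632_1) (q_cons (Vale.Agent.P032.Lt.q R0Q030.q632_2) (q_cons (Vale.Agent.P032.Lt.q R0Q030.q632_3) (q_cons (Vale.Agent.P032.Lt.q R0Q030.q632_4) (q_cons (Vale.Agent.P032.Lt.q R0Q030.q632_5) (q_cons (Vale.Agent.P032.Lt.q R0Q030.q632_6) (q_cons (Vale.Agent.P032.Lt.q R0Q030.q632_7) (q_cons (Vale.Agent.P032.Lt.q R0Q030.q632_8) (q_cons (Vale.Agent.P032.Lt.q R0Q030.q632_9) (q_cons (Vale.Agent.P032.Lt.q R0Q030.q632_10) (q_cons (Vale.Agent.P032.Lt.q R0Q030.q632_11) q_nil)))))))))))))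

def C633 : List ℕ := [0, 4, 8, 12, 16, 20, 24, 737281, 741377]
theorem p633 : Pat 73 73 TBm TCm (C633.map Fm) R0Q030.P633 R0Q030.I633 := Vale.Agent.P032.Lt.pat_eq (E' := R0Q030.E633) (by decide +kernel) (pat_step (by decide +kernel) (q_cons (Vale.Agent.P032.Lt.q R0Q030.q633_0) (q_cons (Vale.Agent.P032.Lt.q R0Q030.q633_1) (q_cons (Vale.Agent.P032.Lt.q R0Q030.q633_2) (q_cons (Vale.Agent.P032.Lt.q R0Q030.q633_3) (q_cons (Vale.Agent.P032.Lt.q R0Q030.q633_4) (q_cons (Vale.Agent.P032.Lt.q R0Q030.q633_5) (q_cons (Vale.Agent.P032.Lt.q R0Q030.q633_6) q_nil))))))))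

theorem p634 : Pat 73 73 TBm TCm (CB.map Fm) R0Q030.P634 R0Q030.I634 := Vale.Agent.P032.Lt.pat_eq (E' := R0Q030.E) eB (pat_step (by decide +kernel) (q_cons (Vale.Agent.P032.Lt.q R0Q030.q634_0) (q_cons (Vale.Agent.P032.Lt.q R0Q030.q634_1) (q_cons (Vale.Agent.P032.Lt.q R0Q030.q634_2) (q_cons (Vale.Agent.P032.Lt.q R0Q030.q634_3) (q_cons (Vale.Agent.P032.Lt.q R0Q030.q634_4) (q_cons (Vale.Agent.P032.Lt.q R0Q030.q634_5) (q_cons (Vale.Agent.P032.Lt.q R0Q030.q634_6) q_nil))))))))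

theorem p635 : Pat 73 73 TBm TCm (CB.map Fm) R0Q030.P635 R0Q030.I635 := Vale.Agent.P032.Lt.pat_eq (E' := R0Q030.E) eB (pat_step (by decide +kernel) (q_cons (Vale.Agent.P032.Lt.q R0Q030.q635_0) (q_cons (Vale.Agent.P032.Lt.q R0Q030.q635_1) (q_cons (Vale.Agent.P032.Lt.q R0Q030.q635_2) (q_cons (Vale.Agent.P032.Lt.q R0Q030.q635_3) (q_cons (Vale.Agent.P032.Lt.q R0Q030.q635_4) (q_cons (Vale.Agent.P032.Lt.q R0Q030.q635_5) (q_cons (Vale.Agent.P032.Lt.q R0Q030.q635_6) (q_cons (Vale.Agent.P032.Lt.q R0Q030.q635_7) (q_cons (Vale.Agent.P032.Lt.q R0Q030.q635_8) (q_cons (Vale.Agent.P032.Lt.q R0Q030.q635_9) (q_cons (Vale.Agent.P032.Lt.q R0Q030.q635_10) (q_cons (Vale.Agent.P032.Lt.q R0Q030.q635_11) (q_cons (Vale.Agent.P032.Lt.q R0Q030.q635_12) (q_cons (Vale.Agent.P032.Lt.q R0Q030.q635_13) (q_cons (Vale.Agent.P032.Lt.q R0Q030.q635_14) (q_cons (Vale.Agent.P032.Lt.q R0Q030.q635_15)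 (q_cons (Vale.Agent.P032.Lt.q R0Q030.q635_16) (q_cons (Vale.Agent.P032.Lt.q R0Q030.q635_17) (q_cons (Vale.Agent.P032.Lt.q R0Q030.q635_18) (q_cons (Vale.Agent.P032.Lt.q R0Q030.q635_19) (q_cons (Vale.Agent.P032.Lt.q R0Q030.q635_20) (q_cons (Vale.Agent.P032.Lt.q R0Q030.q635_21) (q_cons (Vale.Agent.P032.Lt.q R0Q030.q635_22) (q_cons (Vale.Agent.P032.Lt.q R0Q030.q635_23) q_nil)))))))))))))))))))))))))

theorem p636 : Pat 73 73 TBm TCm (CB.map Fm) R0Q030.P636 R0Q030.I636 := Vale.Agent.P032.Lt.pat_eq (E' := R0Q030.E) eB (pat_step (by decide +kernel) (q_cons (Vale.Agent.P032.Lt.q R0Q030.q636_0) (q_cons (Vale.Agent.P032.Lt.q R0Q030.q636_1) (q_cons (Vale.Agent.P032.Lt.q R0Q030.q636_2) (q_cons (Vale.Agent.P032.Lt.q R0Q030.q636_3) (q_cons (Vale.Agent.P032.Lt.q R0Q030.q636_4) (q_cons (Vale.Agent.P032.Lt.q R0Q030.q636_5) (q_cons (Vale.Agent.P032.Lt.q R0Q030.q636_6) (q_cons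 (Vale.Agent.P032.Lt.q R0Q030.q636_7) (q_cons (Vale.Agent.P032.Lt.q R0Q030.q636_8) (q_cons (Vale.Agent.P032.Lt.q R0Q030.q636_9) (q_cons (Vale.Agent.P032.Lt.q R0Q030.q636_10) q_nil))))))))))))

theorem p637 : Pat 73 73 TBm TCm (CB.map Fm) R0Q030.P637 R0Q030.I637 := Vale.Agent.P032.Lt.pat_eq (E' := R0Q030.E) eB (pat_step (by decide +kernel) (q_cons (Vale.Agent.P032.Lt.q R0Q030.q637_0) (q_cons (Vale.Agent.P032.Lt.q R0Q030.q637_1) (q_cons (Vale.Agent.P032.Lt.q R0Q030.q637_2) (q_cons (Vale.Agent.P032.Lt.q R0Q030.q637_3) (q_cons (Vale.Agent.P032.Lt.q R0Q030.q637_4) q_nil))))))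

theorem p638 : Pat 73 73 TBm TCm (CB.map Fm) R0Q030.P638 R0Q030.I638 := Vale.Agent.P032.Lt.pat_eq (E' := R0Q030.E) eB (pat_step (by decide +kernel) (q_cons (Vale.Agent.P032.Lt.q R0Q030.q638_0) (q_cons (Vale.Agent.P032.Lt.q R0Q030.q638_1) q_nil)))

theorem p639 : Pat 73 73 TBm TCm (CB.map Fm) R0Q030.P639 R0Q030.I639 := Vale.Agent.P032.Lt.pat_eq (E' := R0Q030.E) eB (pat_step (by decide +kernel) (q_cons (Vale.Agent.P032.Lt.q R0Q030.q639_0) q_nil))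

def L : List (List ℕ) := [R0Q025.P512, R0Q025.P513, R0Q025.P514, R0Q025.P515, R0Q025.P516, R0Q025.P517, R0Q025.P518, R0Q025.P519, R0Q025.P520, R0Q025.P521, R0Q025.P522, R0Q025.P523, R0Q025.P524, R0Q025.P525, R0Q025.P526, R0Q025.P527, R0Q025.P528, R0Q025.P529, R0Q025.P530, R0Q025.P531, R0Q025.P532, R0Q025.P533, R0Q025.P534, R0Q025.P535, R0Q025.P536, R0Q025.P537, R0Q025.P538, R0Q025.P539, R0Q025.P540, R0Q025.P541, R0Q025.P542, R0Q025.P543, R0Q025.P544, R0Q026.P545, R0Q026.P546, R0Q026.P547, R0Q026.P548, R0Q026.P549, R0Q026.P550, R0Q026.P551, R0Q026.P552, R0Q026.P553, R0Q026.P554, R0Q026.P555, R0Q026.P556, R0Q026.P557, R0Q026.P558, R0Q026.P559, R0Q026.P560, R0Q026.P561, R0Q026.P562, R0Q026.P563, R0Q026.P564, R0Q026.P565, R0Q026.P566, R0Q026.P567, R0Q027.P568, R0Q027.P569, R0Q027.P570, R0Q027.P571, R0Q027.P572, R0Q027.P573, R0Q027.P574, R0Q027.P575, R0Q027.P576,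 R0Q027.P577, R0Q027.P578, R0Q027.P579, R0Q027.P580, R0Q027.P581, R0Q027.P582, R0Q027.P583, R0Q027.P584, R0Q027.P585, R0Q027.P586, R0Q027.P587, R0Q027.P588, R0Q028.P589, R0Q028.P590, R0Q028.P591, R0Q028.P592, R0Q028.P593, R0Q028.P594, R0Q028.P595, R0Q028.P596, R0Q028.P597, R0Q028.P598, R0Q028.P599, R0Q028.P600, R0Q028.P601, R0Q028.P602, R0Q028.P603, R0Q028.P604, R0Q028.P605, R0Q028.P606, R0Q028.P607, R0Q028.P608, R0Q028.P609, R0Q028.P610, R0Q028.P611, R0Q028.P612, R0Q028.P613, R0Q028.P614, R0Q029.P615, R0Q029.P616, R0Q029.P617, R0Q029.P618, R0Q029.P619, R0Q029.P620, R0Q029.P621, R0Q029.P622, R0Q029.P623, R0Q029.P624, R0Q029.P625, R0Q029.P626, R0Q029.P627, R0Q029.P628, R0Q030.P629, R0Q030.P630, R0Q030.P631, R0Q030.P632, R0Q030.P633, R0Q030.P634, R0Q030.P635, R0Q030.P636, R0Q030.P637, R0Q030.P638, R0Q030.P639]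

theorem all : ∀ P ∈ L, CrtF 73 73 TBm TCm (Vale.Agent.P032.Fam.fam2 (Vale.Agent.P032.Fam.im0)) P := crtF_cons p512 (crtF_cons p513 (crtF_cons p514 (crtF_cons p515 (crtF_cons p516 (crtF_cons p517 (crtF_cons p518 (crtF_cons p519 (crtF_cons p520 (crtF_cons p521 (crtF_cons p522 (crtF_cons p523 (crtF_cons p524 (crtF_cons p525 (crtF_cons p526 (crtF_cons p527 (crtF_cons p528 (crtF_cons p529 (crtF_cons p530 (crtF_cons p531 (crtF_cons p532 (crtF_cons p533 (crtF_cons p534 (crtF_cons p535 (crtF_cons p536 (crtF_cons p537 (crtF_cons p538 (crtF_cons p539 (crtF_cons p540 (crtF_cons p541 (crtF_cons p542 (crtF_cons p543 (crtF_cons p544 (crtF_cons p545 (crtF_cons p546 (crtF_cons p547 (crtF_cons p548 (crtF_cons p549 (crtF_cons p550 (crtF_cons p551 (crtF_cons p552 (crtF_cons p553 (crtF_cons p554 (crtF_cons p555 (crtF_cons p556 (crtF_cons p557 (crtF_cons p558 (crtF_cons p559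 (crtF_cons p560 (crtF_cons p561 (crtF_cons p562 (crtF_cons p563 (crtF_cons p564 (crtF_cons p565 (crtF_cons p566 (crtF_cons p567 (crtF_cons p568 (crtF_cons p569 (crtF_cons p570 (crtF_cons p571 (crtF_cons p572 (crtF_cons p573 (crtF_cons p574 (crtF_cons p575 (crtF_cons p576 (crtF_cons p577 (crtF_cons p578 (crtF_cons p579 (crtF_cons p580 (crtF_cons p581 (crtF_cons p582 (crtF_cons p583 (crtF_cons p584 (crtF_cons p585 (crtF_cons p586 (crtF_cons p587 (crtF_cons p588 (crtF_cons p589 (crtF_cons p590 (crtF_cons p591 (crtF_cons p592 (crtF_cons p593 (crtF_cons p594 (crtF_cons p595 (crtF_cons p596 (crtF_cons p597 (crtF_cons p598 (crtF_cons p599 (crtF_cons p600 (crtF_cons p601 (crtF_cons p602 (crtF_cons p603 (crtF_cons p604 (crtF_cons p605 (crtF_cons p606 (crtF_cons p607 (crtF_cons p608 (crtF_cons p609 (crtF_cons p610 (crtF_cons p611 (crtF_cons p612 (crtF_cons p613 (crtF_cons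 p614 (crtF_cons p615 (crtF_cons p616 (crtF_cons p617 (crtF_cons p618 (crtF_cons p619 (crtF_cons p620 (crtF_cons p621 (crtF_cons p622 (crtF_cons p623 (crtF_cons p624 (crtF_cons p625 (crtF_cons p626 (crtF_cons p627 (crtF_cons p628 (crtF_cons p629 (crtF_cons p630 (crtF_cons p631 (crtF_cons p632 (crtF_cons p633 (crtF_cons p634 (crtF_cons p635 (crtF_cons p636 (crtF_cons p637 (crtF_cons p638 (crtF_cons p639 crtF_nil)))))))))))))))))))))))))))))))))))))))))))))))))))))))))))))))))))))))))))))))))))))))))))))))))))))))))))))))))))))))))))))))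

theorem ch : chT 73 73 TCm s0_004 L = true := by decide +kernel

end Vale.Agent.P032X.Cert.XP.B1b.R0H004
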