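import Vale.Agent.P032X.H892.LtH
import Vale.Agent.P032X.H286.W73
import Vale.Agent.P032X.Cert.XP.B1b.R0T
import Vale.Agent.P032X.Cert.XP.B1b.R0Q031
import Vale.Agent.P032X.Cert.XP.B1b.R0Q032
import Vale.Agent.P032X.Cert.XP.B1b.R0Q033
import Vale.Agent.P032X.Cert.XP.B1b.R0Q034
import Vale.Agent.P032X.Cert.XP.B1b.R0Q035
import Vale.Agent.P032X.Cert.XP.B1b.R0Q036
import Vale.Agent.P032X.Cert.XP.B1b.R0Q037

set_option maxRecDepth 1000000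

namespace Vale.Agent.P032X.Cert.XP.B1b.R0H005

open Vale.Agent.P032.H820.K Vale.Agent.P032.H357.MK Vale.Agent.P032.H286.E Vale.Agent.P032.H61 Vale.Agent.P032X.Cert.XP.B1b

noncomputable abbrev Fm : ℕ → List ℕ := Vale.Agent.P032.Fam.fam2 (Vale.Agent.P032.Fam.im0)

def CB : List ℕ := [0, 4, 8, 12, 16, 20, 24]

theorem eB : Vale.Agent.P032.Lt.eqLL (CB.map Fm) R0Q031.E = true := by decide +kernel

theorem p640 : Pat 73 73 TBm TCm (CB.map Fm) R0Q031.P640 R0Q031.I640 := Vale.Agent.P032.Lt.pat_eq (E' := R0Q031.E) eB (pat_step (by decide +kernel) (q_cons (Vale.Agent.P032.Lt.q R0Q031.q640_0) (q_cons (Vale.Agent.P032.Lt.q R0Q031.q640_1) (q_cons (Vale.Agent.P032.Lt.q R0Q031.q640_2) (q_cons (Vale.Agent.P032.Lt.q R0Q031.q640_3) (q_cons (Vale.Agent.P032.Lt.q R0Q031.q640_4) (q_cons (Vale.Agent.P032.Lt.q R0Q031.q640_5) (q_cons (Vale.Agent.P032.Lt.q R0Q031.q640_6) (q_cons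 (Vale.Agent.P032.Lt.q R0Q031.q640_7) (q_cons (Vale.Agent.P032.Lt.q R0Q031.q640_8) (q_cons (Vale.Agent.P032.Lt.q R0Q031.q640_9) (q_cons (Vale.Agent.P032.Lt.q R0Q031.q640_10) q_nil))))))))))))

theorem p641 : Pat 73 73 TBm TCm (CB.map Fm) R0Q031.P641 R0Q031.I641 := Vale.Agent.P032.Lt.pat_eq (E' := R0Q031.E) eB (pat_step (by decide +kernel) (q_cons (Vale.Agent.P032.Lt.q R0Q031.q641_0) (q_cons (Vale.Agent.P032.Lt.q R0Q031.q641_1) (q_cons (Vale.Agent.P032.Lt.q R0Q031.q641_2) (q_cons (Vale.Agent.P032.Lt.q R0Q031.q641_3) q_nil)))))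

theorem p642 : Pat 73 73 TBm TCm (CB.map Fm) R0Q031.P642 R0Q031.I642 := Vale.Agent.P032.Lt.pat_eq (E' := R0Q031.E) eB (pat_step (by decide +kernel) (q_cons (Vale.Agent.P032.Lt.q R0Q031.q642_0) q_nil))

def C643 : List ℕ := [0, 4, 8, 12, 16, 20, 24, 606209, 737281]
theorem p643 : Pat 73 73 TBm TCm (C643.map Fm) R0Q031.P643 R0Q031.I643 := Vale.Agent.P032.Lt.pat_eq (E' := R0Q031.E643) (by decide +kernel) (pat_step (by decide +kernel) (q_cons (Vale.Agent.P032.Lt.q R0Q031.q643_0) (q_cons (Vale.Agent.P032.Lt.q R0Q031.q643_1) (q_cons (Vale.Agent.P032.Lt.q R0Q031.q643_2) (q_cons (Vale.Agent.P032.Lt.q R0Q031.q643_3) (q_cons (Vale.Agent.P032.Lt.q R0Q031.q643_4) (q_cons (Vale.Agent.P032.Lt.q R0Q031.q643_5) q_nil)))))))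

def C644 : List ℕ := [0, 4, 8, 12, 16, 20, 24, 355329, 482305, 737281]
theorem p644 : Pat 73 73 TBm TCm (C644.map Fm) R0Q031.P644 R0Q031.I644 := Vale.Agent.P032.Lt.pat_eq (E' := R0Q031.E644) (by decide +kernel) (pat_step (by decide +kernel) (q_cons (Vale.Agent.P032.Lt.q R0Q031.q644_0) q_nil))

theorem p645 : Pat 73 73 TBm TCm (CB.map Fm) R0Q031.P645 R0Q031.I645 := Vale.Agent.P032.Lt.pat_eq (E' := R0Q031.E) eB (pat_step (by decide +kernel) (q_cons (Vale.Agent.P032.Lt.q R0Q031.q645_0) (q_cons (Vale.Agent.P032.Lt.q R0Q031.q645_1) (q_cons (Vale.Agent.P032.Lt.q R0Q031.q645_2) (q_cons (Vale.Agent.P032.Lt.q R0Q031.q645_3) (q_cons (Vale.Agent.P032.Lt.q R0Q031.q645_4) q_nil))))))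

def C646 : List ℕ := [0, 4, 8, 12, 16, 20, 24, 737281, 745473]
theorem p646 : Pat 73 73 TBm TCm (C646.map Fm) R0Q031.P646 R0Q031.I646 := Vale.Agent.P032.Lt.pat_eq (E' := R0Q031.E646) (by decide +kernel) (pat_step (by decide +kernel) (q_cons (Vale.Agent.P032.Lt.q R0Q031.q646_0) (q_cons (Vale.Agent.P032.Lt.q R0Q031.q646_1) (q_cons (Vale.Agent.P032.Lt.q R0Q031.q646_2) (q_cons (Vale.Agent.P032.Lt.q R0Q031.q646_3) (q_cons (Vale.Agent.P032.Lt.q R0Q031.q646_4) (q_cons (Vale.Agent.P032.Lt.q R0Q031.q646_5) (q_cons (Vale.Agent.P032.Lt.q R0Q031.q646_6) (q_cons (Vale.Agent.P032.Lt.q R0Q031.q646_7) (q_cons (Vale.Agent.P032.Lt.q R0Q031.q646_8) (q_cons (Vale.Agent.P032.Lt.q R0Q031.q646_9) (q_cons (Vale.Agent.P032.Lt.q R0Q031.q646_10) (q_cons (Vale.Agent.P032.Lt.q R0Q031.q646_11) (q_cons (Vale.Agent.P032.Lt.q R0Q031.q646_12) (q_cons (Vale.Agent.P032.Lt.q R0Q031.q646_13)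 (q_cons (Vale.Agent.P032.Lt.q R0Q031.q646_14) (q_cons (Vale.Agent.P032.Lt.q R0Q031.q646_15) q_nil)))))))))))))))))

def C647 : List ℕ := [0, 4, 8, 12, 16, 20, 24, 737281, 745473]
theorem p647 : Pat 73 73 TBm TCm (C647.map Fm) R0Q031.P647 R0Q031.I647 := Vale.Agent.P032.Lt.pat_eq (E' := R0Q031.E647) (by decide +kernel) (pat_step (by decide +kernel) (q_cons (Vale.Agent.P032.Lt.q R0Q031.q647_0) (q_cons (Vale.Agent.P032.Lt.q R0Q031.q647_1) (q_cons (Vale.Agent.P032.Lt.q R0Q031.q647_2) (q_cons (Vale.Agent.P032.Lt.q R0Q031.q647_3) (q_cons (Vale.Agent.P032.Lt.q R0Q031.q647_4) (q_cons (Vale.Agent.P032.Lt.q R0Q031.q647_5) (q_cons (Vale.Agent.P032.Lt.q R0Q031.q647_6) (q_cons (Vale.Agent.P032.Lt.q R0Q031.q647_7) (q_cons (Vale.Agent.P032.Lt.q R0Q031.q647_8) (q_cons (Vale.Agent.P032.Lt.q R0Q031.q647_9) (q_cons (Vale.Agent.P032.Lt.q R0Q031.q647_10) (q_cons (Vale.Agent.P032.Lt.q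 R0Q031.q647_11) (q_cons (Vale.Agent.P032.Lt.q R0Q031.q647_12) (q_cons (Vale.Agent.P032.Lt.q R0Q031.q647_13) (q_cons (Vale.Agent.P032.Lt.q R0Q031.q647_14) (q_cons (Vale.Agent.P032.Lt.q R0Q031.q647_15) (q_cons (Vale.Agent.P032.Lt.q R0Q031.q647_16) q_nil))))))))))))))))))

theorem p648 : Pat 73 73 TBm TCm (CB.map Fm) R0Q031.P648 R0Q031.I648 := Vale.Agent.P032.Lt.pat_eq (E' := R0Q031.E) eB (pat_step (by decide +kernel) (q_cons (Vale.Agent.P032.Lt.q R0Q031.q648_0) (q_cons (Vale.Agent.P032.Lt.q R0Q031.q648_1) (q_cons (Vale.Agent.P032.Lt.q R0Q031.q648_2) (q_cons (Vale.Agent.P032.Lt.q R0Q031.q648_3) (q_cons (Vale.Agent.P032.Lt.q R0Q031.q648_4) (q_cons (Vale.Agent.P032.Lt.q R0Q031.q648_5) (q_cons (Vale.Agent.P032.Lt.q R0Q031.q648_6) (q_cons (Vale.Agent.P032.Lt.q R0Q031.q648_7) (q_cons (Vale.Agent.P032.Lt.q R0Q031.q648_8) (q_cons (Vale.Agent.P032.Lt.q R0Q031.q648_9)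 (q_cons (Vale.Agent.P032.Lt.q R0Q031.q648_10) (q_cons (Vale.Agent.P032.Lt.q R0Q031.q648_11) (q_cons (Vale.Agent.P032.Lt.q R0Q031.q648_12) (q_cons (Vale.Agent.P032.Lt.q R0Q031.q648_13) (q_cons (Vale.Agent.P032.Lt.q R0Q031.q648_14) (q_cons (Vale.Agent.P032.Lt.q R0Q031.q648_15) q_nil)))))))))))))))))

def C649 : List ℕ := [0, 4, 8, 12, 16, 20, 24, 737281, 745473]
theorem p649 : Pat 73 73 TBm TCm (C649.map Fm) R0Q031.P649 R0Q031.I649 := Vale.Agent.P032.Lt.pat_eq (E' := R0Q031.E649) (by decide +kernel) (pat_step (by decide +kernel) (q_cons (Vale.Agent.P032.Lt.q R0Q031.q649_0) (q_cons (Vale.Agent.P032.Lt.q R0Q031.q649_1) (q_cons (Vale.Agent.P032.Lt.q R0Q031.q649_2) (q_cons (Vale.Agent.P032.Lt.q R0Q031.q649_3) (q_cons (Vale.Agent.P032.Lt.q R0Q031.q649_4) (q_cons (Vale.Agent.P032.Lt.q R0Q031.q649_5) (q_cons (Vale.Agent.P032.Lt.q R0Q031.q649_6) (q_cons (Vale.Agent.P032.Lt.q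 R0Q031.q649_7) (q_cons (Vale.Agent.P032.Lt.q R0Q031.q649_8) (q_cons (Vale.Agent.P032.Lt.q R0Q031.q649_9) (q_cons (Vale.Agent.P032.Lt.q R0Q031.q649_10) (q_cons (Vale.Agent.P032.Lt.q R0Q031.q649_11) (q_cons (Vale.Agent.P032.Lt.q R0Q031.q649_12) (q_cons (Vale.Agent.P032.Lt.q R0Q031.q649_13) (q_cons (Vale.Agent.P032.Lt.q R0Q031.q649_14) (q_cons (Vale.Agent.P032.Lt.q R0Q031.q649_15) (q_cons (Vale.Agent.P032.Lt.q R0Q031.q649_16) (q_cons (Vale.Agent.P032.Lt.q R0Q031.q649_17) (q_cons (Vale.Agent.P032.Lt.q R0Q031.q649_18) (q_cons (Vale.Agent.P032.Lt.q R0Q031.q649_19) (q_cons (Vale.Agent.P032.Lt.q R0Q031.q649_20) (q_cons (Vale.Agent.P032.Lt.q R0Q031.q649_21) (q_cons (Vale.Agent.P032.Lt.q R0Q031.q649_22) (q_cons (Vale.Agent.P032.Lt.q R0Q031.q649_23) (q_cons (Vale.Agent.P032.Lt.q R0Q031.q649_24) q_nil))))))))))))))))))))))))))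

def C650 : List ℕ := [0, 4, 8, 12, 16, 20, 24, 212993, 475137, 737281]
theorem p650 : Pat 73 73 TBm TCm (C650.map Fm) R0Q031.P650 R0Q031.I650 := Vale.Agent.P032.Lt.pat_eq (E' := R0Q031.E650) (by decide +kernel) (pat_step (by decide +kernel) (q_cons (Vale.Agent.P032.Lt.q R0Q031.q650_0) (q_cons (Vale.Agent.P032.Lt.q R0Q031.q650_1) (q_cons (Vale.Agent.P032.Lt.q R0Q031.q650_2) (q_cons (Vale.Agent.P032.Lt.q R0Q031.q650_3) (q_cons (Vale.Agent.P032.Lt.q R0Q031.q650_4) (q_cons (Vale.Agent.P032.Lt.q R0Q031.q650_5) (q_cons (Vale.Agent.P032.Lt.q R0Q031.q650_6) q_nil))))))))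

theorem p651 : Pat 73 73 TBm TCm (CB.map Fm) R0Q031.P651 R0Q031.I651 := Vale.Agent.P032.Lt.pat_eq (E' := R0Q031.E) eB (pat_step (by decide +kernel) (q_cons (Vale.Agent.P032.Lt.q R0Q031.q651_0) (q_cons (Vale.Agent.P032.Lt.q R0Q031.q651_1) (q_cons (Vale.Agent.P032.Lt.q R0Q031.q651_2) (q_cons (Vale.Agent.P032.Lt.q R0Q031.q651_3) (q_cons (Vale.Agent.P032.Lt.q R0Q031.q651_4) (q_cons (Vale.Agent.P032.Lt.q R0Q031.q651_5) (q_cons (Vale.Agent.P032.Lt.q R0Q031.q651_6) (q_cons (Vale.Agent.P032.Lt.q R0Q031.q651_7) (q_cons (Vale.Agent.P032.Lt.q R0Q031.q651_8) (q_cons (Vale.Agent.P032.Lt.q R0Q031.q651_9) (q_cons (Vale.Agent.P032.Lt.q R0Q031.q651_10) q_nil))))))))))))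

theorem p652 : Pat 73 73 TBm TCm (CB.map Fm) R0Q031.P652 [] := Vale.Agent.P032.Lt.pat_eq (E' := R0Q031.E) eB (pat_end (by decide +kernel) (Vale.Agent.P032.Lt.q R0Q031.q652))

theorem p653 : Pat 73 73 TBm TCm (CB.map Fm) R0Q031.P653 R0Q031.I653 := Vale.Agent.P032.Lt.pat_eq (E' := R0Q031.E) eB (pat_step (by decide +kernel) (q_cons (Vale.Agent.P032.Lt.q R0Q031.q653_0) (q_cons (Vale.Agent.P032.Lt.q R0Q031.q653_1) (q_cons (Vale.Agent.P032.Lt.q R0Q031.q653_2) (q_cons (Vale.Agent.P032.Lt.q R0Q031.q653_3) (q_cons (Vale.Agent.P032.Lt.q R0Q031.q653_4) q_nil))))))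

theorem p654 : Pat 73 73 TBm TCm (CB.map Fm) R0Q031.P654 R0Q031.I654 := Vale.Agent.P032.Lt.pat_eq (E' := R0Q031.E) eB (pat_step (by decide +kernel) (q_cons (Vale.Agent.P032.Lt.q R0Q031.q654_0) (q_cons (Vale.Agent.P032.Lt.q R0Q031.q654_1) (q_cons (Vale.Agent.P032.Lt.q R0Q031.q654_2) (q_cons (Vale.Agent.P032.Lt.q R0Q031.q654_3) (q_cons (Vale.Agent.P032.Lt.q R0Q031.q654_4) (q_cons (Vale.Agent.P032.Lt.q R0Q031.q654_5) q_nil)))))))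

theorem p655 : Pat 73 73 TBm TCm (CB.map Fm) R0Q031.P655 R0Q031.I655 := Vale.Agent.P032.Lt.pat_eq (E' := R0Q031.E) eB (pat_step (by decide +kernel) (q_cons (Vale.Agent.P032.Lt.q R0Q031.q655_0) (q_cons (Vale.Agent.P032.Lt.q R0Q031.q655_1) (q_cons (Vale.Agent.P032.Lt.q R0Q031.q655_2) (q_cons (Vale.Agent.P032.Lt.q R0Q031.q655_3) (q_cons (Vale.Agent.P032.Lt.q R0Q031.q655_4) q_nil))))))

theorem p656 : Pat 73 73 TBm TCm (CB.map Fm) R0Q032.P656 R0Q032.I656 := Vale.Agent.P032.Lt.pat_eq (E' := R0Q032.E) eB (pat_step (by decide +kernel) (q_cons (Vale.Agent.P032.Lt.q R0Q032.q656_0) (q_cons (Vale.Agent.P032.Lt.q R0Q032.q656_1) (q_cons (Vale.Agent.P032.Lt.q R0Q032.q656_2) (q_cons (Vale.Agent.P032.Lt.q R0Q032.q656_3) (q_cons (Vale.Agent.P032.Lt.q R0Q032.q656_4) q_nil))))))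

theorem p657 : Pat 73 73 TBm TCm (CB.map Fm) R0Q032.P657 R0Q032.I657 := Vale.Agent.P032.Lt.pat_eq (E' := R0Q032.E) eB (pat_step (by decide +kernel) (q_cons (Vale.Agent.P032.Lt.q R0Q032.q657_0) (q_cons (Vale.Agent.P032.Lt.q R0Q032.q657_1) (q_cons (Vale.Agent.P032.Lt.q R0Q032.q657_2) q_nil))))

theorem p658 : Pat 73 73 TBm TCm (CB.map Fm) R0Q032.P658 R0Q032.I658 := Vale.Agent.P032.Lt.pat_eq (E' := R0Q032.E) eB (pat_step (by decide +kernel) (q_cons (Vale.Agent.P032.Lt.q R0Q032.q658_0) (q_cons (Vale.Agent.P032.Lt.q R0Q032.q658_1) (q_cons (Vale.Agent.P032.Lt.q R0Q032.q658_2) q_nil))))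

theorem p659 : Pat 73 73 TBm TCm (CB.map Fm) R0Q032.P659 R0Q032.I659 := Vale.Agent.P032.Lt.pat_eq (E' := R0Q032.E) eB (pat_step (by decide +kernel) (q_cons (Vale.Agent.P032.Lt.q R0Q032.q659_0) (q_cons (Vale.Agent.P032.Lt.q R0Q032.q659_1) (q_cons (Vale.Agent.P032.Lt.q R0Q032.q659_2) (q_cons (Vale.Agent.P032.Lt.q R0Q032.q659_3) (q_cons (Vale.Agent.P032.Lt.q R0Q032.q659_4) (q_cons (Vale.Agent.P032.Lt.q R0Q032.q659_5) (q_cons (Vale.Agent.P032.Lt.q R0Q032.q659_6) (q_cons (Vale.Agent.P032.Lt.q R0Q032.q659_7) (q_cons (Vale.Agent.P032.Lt.q R0Q032.q659_8) (q_cons (Vale.Agent.P032.Lt.q R0Q032.q659_9) (q_cons (Vale.Agent.P032.Lt.q R0Q032.q659_10) (q_cons (Vale.Agent.P032.Lt.q R0Q032.q659_11) q_nil)))))))))))))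

theorem p660 : Pat 73 73 TBm TCm (CB.map Fm) R0Q032.P660 R0Q032.I660 := Vale.Agent.P032.Lt.pat_eq (E' := R0Q032.E) eB (pat_step (by decide +kernel) (q_cons (Vale.Agent.P032.Lt.q R0Q032.q660_0) (q_cons (Vale.Agent.P032.Lt.q R0Q032.q660_1) (q_cons (Vale.Agent.P032.Lt.q R0Q032.q660_2) (q_cons (Vale.Agent.P032.Lt.q R0Q032.q660_3) q_nil)))))

theorem p661 : Pat 73 73 TBm TCm (CB.map Fm) R0Q032.P661 R0Q032.I661 := Vale.Agent.P032.Lt.pat_eq (E' := R0Q032.E) eB (pat_step (by decide +kernel) (q_cons (Vale.Agent.P032.Lt.q R0Q032.q661_0) (q_cons (Vale.Agent.P032.Lt.q R0Q032.q661_1) (q_cons (Vale.Agent.P032.Lt.q R0Q032.q661_2) (q_cons (Vale.Agent.P032.Lt.q R0Q032.q661_3) (q_cons (Vale.Agent.P032.Lt.q R0Q032.q661_4) (q_cons (Vale.Agent.P032.Lt.q R0Q032.q661_5) (q_cons (Vale.Agent.P032.Lt.q R0Q032.q661_6) (q_cons (Vale.Agent.P032.Lt.q R0Q032.q661_7) (q_cons (Vale.Agent.P032.Lt.q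 R0Q032.q661_8) (q_cons (Vale.Agent.P032.Lt.q R0Q032.q661_9) (q_cons (Vale.Agent.P032.Lt.q R0Q032.q661_10) (q_cons (Vale.Agent.P032.Lt.q R0Q032.q661_11) (q_cons (Vale.Agent.P032.Lt.q R0Q032.q661_12) q_nil))))))))))))))

theorem p662 : Pat 73 73 TBm TCm (CB.map Fm) R0Q032.P662 R0Q032.I662 := Vale.Agent.P032.Lt.pat_eq (E' := R0Q032.E) eB (pat_step (by decide +kernel) (q_cons (Vale.Agent.P032.Lt.q R0Q032.q662_0) (q_cons (Vale.Agent.P032.Lt.q R0Q032.q662_1) (q_cons (Vale.Agent.P032.Lt.q R0Q032.q662_2) (q_cons (Vale.Agent.P032.Lt.q R0Q032.q662_3) (q_cons (Vale.Agent.P032.Lt.q R0Q032.q662_4) (q_cons (Vale.Agent.P032.Lt.q R0Q032.q662_5) (q_cons (Vale.Agent.P032.Lt.q R0Q032.q662_6) (q_cons (Vale.Agent.P032.Lt.q R0Q032.q662_7) (q_cons (Vale.Agent.P032.Lt.q R0Q032.q662_8) (q_cons (Vale.Agent.P032.Lt.q R0Q032.q662_9) (q_cons (Vale.Agent.P032.Lt.q R0Q032.q662_10)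 (q_cons (Vale.Agent.P032.Lt.q R0Q032.q662_11) (q_cons (Vale.Agent.P032.Lt.q R0Q032.q662_12) (q_cons (Vale.Agent.P032.Lt.q R0Q032.q662_13) (q_cons (Vale.Agent.P032.Lt.q R0Q032.q662_14) (q_cons (Vale.Agent.P032.Lt.q R0Q032.q662_15) (q_cons (Vale.Agent.P032.Lt.q R0Q032.q662_16) (q_cons (Vale.Agent.P032.Lt.q R0Q032.q662_17) (q_cons (Vale.Agent.P032.Lt.q R0Q032.q662_18) q_nil))))))))))))))))))))

theorem p663 : Pat 73 73 TBm TCm (CB.map Fm) R0Q032.P663 R0Q032.I663 := Vale.Agent.P032.Lt.pat_eq (E' := R0Q032.E) eB (pat_step (by decide +kernel) (q_cons (Vale.Agent.P032.Lt.q R0Q032.q663_0) (q_cons (Vale.Agent.P032.Lt.q R0Q032.q663_1) (q_cons (Vale.Agent.P032.Lt.q R0Q032.q663_2) (q_cons (Vale.Agent.P032.Lt.q R0Q032.q663_3) (q_cons (Vale.Agent.P032.Lt.q R0Q032.q663_4) (q_cons (Vale.Agent.P032.Lt.q R0Q032.q663_5) (q_cons (Vale.Agent.P032.Lt.q R0Q032.q663_6) (q_cons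 (Vale.Agent.P032.Lt.q R0Q032.q663_7) (q_cons (Vale.Agent.P032.Lt.q R0Q032.q663_8) (q_cons (Vale.Agent.P032.Lt.q R0Q032.q663_9) q_nil)))))))))))

theorem p664 : Pat 73 73 TBm TCm (CB.map Fm) R0Q032.P664 R0Q032.I664 := Vale.Agent.P032.Lt.pat_eq (E' := R0Q032.E) eB (pat_step (by decide +kernel) (q_cons (Vale.Agent.P032.Lt.q R0Q032.q664_0) (q_cons (Vale.Agent.P032.Lt.q R0Q032.q664_1) (q_cons (Vale.Agent.P032.Lt.q R0Q032.q664_2) (q_cons (Vale.Agent.P032.Lt.q R0Q032.q664_3) (q_cons (Vale.Agent.P032.Lt.q R0Q032.q664_4) (q_cons (Vale.Agent.P032.Lt.q R0Q032.q664_5) q_nil)))))))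

theorem p665 : Pat 73 73 TBm TCm (CB.map Fm) R0Q032.P665 R0Q032.I665 := Vale.Agent.P032.Lt.pat_eq (E' := R0Q032.E) eB (pat_step (by decide +kernel) (q_cons (Vale.Agent.P032.Lt.q R0Q032.q665_0) (q_cons (Vale.Agent.P032.Lt.q R0Q032.q665_1) q_nil)))

theorem p666 : Pat 73 73 TBm TCm (CB.map Fm) R0Q032.P666 R0Q032.I666 := Vale.Agent.P032.Lt.pat_eq (E' := R0Q032.E) eB (pat_step (by decide +kernel) (q_cons (Vale.Agent.P032.Lt.q R0Q032.q666_0) (q_cons (Vale.Agent.P032.Lt.q R0Q032.q666_1) (q_cons (Vale.Agent.P032.Lt.q R0Q032.q666_2) (q_cons (Vale.Agent.P032.Lt.q R0Q032.q666_3) (q_cons (Vale.Agent.P032.Lt.q R0Q032.q666_4) (q_cons (Vale.Agent.P032.Lt.q R0Q032.q666_5) (q_cons (Vale.Agent.P032.Lt.q R0Q032.q666_6) (q_cons (Vale.Agent.P032.Lt.q R0Q032.q666_7) (q_cons (Vale.Agent.P032.Lt.q R0Q032.q666_8) (q_cons (Vale.Agent.P032.Lt.q R0Q032.q666_9) (q_cons (Vale.Agent.P032.Lt.q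 R0Q032.q666_10) q_nil))))))))))))

theorem p667 : Pat 73 73 TBm TCm (CB.map Fm) R0Q032.P667 R0Q032.I667 := Vale.Agent.P032.Lt.pat_eq (E' := R0Q032.E) eB (pat_step (by decide +kernel) (q_cons (Vale.Agent.P032.Lt.q R0Q032.q667_0) (q_cons (Vale.Agent.P032.Lt.q R0Q032.q667_1) (q_cons (Vale.Agent.P032.Lt.q R0Q032.q667_2) (q_cons (Vale.Agent.P032.Lt.q R0Q032.q667_3) (q_cons (Vale.Agent.P032.Lt.q R0Q032.q667_4) (q_cons (Vale.Agent.P032.Lt.q R0Q032.q667_5) q_nil)))))))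

theorem p668 : Pat 73 73 TBm TCm (CB.map Fm) R0Q032.P668 R0Q032.I668 := Vale.Agent.P032.Lt.pat_eq (E' := R0Q032.E) eB (pat_step (by decide +kernel) (q_cons (Vale.Agent.P032.Lt.q R0Q032.q668_0) (q_cons (Vale.Agent.P032.Lt.q R0Q032.q668_1) (q_cons (Vale.Agent.P032.Lt.q R0Q032.q668_2) (q_cons (Vale.Agent.P032.Lt.q R0Q032.q668_3) (q_cons (Vale.Agent.P032.Lt.q R0Q032.q668_4) (q_cons (Vale.Agent.P032.Lt.q R0Q032.q668_5) (q_cons (Vale.Agent.P032.Lt.q R0Q032.q668_6) (q_cons (Vale.Agent.P032.Lt.q R0Q032.q668_7) (q_cons (Vale.Agent.P032.Lt.q R0Q032.q668_8) (q_cons (Vale.Agent.P032.Lt.q R0Q032.q668_9) (q_cons (Vale.Agent.P032.Lt.q R0Q032.q668_10) (q_cons (Vale.Agent.P032.Lt.q R0Q032.q668_11) (q_cons (Vale.Agent.P032.Lt.q R0Q032.q668_12) (q_cons (Vale.Agent.P032.Lt.q R0Q032.q668_13) (q_cons (Vale.Agent.P032.Lt.q R0Q032.q668_14) (q_cons (Vale.Agent.P032.Lt.q R0Q032.q668_15)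 (q_cons (Vale.Agent.P032.Lt.q R0Q032.q668_16) q_nil))))))))))))))))))

theorem p669 : Pat 73 73 TBm TCm (CB.map Fm) R0Q032.P669 R0Q032.I669 := Vale.Agent.P032.Lt.pat_eq (E' := R0Q032.E) eB (pat_step (by decide +kernel) (q_cons (Vale.Agent.P032.Lt.q R0Q032.q669_0) (q_cons (Vale.Agent.P032.Lt.q R0Q032.q669_1) (q_cons (Vale.Agent.P032.Lt.q R0Q032.q669_2) (q_cons (Vale.Agent.P032.Lt.q R0Q032.q669_3) (q_cons (Vale.Agent.P032.Lt.q R0Q032.q669_4) (q_cons (Vale.Agent.P032.Lt.q R0Q032.q669_5) q_nil)))))))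

theorem p670 : Pat 73 73 TBm TCm (CB.map Fm) R0Q033.P670 R0Q033.I670 := Vale.Agent.P032.Lt.pat_eq (E' := R0Q033.E) eB (pat_step (by decide +kernel) (q_cons (Vale.Agent.P032.Lt.q R0Q033.q670_0) (q_cons (Vale.Agent.P032.Lt.q R0Q033.q670_1) (q_cons (Vale.Agent.P032.Lt.q R0Q033.q670_2) (q_cons (Vale.Agent.P032.Lt.q R0Q033.q670_3) (q_cons (Vale.Agent.P032.Lt.q R0Q033.q670_4) (q_cons (Vale.Agent.P032.Lt.q R0Q033.q670_5) (q_cons (Vale.Agent.P032.Lt.q R0Q033.q670_6) (q_cons (Vale.Agent.P032.Lt.q R0Q033.q670_7) (q_cons (Vale.Agent.P032.Lt.q R0Q033.q670_8) (q_cons (Vale.Agent.P032.Lt.q R0Q033.q670_9) (q_cons (Vale.Agent.P032.Lt.q R0Q033.q670_10) (q_cons (Vale.Agent.P032.Lt.q R0Q033.q670_11) (q_cons (Vale.Agent.P032.Lt.q R0Q033.q670_12) (q_cons (Vale.Agent.P032.Lt.q R0Q033.q670_13) (q_cons (Vale.Agent.P032.Lt.q R0Q033.q670_14) (q_cons (Vale.Agent.P032.Lt.q R0Q033.q670_15)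 (q_cons (Vale.Agent.P032.Lt.q R0Q033.q670_16) (q_cons (Vale.Agent.P032.Lt.q R0Q033.q670_17) (q_cons (Vale.Agent.P032.Lt.q R0Q033.q670_18) (q_cons (Vale.Agent.P032.Lt.q R0Q033.q670_19) (q_cons (Vale.Agent.P032.Lt.q R0Q033.q670_20) (q_cons (Vale.Agent.P032.Lt.q R0Q033.q670_21) q_nil)))))))))))))))))))))))

theorem p671 : Pat 73 73 TBm TCm (CB.map Fm) R0Q033.P671 R0Q033.I671 := Vale.Agent.P032.Lt.pat_eq (E' := R0Q033.E) eB (pat_step (by decide +kernel) (q_cons (Vale.Agent.P032.Lt.q R0Q033.q671_0) (q_cons (Vale.Agent.P032.Lt.q R0Q033.q671_1) (q_cons (Vale.Agent.P032.Lt.q R0Q033.q671_2) q_nil))))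

theorem p672 : Pat 73 73 TBm TCm (CB.map Fm) R0Q033.P672 R0Q033.I672 := Vale.Agent.P032.Lt.pat_eq (E' := R0Q033.E) eB (pat_step (by decide +kernel) (q_cons (Vale.Agent.P032.Lt.q R0Q033.q672_0) (q_cons (Vale.Agent.P032.Lt.q R0Q033.q672_1) (q_cons (Vale.Agent.P032.Lt.q R0Q033.q672_2) (q_cons (Vale.Agent.P032.Lt.q R0Q033.q672_3) (q_cons (Vale.Agent.P032.Lt.q R0Q033.q672_4) (q_cons (Vale.Agent.P032.Lt.q R0Q033.q672_5) (q_cons (Vale.Agent.P032.Lt.q R0Q033.q672_6) (q_cons (Vale.Agent.P032.Lt.q R0Q033.q672_7) (q_cons (Vale.Agent.P032.Lt.q R0Q033.q672_8) (q_cons (Vale.Agent.P032.Lt.q R0Q033.q672_9) (q_cons (Vale.Agent.P032.Lt.q R0Q033.q672_10) (q_cons (Vale.Agent.P032.Lt.q R0Q033.q672_11) (q_cons (Vale.Agent.P032.Lt.q R0Q033.q672_12) (q_cons (Vale.Agent.P032.Lt.q R0Q033.q672_13) (q_cons (Vale.Agent.P032.Lt.q R0Q033.q672_14) (q_cons (Vale.Agent.P032.Lt.q R0Q033.q672_15)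 (q_cons (Vale.Agent.P032.Lt.q R0Q033.q672_16) (q_cons (Vale.Agent.P032.Lt.q R0Q033.q672_17) q_nil)))))))))))))))))))

theorem p673 : Pat 73 73 TBm TCm (CB.map Fm) R0Q033.P673 R0Q033.I673 := Vale.Agent.P032.Lt.pat_eq (E' := R0Q033.E) eB (pat_step (by decide +kernel) (q_cons (Vale.Agent.P032.Lt.q R0Q033.q673_0) (q_cons (Vale.Agent.P032.Lt.q R0Q033.q673_1) (q_cons (Vale.Agent.P032.Lt.q R0Q033.q673_2) (q_cons (Vale.Agent.P032.Lt.q R0Q033.q673_3) q_nil)))))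

theorem p674 : Pat 73 73 TBm TCm (CB.map Fm) R0Q033.P674 R0Q033.I674 := Vale.Agent.P032.Lt.pat_eq (E' := R0Q033.E) eB (pat_step (by decide +kernel) (q_cons (Vale.Agent.P032.Lt.q R0Q033.q674_0) (q_cons (Vale.Agent.P032.Lt.q R0Q033.q674_1) (q_cons (Vale.Agent.P032.Lt.q R0Q033.q674_2) (q_cons (Vale.Agent.P032.Lt.q R0Q033.q674_3) (q_cons (Vale.Agent.P032.Lt.q R0Q033.q674_4) (q_cons (Vale.Agent.P032.Lt.q R0Q033.q674_5) (q_cons (Vale.Agent.P032.Lt.q R0Q033.q674_6) (q_cons (Vale.Agent.P032.Lt.q R0Q033.q674_7) q_nil)))))))))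

def C675 : List ℕ := [0, 4, 8, 12, 16, 20, 24, 737281]
theorem p675 : Pat 73 73 TBm TCm (C675.map Fm) R0Q033.P675 R0Q033.I675 := Vale.Agent.P032.Lt.pat_eq (E' := R0Q033.E675) (by decide +kernel) (pat_step (by decide +kernel) (q_cons (Vale.Agent.P032.Lt.q R0Q033.q675_0) q_nil))

theorem p676 : Pat 73 73 TBm TCm (CB.map Fm) R0Q033.P676 R0Q033.I676 := Vale.Agent.P032.Lt.pat_eq (E' := R0Q033.E) eB (pat_step (by decide +kernel) (q_cons (Vale.Agent.P032.Lt.q R0Q033.q676_0) q_nil))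

theorem p677 : Pat 73 73 TBm TCm (CB.map Fm) R0Q033.P677 R0Q033.I677 := Vale.Agent.P032.Lt.pat_eq (E' := R0Q033.E) eB (pat_step (by decide +kernel) (q_cons (Vale.Agent.P032.Lt.q R0Q033.q677_0) q_nil))

theorem p678 : Pat 73 73 TBm TCm (CB.map Fm) R0Q033.P678 R0Q033.I678 := Vale.Agent.P032.Lt.pat_eq (E' := R0Q033.E) eB (pat_step (by decide +kernel) (q_cons (Vale.Agent.P032.Lt.q R0Q033.q678_0) q_nil))

theorem p679 : Pat 73 73 TBm TCm (CB.map Fm) R0Q033.P679 R0Q033.I679 := Vale.Agent.P032.Lt.pat_eq (E' := R0Q033.E) eB (pat_step (by decide +kernel) (q_cons (Vale.Agent.P032.Lt.q R0Q033.q679_0) (q_cons (Vale.Agent.P032.Lt.q R0Q033.q679_1) q_nil)))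

theorem p680 : Pat 73 73 TBm TCm (CB.map Fm) R0Q033.P680 R0Q033.I680 := Vale.Agent.P032.Lt.pat_eq (E' := R0Q033.E) eB (pat_step (by decide +kernel) (q_cons (Vale.Agent.P032.Lt.q R0Q033.q680_0) (q_cons (Vale.Agent.P032.Lt.q R0Q033.q680_1) (q_cons (Vale.Agent.P032.Lt.q R0Q033.q680_2) (q_cons (Vale.Agent.P032.Lt.q R0Q033.q680_3) (q_cons (Vale.Agent.P032.Lt.q R0Q033.q680_4) q_nil))))))

theorem p681 : Pat 73 73 TBm TCm (CB.map Fm) R0Q033.P681 R0Q033.I681 := Vale.Agent.P032.Lt.pat_eq (E' := R0Q033.E) eB (pat_step (by decide +kernel) (q_cons (Vale.Agent.P032.Lt.q R0Q033.q681_0) (q_cons (Vale.Agent.P032.Lt.q R0Q033.q681_1) (q_cons (Vale.Agent.P032.Lt.q R0Q033.q681_2) (q_cons (Vale.Agent.P032.Lt.q R0Q033.q681_3) (q_cons (Vale.Agent.P032.Lt.q R0Q033.q681_4) (q_cons (Vale.Agent.P032.Lt.q R0Q033.q681_5) (q_cons (Vale.Agent.P032.Lt.q R0Q033.q681_6) (q_cons (Vale.Agent.P032.Lt.q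 R0Q033.q681_7) (q_cons (Vale.Agent.P032.Lt.q R0Q033.q681_8) q_nil))))))))))

theorem p682 : Pat 73 73 TBm TCm (CB.map Fm) R0Q033.P682 R0Q033.I682 := Vale.Agent.P032.Lt.pat_eq (E' := R0Q033.E) eB (pat_step (by decide +kernel) (q_cons (Vale.Agent.P032.Lt.q R0Q033.q682_0) (q_cons (Vale.Agent.P032.Lt.q R0Q033.q682_1) (q_cons (Vale.Agent.P032.Lt.q R0Q033.q682_2) (q_cons (Vale.Agent.P032.Lt.q R0Q033.q682_3) (q_cons (Vale.Agent.P032.Lt.q R0Q033.q682_4) (q_cons (Vale.Agent.P032.Lt.q R0Q033.q682_5) (q_cons (Vale.Agent.P032.Lt.q R0Q033.q682_6) (q_cons (Vale.Agent.P032.Lt.q R0Q033.q682_7) q_nil)))))))))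

theorem p683 : Pat 73 73 TBm TCm (CB.map Fm) R0Q033.P683 R0Q033.I683 := Vale.Agent.P032.Lt.pat_eq (E' := R0Q033.E) eB (pat_step (by decide +kernel) (q_cons (Vale.Agent.P032.Lt.q R0Q033.q683_0) (q_cons (Vale.Agent.P032.Lt.q R0Q033.q683_1) (q_cons (Vale.Agent.P032.Lt.q R0Q033.q683_2) (q_cons (Vale.Agent.P032.Lt.q R0Q033.q683_3) (q_cons (Vale.Agent.P032.Lt.q R0Q033.q683_4) (q_cons (Vale.Agent.P032.Lt.q R0Q033.q683_5) (q_cons (Vale.Agent.P032.Lt.q R0Q033.q683_6) (q_cons (Vale.Agent.P032.Lt.q R0Q033.q683_7) (q_cons (Vale.Agent.P032.Lt.q R0Q033.q683_8) q_nil))))))))))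

theorem p684 : Pat 73 73 TBm TCm (CB.map Fm) R0Q033.P684 R0Q033.I684 := Vale.Agent.P032.Lt.pat_eq (E' := R0Q033.E) eB (pat_step (by decide +kernel) (q_cons (Vale.Agent.P032.Lt.q R0Q033.q684_0) (q_cons (Vale.Agent.P032.Lt.q R0Q033.q684_1) (q_cons (Vale.Agent.P032.Lt.q R0Q033.q684_2) (q_cons (Vale.Agent.P032.Lt.q R0Q033.q684_3) (q_cons (Vale.Agent.P032.Lt.q R0Q033.q684_4) (q_cons (Vale.Agent.P032.Lt.q R0Q033.q684_5) (q_cons (Vale.Agent.P032.Lt.q R0Q033.q684_6) (q_cons (Vale.Agent.P032.Lt.q R0Q033.q684_7) (q_cons (Vale.Agent.P032.Lt.q R0Q033.q684_8) (q_cons (Vale.Agent.P032.Lt.q R0Q033.q684_9) (q_cons (Vale.Agent.P032.Lt.q R0Q033.q684_10) (q_cons (Vale.Agent.P032.Lt.q R0Q033.q684_11) (q_cons (Vale.Agent.P032.Lt.q R0Q033.q684_12) (q_cons (Vale.Agent.P032.Lt.q R0Q033.q684_13) (q_cons (Vale.Agent.P032.Lt.q R0Q033.q684_14) (q_cons (Vale.Agent.P032.Lt.q R0Q033.q684_15)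 (q_cons (Vale.Agent.P032.Lt.q R0Q033.q684_16) (q_cons (Vale.Agent.P032.Lt.q R0Q033.q684_17) (q_cons (Vale.Agent.P032.Lt.q R0Q033.q684_18) q_nil))))))))))))))))))))

theorem p685 : Pat 73 73 TBm TCm (CB.map Fm) R0Q033.P685 R0Q033.I685 := Vale.Agent.P032.Lt.pat_eq (E' := R0Q033.E) eB (pat_step (by decide +kernel) (q_cons (Vale.Agent.P032.Lt.q R0Q033.q685_0) (q_cons (Vale.Agent.P032.Lt.q R0Q033.q685_1) (q_cons (Vale.Agent.P032.Lt.q R0Q033.q685_2) (q_cons (Vale.Agent.P032.Lt.q R0Q033.q685_3) (q_cons (Vale.Agent.P032.Lt.q R0Q033.q685_4) q_nil))))))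

theorem p686 : Pat 73 73 TBm TCm (CB.map Fm) R0Q033.P686 R0Q033.I686 := Vale.Agent.P032.Lt.pat_eq (E' := R0Q033.E) eB (pat_step (by decide +kernel) (q_cons (Vale.Agent.P032.Lt.q R0Q033.q686_0) (q_cons (Vale.Agent.P032.Lt.q R0Q033.q686_1) q_nil)))

theorem p687 : Pat 73 73 TBm TCm (CB.map Fm) R0Q033.P687 R0Q033.I687 := Vale.Agent.P032.Lt.pat_eq (E' := R0Q033.E) eB (pat_step (by decide +kernel) (q_cons (Vale.Agent.P032.Lt.q R0Q033.q687_0) (q_cons (Vale.Agent.P032.Lt.q R0Q033.q687_1) q_nil)))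

theorem p688 : Pat 73 73 TBm TCm (CB.map Fm) R0Q033.P688 R0Q033.I688 := Vale.Agent.P032.Lt.pat_eq (E' := R0Q033.E) eB (pat_step (by decide +kernel) (q_cons (Vale.Agent.P032.Lt.q R0Q033.q688_0) q_nil))

theorem p689 : Pat 73 73 TBm TCm (CB.map Fm) R0Q034.P689 R0Q034.I689 := Vale.Agent.P032.Lt.pat_eq (E' := R0Q034.E) eB (pat_step (by decide +kernel) (q_cons (Vale.Agent.P032.Lt.q R0Q034.q689_0) (q_cons (Vale.Agent.P032.Lt.q R0Q034.q689_1) (q_cons (Vale.Agent.P032.Lt.q R0Q034.q689_2) (q_cons (Vale.Agent.P032.Lt.q R0Q034.q689_3) (q_cons (Vale.Agent.P032.Lt.q R0Q034.q689_4) (q_cons (Vale.Agent.P032.Lt.q R0Q034.q689_5) (q_cons (Vale.Agent.P032.Lt.q R0Q034.q689_6) (q_cons (Vale.Agent.P032.Lt.q R0Q034.q689_7) (q_cons (Vale.Agent.P032.Lt.q R0Q034.q689_8) (q_cons (Vale.Agent.P032.Lt.q R0Q034.q689_9) (q_cons (Vale.Agent.P032.Lt.q R0Q034.q689_10) (q_cons (Vale.Agent.P032.Lt.q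 R0Q034.q689_11) (q_cons (Vale.Agent.P032.Lt.q R0Q034.q689_12) (q_cons (Vale.Agent.P032.Lt.q R0Q034.q689_13) (q_cons (Vale.Agent.P032.Lt.q R0Q034.q689_14) (q_cons (Vale.Agent.P032.Lt.q R0Q034.q689_15) (q_cons (Vale.Agent.P032.Lt.q R0Q034.q689_16) (q_cons (Vale.Agent.P032.Lt.q R0Q034.q689_17) (q_cons (Vale.Agent.P032.Lt.q R0Q034.q689_18) (q_cons (Vale.Agent.P032.Lt.q R0Q034.q689_19) (q_cons (Vale.Agent.P032.Lt.q R0Q034.q689_20) (q_cons (Vale.Agent.P032.Lt.q R0Q034.q689_21) (q_cons (Vale.Agent.P032.Lt.q R0Q034.q689_22) (q_cons (Vale.Agent.P032.Lt.q R0Q034.q689_23) (q_cons (Vale.Agent.P032.Lt.q R0Q034.q689_24) (q_cons (Vale.Agent.P032.Lt.q R0Q034.q689_25) q_nil)))))))))))))))))))))))))))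

theorem p690 : Pat 73 73 TBm TCm (CB.map Fm) R0Q034.P690 R0Q034.I690 := Vale.Agent.P032.Lt.pat_eq (E' := R0Q034.E) eB (pat_step (by decide +kernel) (q_cons (Vale.Agent.P032.Lt.q R0Q034.q690_0) (q_cons (Vale.Agent.P032.Lt.q R0Q034.q690_1) (q_cons (Vale.Agent.P032.Lt.q R0Q034.q690_2) q_nil))))

theorem p691 : Pat 73 73 TBm TCm (CB.map Fm) R0Q034.P691 [] := Vale.Agent.P032.Lt.pat_eq (E' := R0Q034.E) eB (pat_end (by decide +kernel) (Vale.Agent.P032.Lt.q R0Q034.q691))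

theorem p692 : Pat 73 73 TBm TCm (CB.map Fm) R0Q034.P692 R0Q034.I692 := Vale.Agent.P032.Lt.pat_eq (E' := R0Q034.E) eB (pat_step (by decide +kernel) (q_cons (Vale.Agent.P032.Lt.q R0Q034.q692_0) (q_cons (Vale.Agent.P032.Lt.q R0Q034.q692_1) (q_cons (Vale.Agent.P032.Lt.q R0Q034.q692_2) (q_cons (Vale.Agent.P032.Lt.q R0Q034.q692_3) q_nil)))))

theorem p693 : Pat 73 73 TBm TCm (CB.map Fm) R0Q034.P693 R0Q034.I693 := Vale.Agent.P032.Lt.pat_eq (E' := R0Q034.E) eB (pat_step (by decide +kernel) (q_cons (Vale.Agent.P032.Lt.q R0Q034.q693_0) q_nil))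

theorem p694 : Pat 73 73 TBm TCm (CB.map Fm) R0Q034.P694 R0Q034.I694 := Vale.Agent.P032.Lt.pat_eq (E' := R0Q034.E) eB (pat_step (by decide +kernel) (q_cons (Vale.Agent.P032.Lt.q R0Q034.q694_0) q_nil))

theorem p695 : Pat 73 73 TBm TCm (CB.map Fm) R0Q034.P695 R0Q034.I695 := Vale.Agent.P032.Lt.pat_eq (E' := R0Q034.E) eB (pat_step (by decide +kernel) (q_cons (Vale.Agent.P032.Lt.q R0Q034.q695_0) (q_cons (Vale.Agent.P032.Lt.q R0Q034.q695_1) (q_cons (Vale.Agent.P032.Lt.q R0Q034.q695_2) q_nil))))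

theorem p696 : Pat 73 73 TBm TCm (CB.map Fm) R0Q034.P696 R0Q034.I696 := Vale.Agent.P032.Lt.pat_eq (E' := R0Q034.E) eB (pat_step (by decide +kernel) (q_cons (Vale.Agent.P032.Lt.q R0Q034.q696_0) (q_cons (Vale.Agent.P032.Lt.q R0Q034.q696_1) q_nil)))

theorem p697 : Pat 73 73 TBm TCm (CB.map Fm) R0Q034.P697 R0Q034.I697 := Vale.Agent.P032.Lt.pat_eq (E' := R0Q034.E) eB (pat_step (by decide +kernel) (q_cons (Vale.Agent.P032.Lt.q R0Q034.q697_0) (q_cons (Vale.Agent.P032.Lt.q R0Q034.q697_1) (q_cons (Vale.Agent.P032.Lt.q R0Q034.q697_2) (q_cons (Vale.Agent.P032.Lt.q R0Q034.q697_3) (q_cons (Vale.Agent.P032.Lt.q R0Q034.q697_4) (q_cons (Vale.Agent.P032.Lt.q R0Q034.q697_5) (q_cons (Vale.Agent.P032.Lt.q R0Q034.q697_6) (q_cons (Vale.Agent.P032.Lt.q R0Q034.q697_7) (q_cons (Vale.Agent.P032.Lt.q R0Q034.q697_8) (q_cons (Vale.Agent.P032.Lt.q R0Q034.q697_9) (q_cons (Vale.Agent.P032.Lt.q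 R0Q034.q697_10) (q_cons (Vale.Agent.P032.Lt.q R0Q034.q697_11) (q_cons (Vale.Agent.P032.Lt.q R0Q034.q697_12) (q_cons (Vale.Agent.P032.Lt.q R0Q034.q697_13) q_nil)))))))))))))))

theorem p698 : Pat 73 73 TBm TCm (CB.map Fm) R0Q034.P698 R0Q034.I698 := Vale.Agent.P032.Lt.pat_eq (E' := R0Q034.E) eB (pat_step (by decide +kernel) (q_cons (Vale.Agent.P032.Lt.q R0Q034.q698_0) (q_cons (Vale.Agent.P032.Lt.q R0Q034.q698_1) (q_cons (Vale.Agent.P032.Lt.q R0Q034.q698_2) (q_cons (Vale.Agent.P032.Lt.q R0Q034.q698_3) (q_cons (Vale.Agent.P032.Lt.q R0Q034.q698_4) (q_cons (Vale.Agent.P032.Lt.q R0Q034.q698_5) (q_cons (Vale.Agent.P032.Lt.q R0Q034.q698_6) (q_cons (Vale.Agent.P032.Lt.q R0Q034.q698_7) (q_cons (Vale.Agent.P032.Lt.q R0Q034.q698_8) (q_cons (Vale.Agent.P032.Lt.q R0Q034.q698_9) (q_cons (Vale.Agent.P032.Lt.q R0Q034.q698_10) q_nil))))))))))))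

theorem p699 : Pat 73 73 TBm TCm (CB.map Fm) R0Q034.P699 R0Q034.I699 := Vale.Agent.P032.Lt.pat_eq (E' := R0Q034.E) eB (pat_step (by decide +kernel) (q_cons (Vale.Agent.P032.Lt.q R0Q034.q699_0) (q_cons (Vale.Agent.P032.Lt.q R0Q034.q699_1) (q_cons (Vale.Agent.P032.Lt.q R0Q034.q699_2) (q_cons (Vale.Agent.P032.Lt.q R0Q034.q699_3) (q_cons (Vale.Agent.P032.Lt.q R0Q034.q699_4) q_nil))))))

theorem p700 : Pat 73 73 TBm TCm (CB.map Fm) R0Q034.P700 R0Q034.I700 := Vale.Agent.P032.Lt.pat_eq (E' := R0Q034.E) eB (pat_step (by decide +kernel) (q_cons (Vale.Agent.P032.Lt.q R0Q034.q700_0) (q_cons (Vale.Agent.P032.Lt.q R0Q034.q700_1) (q_cons (Vale.Agent.P032.Lt.q R0Q034.q700_2) q_nil))))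

theorem p701 : Pat 73 73 TBm TCm (CB.map Fm) R0Q034.P701 R0Q034.I701 := Vale.Agent.P032.Lt.pat_eq (E' := R0Q034.E) eB (pat_step (by decide +kernel) (q_cons (Vale.Agent.P032.Lt.q R0Q034.q701_0) (q_cons (Vale.Agent.P032.Lt.q R0Q034.q701_1) (q_cons (Vale.Agent.P032.Lt.q R0Q034.q701_2) (q_cons (Vale.Agent.P032.Lt.q R0Q034.q701_3) q_nil)))))

theorem p702 : Pat 73 73 TBm TCm (CB.map Fm) R0Q034.P702 R0Q034.I702 := Vale.Agent.P032.Lt.pat_eq (E' := R0Q034.E) eB (pat_step (by decide +kernel) (q_cons (Vale.Agent.P032.Lt.q R0Q034.q702_0) q_nil))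

theorem p703 : Pat 73 73 TBm TCm (CB.map Fm) R0Q034.P703 R0Q034.I703 := Vale.Agent.P032.Lt.pat_eq (E' := R0Q034.E) eB (pat_step (by decide +kernel) (q_cons (Vale.Agent.P032.Lt.q R0Q034.q703_0) q_nil))

theorem p704 : Pat 73 73 TBm TCm (CB.map Fm) R0Q034.P704 R0Q034.I704 := Vale.Agent.P032.Lt.pat_eq (E' := R0Q034.E) eB (pat_step (by decide +kernel) (q_cons (Vale.Agent.P032.Lt.q R0Q034.q704_0) (q_cons (Vale.Agent.P032.Lt.q R0Q034.q704_1) (q_cons (Vale.Agent.P032.Lt.q R0Q034.q704_2) (q_cons (Vale.Agent.P032.Lt.q R0Q034.q704_3) (q_cons (Vale.Agent.P032.Lt.q R0Q034.q704_4) (q_cons (Vale.Agent.P032.Lt.q R0Q034.q704_5) q_nil)))))))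

theorem p705 : Pat 73 73 TBm TCm (CB.map Fm) R0Q034.P705 R0Q034.I705 := Vale.Agent.P032.Lt.pat_eq (E' := R0Q034.E) eB (pat_step (by decide +kernel) (q_cons (Vale.Agent.P032.Lt.q R0Q034.q705_0) (q_cons (Vale.Agent.P032.Lt.q R0Q034.q705_1) q_nil)))

theorem p706 : Pat 73 73 TBm TCm (CB.map Fm) R0Q034.P706 R0Q034.I706 := Vale.Agent.P032.Lt.pat_eq (E' := R0Q034.E) eB (pat_step (by decide +kernel) (q_cons (Vale.Agent.P032.Lt.q R0Q034.q706_0) (q_cons (Vale.Agent.P032.Lt.q R0Q034.q706_1) (q_cons (Vale.Agent.P032.Lt.q R0Q034.q706_2) (q_cons (Vale.Agent.P032.Lt.q R0Q034.q706_3) (q_cons (Vale.Agent.P032.Lt.q R0Q034.q706_4) (q_cons (Vale.Agent.P032.Lt.q R0Q034.q706_5) (q_cons (Vale.Agent.P032.Lt.q R0Q034.q706_6) (q_cons (Vale.Agent.P032.Lt.q R0Q034.q706_7) (q_cons (Vale.Agent.P032.Lt.q R0Q034.q706_8) (q_cons (Vale.Agent.P032.Lt.q R0Q034.q706_9) (q_cons (Vale.Agent.P032.Lt.q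 R0Q034.q706_10) (q_cons (Vale.Agent.P032.Lt.q R0Q034.q706_11) (q_cons (Vale.Agent.P032.Lt.q R0Q034.q706_12) q_nil))))))))))))))

theorem p707 : Pat 73 73 TBm TCm (CB.map Fm) R0Q034.P707 R0Q034.I707 := Vale.Agent.P032.Lt.pat_eq (E' := R0Q034.E) eB (pat_step (by decide +kernel) (q_cons (Vale.Agent.P032.Lt.q R0Q034.q707_0) (q_cons (Vale.Agent.P032.Lt.q R0Q034.q707_1) (q_cons (Vale.Agent.P032.Lt.q R0Q034.q707_2) (q_cons (Vale.Agent.P032.Lt.q R0Q034.q707_3) (q_cons (Vale.Agent.P032.Lt.q R0Q034.q707_4) q_nil))))))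

theorem p708 : Pat 73 73 TBm TCm (CB.map Fm) R0Q035.P708 R0Q035.I708 := Vale.Agent.P032.Lt.pat_eq (E' := R0Q035.E) eB (pat_step (by decide +kernel) (q_cons (Vale.Agent.P032.Lt.q R0Q035.q708_0) q_nil))

theorem p709 : Pat 73 73 TBm TCm (CB.map Fm) R0Q035.P709 R0Q035.I709 := Vale.Agent.P032.Lt.pat_eq (E' := R0Q035.E) eB (pat_step (by decide +kernel) (q_cons (Vale.Agent.P032.Lt.q R0Q035.q709_0) (q_cons (Vale.Agent.P032.Lt.q R0Q035.q709_1) (q_cons (Vale.Agent.P032.Lt.q R0Q035.q709_2) (q_cons (Vale.Agent.P032.Lt.q R0Q035.q709_3) (q_cons (Vale.Agent.P032.Lt.q R0Q035.q709_4) (q_cons (Vale.Agent.P032.Lt.q R0Q035.q709_5) (q_cons (Vale.Agent.P032.Lt.q R0Q035.q709_6) (q_cons (Vale.Agent.P032.Lt.q R0Q035.q709_7) (q_cons (Vale.Agent.P032.Lt.q R0Q035.q709_8) q_nil))))))))))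

theorem p710 : Pat 73 73 TBm TCm (CB.map Fm) R0Q035.P710 R0Q035.I710 := Vale.Agent.P032.Lt.pat_eq (E' := R0Q035.E) eB (pat_step (by decide +kernel) (q_cons (Vale.Agent.P032.Lt.q R0Q035.q710_0) (q_cons (Vale.Agent.P032.Lt.q R0Q035.q710_1) q_nil)))

theorem p711 : Pat 73 73 TBm TCm (CB.map Fm) R0Q035.P711 R0Q035.I711 := Vale.Agent.P032.Lt.pat_eq (E' := R0Q035.E) eB (pat_step (by decide +kernel) (q_cons (Vale.Agent.P032.Lt.q R0Q035.q711_0) (q_cons (Vale.Agent.P032.Lt.q R0Q035.q711_1) (q_cons (Vale.Agent.P032.Lt.q R0Q035.q711_2) q_nil))))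

theorem p712 : Pat 73 73 TBm TCm (CB.map Fm) R0Q035.P712 R0Q035.I712 := Vale.Agent.P032.Lt.pat_eq (E' := R0Q035.E) eB (pat_step (by decide +kernel) (q_cons (Vale.Agent.P032.Lt.q R0Q035.q712_0) (q_cons (Vale.Agent.P032.Lt.q R0Q035.q712_1) (q_cons (Vale.Agent.P032.Lt.q R0Q035.q712_2) (q_cons (Vale.Agent.P032.Lt.q R0Q035.q712_3) (q_cons (Vale.Agent.P032.Lt.q R0Q035.q712_4) q_nil))))))

theorem p713 : Pat 73 73 TBm TCm (CB.map Fm) R0Q035.P713 R0Q035.I713 := Vale.Agent.P032.Lt.pat_eq (E' := R0Q035.E) eB (pat_step (by decide +kernel) (q_cons (Vale.Agent.P032.Lt.q R0Q035.q713_0) (q_cons (Vale.Agent.P032.Lt.q R0Q035.q713_1) q_nil)))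

def C714 : List ℕ := [0, 4, 8, 12, 16, 20, 24, 82945, 216065]
theorem p714 : Pat 73 73 TBm TCm (C714.map Fm) R0Q035.P714 R0Q035.I714 := Vale.Agent.P032.Lt.pat_eq (E' := R0Q035.E714) (by decide +kernel) (pat_step (by decide +kernel) (q_cons (Vale.Agent.P032.Lt.q R0Q035.q714_0) (q_cons (Vale.Agent.P032.Lt.q R0Q035.q714_1) (q_cons (Vale.Agent.P032.Lt.q R0Q035.q714_2) (q_cons (Vale.Agent.P032.Lt.q R0Q035.q714_3) (q_cons (Vale.Agent.P032.Lt.q R0Q035.q714_4) q_nil))))))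

theorem p715 : Pat 73 73 TBm TCm (CB.map Fm) R0Q035.P715 R0Q035.I715 := Vale.Agent.P032.Lt.pat_eq (E' := R0Q035.E) eB (pat_step (by decide +kernel) (q_cons (Vale.Agent.P032.Lt.q R0Q035.q715_0) (q_cons (Vale.Agent.P032.Lt.q R0Q035.q715_1) (q_cons (Vale.Agent.P032.Lt.q R0Q035.q715_2) (q_cons (Vale.Agent.P032.Lt.q R0Q035.q715_3) q_nil)))))

theorem p716 : Pat 73 73 TBm TCm (CB.map Fm) R0Q035.P716 R0Q035.I716 := Vale.Agent.P032.Lt.pat_eq (E' := R0Q035.E) eB (pat_step (by decide +kernel) (q_cons (Vale.Agent.P032.Lt.q R0Q035.q716_0) (q_cons (Vale.Agent.P032.Lt.q R0Q035.q716_1) (q_cons (Vale.Agent.P032.Lt.q R0Q035.q716_2) (q_cons (Vale.Agent.P032.Lt.q R0Q035.q716_3) (q_cons (Vale.Agent.P032.Lt.q R0Q035.q716_4) q_nil))))))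

theorem p717 : Pat 73 73 TBm TCm (CB.map Fm) R0Q035.P717 R0Q035.I717 := Vale.Agent.P032.Lt.pat_eq (E' := R0Q035.E) eB (pat_step (by decide +kernel) (q_cons (Vale.Agent.P032.Lt.q R0Q035.q717_0) (q_cons (Vale.Agent.P032.Lt.q R0Q035.q717_1) (q_cons (Vale.Agent.P032.Lt.q R0Q035.q717_2) q_nil))))

theorem p718 : Pat 73 73 TBm TCm (CB.map Fm) R0Q035.P718 R0Q035.I718 := Vale.Agent.P032.Lt.pat_eq (E' := R0Q035.E) eB (pat_step (by decide +kernel) (q_cons (Vale.Agent.P032.Lt.q R0Q035.q718_0) (q_cons (Vale.Agent.P032.Lt.q R0Q035.q718_1) (q_cons (Vale.Agent.P032.Lt.q R0Q035.q718_2) (q_cons (Vale.Agent.P032.Lt.q R0Q035.q718_3) q_nil)))))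

def C719 : List ℕ := [0, 4, 8, 12, 16, 20, 24, 214017, 347137, 606209, 737281]
theorem p719 : Pat 73 73 TBm TCm (C719.map Fm) R0Q035.P719 R0Q035.I719 := Vale.Agent.P032.Lt.pat_eq (E' := R0Q035.E719) (by decide +kernel) (pat_step (by decide +kernel) (q_cons (Vale.Agent.P032.Lt.q R0Q035.q719_0) (q_cons (Vale.Agent.P032.Lt.q R0Q035.q719_1) (q_cons (Vale.Agent.P032.Lt.q R0Q035.q719_2) (q_cons (Vale.Agent.P032.Lt.q R0Q035.q719_3) (q_cons (Vale.Agent.P032.Lt.q R0Q035.q719_4) (q_cons (Vale.Agent.P032.Lt.q R0Q035.q719_5) (q_cons (Vale.Agent.P032.Lt.q R0Q035.q719_6) q_nil))))))))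

theorem p720 : Pat 73 73 TBm TCm (CB.map Fm) R0Q035.P720 R0Q035.I720 := Vale.Agent.P032.Lt.pat_eq (E' := R0Q035.E) eB (pat_step (by decide +kernel) (q_cons (Vale.Agent.P032.Lt.q R0Q035.q720_0) q_nil))

theorem p721 : Pat 73 73 TBm TCm (CB.map Fm) R0Q035.P721 R0Q035.I721 := Vale.Agent.P032.Lt.pat_eq (E' := R0Q035.E) eB (pat_step (by decide +kernel) (q_cons (Vale.Agent.P032.Lt.q R0Q035.q721_0) (q_cons (Vale.Agent.P032.Lt.q R0Q035.q721_1) q_nil)))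

theorem p722 : Pat 73 73 TBm TCm (CB.map Fm) R0Q035.P722 R0Q035.I722 := Vale.Agent.P032.Lt.pat_eq (E' := R0Q035.E) eB (pat_step (by decide +kernel) (q_cons (Vale.Agent.P032.Lt.q R0Q035.q722_0) (q_cons (Vale.Agent.P032.Lt.q R0Q035.q722_1) q_nil)))

theorem p723 : Pat 73 73 TBm TCm (CB.map Fm) R0Q035.P723 R0Q035.I723 := Vale.Agent.P032.Lt.pat_eq (E' := R0Q035.E) eB (pat_step (by decide +kernel) (q_cons (Vale.Agent.P032.Lt.q R0Q035.q723_0) (q_cons (Vale.Agent.P032.Lt.q R0Q035.q723_1) (q_cons (Vale.Agent.P032.Lt.q R0Q035.q723_2) (q_cons (Vale.Agent.P032.Lt.q R0Q035.q723_3) q_nil)))))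

theorem p724 : Pat 73 73 TBm TCm (CB.map Fm) R0Q035.P724 R0Q035.I724 := Vale.Agent.P032.Lt.pat_eq (E' := R0Q035.E) eB (pat_step (by decide +kernel) (q_cons (Vale.Agent.P032.Lt.q R0Q035.q724_0) (q_cons (Vale.Agent.P032.Lt.q R0Q035.q724_1) (q_cons (Vale.Agent.P032.Lt.q R0Q035.q724_2) (q_cons (Vale.Agent.P032.Lt.q R0Q035.q724_3) (q_cons (Vale.Agent.P032.Lt.q R0Q035.q724_4) (q_cons (Vale.Agent.P032.Lt.q R0Q035.q724_5) (q_cons (Vale.Agent.P032.Lt.q R0Q035.q724_6) (q_cons (Vale.Agent.P032.Lt.q R0Q035.q724_7) (q_cons (Vale.Agent.P032.Lt.q R0Q035.q724_8) (q_cons (Vale.Agent.P032.Lt.q R0Q035.q724_9) (q_cons (Vale.Agent.P032.Lt.q R0Q035.q724_10) (q_cons (Vale.Agent.P032.Lt.q R0Q035.q724_11) (q_cons (Vale.Agent.P032.Lt.q R0Q035.q724_12) (q_cons (Vale.Agent.P032.Lt.q R0Q035.q724_13) (q_cons (Vale.Agent.P032.Lt.q R0Q035.q724_14) (q_cons (Vale.Agent.P032.Lt.q R0Q035.q724_15)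 (q_cons (Vale.Agent.P032.Lt.q R0Q035.q724_16) (q_cons (Vale.Agent.P032.Lt.q R0Q035.q724_17) q_nil)))))))))))))))))))

theorem p725 : Pat 73 73 TBm TCm (CB.map Fm) R0Q035.P725 R0Q035.I725 := Vale.Agent.P032.Lt.pat_eq (E' := R0Q035.E) eB (pat_step (by decide +kernel) (q_cons (Vale.Agent.P032.Lt.q R0Q035.q725_0) (q_cons (Vale.Agent.P032.Lt.q R0Q035.q725_1) (q_cons (Vale.Agent.P032.Lt.q R0Q035.q725_2) (q_cons (Vale.Agent.P032.Lt.q R0Q035.q725_3) (q_cons (Vale.Agent.P032.Lt.q R0Q035.q725_4) (q_cons (Vale.Agent.P032.Lt.q R0Q035.q725_5) (q_cons (Vale.Agent.P032.Lt.q R0Q035.q725_6) (q_cons (Vale.Agent.P032.Lt.q R0Q035.q725_7) (q_cons (Vale.Agent.P032.Lt.q R0Q035.q725_8) (q_cons (Vale.Agent.P032.Lt.q R0Q035.q725_9) (q_cons (Vale.Agent.P032.Lt.q R0Q035.q725_10) q_nil))))))))))))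

theorem p726 : Pat 73 73 TBm TCm (CB.map Fm) R0Q035.P726 R0Q035.I726 := Vale.Agent.P032.Lt.pat_eq (E' := R0Q035.E) eB (pat_step (by decide +kernel) (q_cons (Vale.Agent.P032.Lt.q R0Q035.q726_0) (q_cons (Vale.Agent.P032.Lt.q R0Q035.q726_1) (q_cons (Vale.Agent.P032.Lt.q R0Q035.q726_2) (q_cons (Vale.Agent.P032.Lt.q R0Q035.q726_3) q_nil)))))

theorem p727 : Pat 73 73 TBm TCm (CB.map Fm) R0Q035.P727 R0Q035.I727 := Vale.Agent.P032.Lt.pat_eq (E' := R0Q035.E) eB (pat_step (by decide +kernel) (q_cons (Vale.Agent.P032.Lt.q R0Q035.q727_0) (q_cons (Vale.Agent.P032.Lt.q R0Q035.q727_1) (q_cons (Vale.Agent.P032.Lt.q R0Q035.q727_2) (q_cons (Vale.Agent.P032.Lt.q R0Q035.q727_3) (q_cons (Vale.Agent.P032.Lt.q R0Q035.q727_4) (q_cons (Vale.Agent.P032.Lt.q R0Q035.q727_5) (q_cons (Vale.Agent.P032.Lt.q R0Q035.q727_6) (q_cons (Vale.Agent.P032.Lt.q R0Q035.q727_7) (q_cons (Vale.Agent.P032.Lt.q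 R0Q035.q727_8) (q_cons (Vale.Agent.P032.Lt.q R0Q035.q727_9) q_nil)))))))))))

theorem p728 : Pat 73 73 TBm TCm (CB.map Fm) R0Q035.P728 R0Q035.I728 := Vale.Agent.P032.Lt.pat_eq (E' := R0Q035.E) eB (pat_step (by decide +kernel) (q_cons (Vale.Agent.P032.Lt.q R0Q035.q728_0) (q_cons (Vale.Agent.P032.Lt.q R0Q035.q728_1) (q_cons (Vale.Agent.P032.Lt.q R0Q035.q728_2) (q_cons (Vale.Agent.P032.Lt.q R0Q035.q728_3) (q_cons (Vale.Agent.P032.Lt.q R0Q035.q728_4) (q_cons (Vale.Agent.P032.Lt.q R0Q035.q728_5) (q_cons (Vale.Agent.P032.Lt.q R0Q035.q728_6) (q_cons (Vale.Agent.P032.Lt.q R0Q035.q728_7) (q_cons (Vale.Agent.P032.Lt.q R0Q035.q728_8) (q_cons (Vale.Agent.P032.Lt.q R0Q035.q728_9) (q_cons (Vale.Agent.P032.Lt.q R0Q035.q728_10) (q_cons (Vale.Agent.P032.Lt.q R0Q035.q728_11) (q_cons (Vale.Agent.P032.Lt.q R0Q035.q728_12) (q_cons (Vale.Agent.P032.Lt.q R0Q035.q728_13) (q_cons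 (Vale.Agent.P032.Lt.q R0Q035.q728_14) (q_cons (Vale.Agent.P032.Lt.q R0Q035.q728_15) (q_cons (Vale.Agent.P032.Lt.q R0Q035.q728_16) (q_cons (Vale.Agent.P032.Lt.q R0Q035.q728_17) (q_cons (Vale.Agent.P032.Lt.q R0Q035.q728_18) (q_cons (Vale.Agent.P032.Lt.q R0Q035.q728_19) (q_cons (Vale.Agent.P032.Lt.q R0Q035.q728_20) q_nil))))))))))))))))))))))

theorem p729 : Pat 73 73 TBm TCm (CB.map Fm) R0Q035.P729 R0Q035.I729 := Vale.Agent.P032.Lt.pat_eq (E' := R0Q035.E) eB (pat_step (by decide +kernel) (q_cons (Vale.Agent.P032.Lt.q R0Q035.q729_0) (q_cons (Vale.Agent.P032.Lt.q R0Q035.q729_1) (q_cons (Vale.Agent.P032.Lt.q R0Q035.q729_2) (q_cons (Vale.Agent.P032.Lt.q R0Q035.q729_3) (q_cons (Vale.Agent.P032.Lt.q R0Q035.q729_4) q_nil))))))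

theorem p730 : Pat 73 73 TBm TCm (CB.map Fm) R0Q035.P730 R0Q035.I730 := Vale.Agent.P032.Lt.pat_eq (E' := R0Q035.E) eB (pat_step (by decide +kernel) (q_cons (Vale.Agent.P032.Lt.q R0Q035.q730_0) (q_cons (Vale.Agent.P032.Lt.q R0Q035.q730_1) (q_cons (Vale.Agent.P032.Lt.q R0Q035.q730_2) (q_cons (Vale.Agent.P032.Lt.q R0Q035.q730_3) q_nil)))))

theorem p731 : Pat 73 73 TBm TCm (CB.map Fm) R0Q035.P731 R0Q035.I731 := Vale.Agent.P032.Lt.pat_eq (E' := R0Q035.E) eB (pat_step (by decide +kernel) (q_cons (Vale.Agent.P032.Lt.q R0Q035.q731_0) q_nil))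

theorem p732 : Pat 73 73 TBm TCm (CB.map Fm) R0Q035.P732 R0Q035.I732 := Vale.Agent.P032.Lt.pat_eq (E' := R0Q035.E) eB (pat_step (by decide +kernel) (q_cons (Vale.Agent.P032.Lt.q R0Q035.q732_0) (q_cons (Vale.Agent.P032.Lt.q R0Q035.q732_1) (q_cons (Vale.Agent.P032.Lt.q R0Q035.q732_2) q_nil))))

theorem p733 : Pat 73 73 TBm TCm (CB.map Fm) R0Q035.P733 R0Q035.I733 := Vale.Agent.P032.Lt.pat_eq (E' := R0Q035.E) eB (pat_step (by decide +kernel) (q_cons (Vale.Agent.P032.Lt.q R0Q035.q733_0) (q_cons (Vale.Agent.P032.Lt.q R0Q035.q733_1) (q_cons (Vale.Agent.P032.Lt.q R0Q035.q733_2) q_nil))))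

theorem p734 : Pat 73 73 TBm TCm (CB.map Fm) R0Q036.P734 R0Q036.I734 := Vale.Agent.P032.Lt.pat_eq (E' := R0Q036.E) eB (pat_step (by decide +kernel) (q_cons (Vale.Agent.P032.Lt.q R0Q036.q734_0) (q_cons (Vale.Agent.P032.Lt.q R0Q036.q734_1) (q_cons (Vale.Agent.P032.Lt.q R0Q036.q734_2) (q_cons (Vale.Agent.P032.Lt.q R0Q036.q734_3) (q_cons (Vale.Agent.P032.Lt.q R0Q036.q734_4) (q_cons (Vale.Agent.P032.Lt.q R0Q036.q734_5) (q_cons (Vale.Agent.P032.Lt.q R0Q036.q734_6) (q_cons (Vale.Agent.P032.Lt.q R0Q036.q734_7) (q_cons (Vale.Agent.P032.Lt.q R0Q036.q734_8) (q_cons (Vale.Agent.P032.Lt.q R0Q036.q734_9) q_nil)))))))))))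

theorem p735 : Pat 73 73 TBm TCm (CB.map Fm) R0Q036.P735 R0Q036.I735 := Vale.Agent.P032.Lt.pat_eq (E' := R0Q036.E) eB (pat_step (by decide +kernel) (q_cons (Vale.Agent.P032.Lt.q R0Q036.q735_0) q_nil))

theorem p736 : Pat 73 73 TBm TCm (CB.map Fm) R0Q036.P736 R0Q036.I736 := Vale.Agent.P032.Lt.pat_eq (E' := R0Q036.E) eB (pat_step (by decide +kernel) (q_cons (Vale.Agent.P032.Lt.q R0Q036.q736_0) q_nil))

theorem p737 : Pat 73 73 TBm TCm (CB.map Fm) R0Q036.P737 R0Q036.I737 := Vale.Agent.P032.Lt.pat_eq (E' := R0Q036.E) eB (pat_step (by decide +kernel) (q_cons (Vale.Agent.P032.Lt.q R0Q036.q737_0) (q_cons (Vale.Agent.P032.Lt.q R0Q036.q737_1) (q_cons (Vale.Agent.P032.Lt.q R0Q036.q737_2) (q_cons (Vale.Agent.P032.Lt.q R0Q036.q737_3) (q_cons (Vale.Agent.P032.Lt.q R0Q036.q737_4) q_nil))))))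

theorem p738 : Pat 73 73 TBm TCm (CB.map Fm) R0Q036.P738 R0Q036.I738 := Vale.Agent.P032.Lt.pat_eq (E' := R0Q036.E) eB (pat_step (by decide +kernel) (q_cons (Vale.Agent.P032.Lt.q R0Q036.q738_0) (q_cons (Vale.Agent.P032.Lt.q R0Q036.q738_1) (q_cons (Vale.Agent.P032.Lt.q R0Q036.q738_2) (q_cons (Vale.Agent.P032.Lt.q R0Q036.q738_3) (q_cons (Vale.Agent.P032.Lt.q R0Q036.q738_4) (q_cons (Vale.Agent.P032.Lt.q R0Q036.q738_5) (q_cons (Vale.Agent.P032.Lt.q R0Q036.q738_6) (q_cons (Vale.Agent.P032.Lt.q R0Q036.q738_7) (q_cons (Vale.Agent.P032.Lt.q R0Q036.q738_8) q_nil))))))))))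

theorem p739 : Pat 73 73 TBm TCm (CB.map Fm) R0Q036.P739 R0Q036.I739 := Vale.Agent.P032.Lt.pat_eq (E' := R0Q036.E) eB (pat_step (by decide +kernel) (q_cons (Vale.Agent.P032.Lt.q R0Q036.q739_0) (q_cons (Vale.Agent.P032.Lt.q R0Q036.q739_1) (q_cons (Vale.Agent.P032.Lt.q R0Q036.q739_2) (q_cons (Vale.Agent.P032.Lt.q R0Q036.q739_3) q_nil)))))

theorem p740 : Pat 73 73 TBm TCm (CB.map Fm) R0Q036.P740 R0Q036.I740 := Vale.Agent.P032.Lt.pat_eq (E' := R0Q036.E) eB (pat_step (by decide +kernel) (q_cons (Vale.Agent.P032.Lt.q R0Q036.q740_0) (q_cons (Vale.Agent.P032.Lt.q R0Q036.q740_1) (q_cons (Vale.Agent.P032.Lt.q R0Q036.q740_2) (q_cons (Vale.Agent.P032.Lt.q R0Q036.q740_3) q_nil)))))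

theorem p741 : Pat 73 73 TBm TCm (CB.map Fm) R0Q036.P741 R0Q036.I741 := Vale.Agent.P032.Lt.pat_eq (E' := R0Q036.E) eB (pat_step (by decide +kernel) (q_cons (Vale.Agent.P032.Lt.q R0Q036.q741_0) (q_cons (Vale.Agent.P032.Lt.q R0Q036.q741_1) q_nil)))

theorem p742 : Pat 73 73 TBm TCm (CB.map Fm) R0Q036.P742 R0Q036.I742 := Vale.Agent.P032.Lt.pat_eq (E' := R0Q036.E) eB (pat_step (by decide +kernel) (q_cons (Vale.Agent.P032.Lt.q R0Q036.q742_0) (q_cons (Vale.Agent.P032.Lt.q R0Q036.q742_1) (q_cons (Vale.Agent.P032.Lt.q R0Q036.q742_2) (q_cons (Vale.Agent.P032.Lt.q R0Q036.q742_3) (q_cons (Vale.Agent.P032.Lt.q R0Q036.q742_4) (q_cons (Vale.Agent.P032.Lt.q R0Q036.q742_5) (q_cons (Vale.Agent.P032.Lt.q R0Q036.q742_6) (q_cons (Vale.Agent.P032.Lt.q R0Q036.q742_7) q_nil)))))))))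

theorem p743 : Pat 73 73 TBm TCm (CB.map Fm) R0Q036.P743 R0Q036.I743 := Vale.Agent.P032.Lt.pat_eq (E' := R0Q036.E) eB (pat_step (by decide +kernel) (q_cons (Vale.Agent.P032.Lt.q R0Q036.q743_0) (q_cons (Vale.Agent.P032.Lt.q R0Q036.q743_1) (q_cons (Vale.Agent.P032.Lt.q R0Q036.q743_2) (q_cons (Vale.Agent.P032.Lt.q R0Q036.q743_3) (q_cons (Vale.Agent.P032.Lt.q R0Q036.q743_4) (q_cons (Vale.Agent.P032.Lt.q R0Q036.q743_5) (q_cons (Vale.Agent.P032.Lt.q R0Q036.q743_6) q_nil))))))))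

theorem p744 : Pat 73 73 TBm TCm (CB.map Fm) R0Q036.P744 R0Q036.I744 := Vale.Agent.P032.Lt.pat_eq (E' := R0Q036.E) eB (pat_step (by decide +kernel) (q_cons (Vale.Agent.P032.Lt.q R0Q036.q744_0) (q_cons (Vale.Agent.P032.Lt.q R0Q036.q744_1) (q_cons (Vale.Agent.P032.Lt.q R0Q036.q744_2) (q_cons (Vale.Agent.P032.Lt.q R0Q036.q744_3) (q_cons (Vale.Agent.P032.Lt.q R0Q036.q744_4) (q_cons (Vale.Agent.P032.Lt.q R0Q036.q744_5) (q_cons (Vale.Agent.P032.Lt.q R0Q036.q744_6) (q_cons (Vale.Agent.P032.Lt.q R0Q036.q744_7) (q_cons (Vale.Agent.P032.Lt.q R0Q036.q744_8) (q_cons (Vale.Agent.P032.Lt.q R0Q036.q744_9) (q_cons (Vale.Agent.P032.Lt.q R0Q036.q744_10) (q_cons (Vale.Agent.P032.Lt.q R0Q036.q744_11) (q_cons (Vale.Agent.P032.Lt.q R0Q036.q744_12) (q_cons (Vale.Agent.P032.Lt.q R0Q036.q744_13) (q_cons (Vale.Agent.P032.Lt.q R0Q036.q744_14) (q_cons (Vale.Agent.P032.Lt.q R0Q036.q744_15)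 (q_cons (Vale.Agent.P032.Lt.q R0Q036.q744_16) (q_cons (Vale.Agent.P032.Lt.q R0Q036.q744_17) (q_cons (Vale.Agent.P032.Lt.q R0Q036.q744_18) (q_cons (Vale.Agent.P032.Lt.q R0Q036.q744_19) (q_cons (Vale.Agent.P032.Lt.q R0Q036.q744_20) (q_cons (Vale.Agent.P032.Lt.q R0Q036.q744_21) (q_cons (Vale.Agent.P032.Lt.q R0Q036.q744_22) (q_cons (Vale.Agent.P032.Lt.q R0Q036.q744_23) (q_cons (Vale.Agent.P032.Lt.q R0Q036.q744_24) (q_cons (Vale.Agent.P032.Lt.q R0Q036.q744_25) q_nil)))))))))))))))))))))))))))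

theorem p745 : Pat 73 73 TBm TCm (CB.map Fm) R0Q036.P745 R0Q036.I745 := Vale.Agent.P032.Lt.pat_eq (E' := R0Q036.E) eB (pat_step (by decide +kernel) (q_cons (Vale.Agent.P032.Lt.q R0Q036.q745_0) q_nil))

def C746 : List ℕ := [0, 4, 8, 12, 16, 20, 24, 91137, 222209, 355329, 475137, 737281]
theorem p746 : Pat 73 73 TBm TCm (C746.map Fm) R0Q036.P746 R0Q036.I746 := Vale.Agent.P032.Lt.pat_eq (E' := R0Q036.E746) (by decide +kernel) (pat_step (by decide +kernel) (q_cons (Vale.Agent.P032.Lt.q R0Q036.q746_0) (q_cons (Vale.Agent.P032.Lt.q R0Q036.q746_1) (q_cons (Vale.Agent.P032.Lt.q R0Q036.q746_2) (q_cons (Vale.Agent.P032.Lt.q R0Q036.q746_3) (q_cons (Vale.Agent.P032.Lt.q R0Q036.q746_4) (q_cons (Vale.Agent.P032.Lt.q R0Q036.q746_5) (q_cons (Vale.Agent.P032.Lt.q R0Q036.q746_6) (q_cons (Vale.Agent.P032.Lt.q R0Q036.q746_7) (q_cons (Vale.Agent.P032.Lt.q R0Q036.q746_8)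 q_nil))))))))))

theorem p747 : Pat 73 73 TBm TCm (CB.map Fm) R0Q036.P747 R0Q036.I747 := Vale.Agent.P032.Lt.pat_eq (E' := R0Q036.E) eB (pat_step (by decide +kernel) (q_cons (Vale.Agent.P032.Lt.q R0Q036.q747_0) (q_cons (Vale.Agent.P032.Lt.q R0Q036.q747_1) q_nil)))

theorem p748 : Pat 73 73 TBm TCm (CB.map Fm) R0Q036.P748 R0Q036.I748 := Vale.Agent.P032.Lt.pat_eq (E' := R0Q036.E) eB (pat_step (by decide +kernel) (q_cons (Vale.Agent.P032.Lt.q R0Q036.q748_0) q_nil))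

theorem p749 : Pat 73 73 TBm TCm (CB.map Fm) R0Q036.P749 R0Q036.I749 := Vale.Agent.P032.Lt.pat_eq (E' := R0Q036.E) eB (pat_step (by decide +kernel) (q_cons (Vale.Agent.P032.Lt.q R0Q036.q749_0) (q_cons (Vale.Agent.P032.Lt.q R0Q036.q749_1) (q_cons (Vale.Agent.P032.Lt.q R0Q036.q749_2) (q_cons (Vale.Agent.P032.Lt.q R0Q036.q749_3) (q_cons (Vale.Agent.P032.Lt.q R0Q036.q749_4) q_nil))))))

theorem p750 : Pat 73 73 TBm TCm (CB.map Fm) R0Q036.P750 R0Q036.I750 := Vale.Agent.P032.Lt.pat_eq (E' := R0Q036.E) eB (pat_step (by decide +kernel) (q_cons (Vale.Agent.P032.Lt.q R0Q036.q750_0) (q_cons (Vale.Agent.P032.Lt.q R0Q036.q750_1) q_nil)))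

theorem p751 : Pat 73 73 TBm TCm (CB.map Fm) R0Q036.P751 R0Q036.I751 := Vale.Agent.P032.Lt.pat_eq (E' := R0Q036.E) eB (pat_step (by decide +kernel) (q_cons (Vale.Agent.P032.Lt.q R0Q036.q751_0) (q_cons (Vale.Agent.P032.Lt.q R0Q036.q751_1) (q_cons (Vale.Agent.P032.Lt.q R0Q036.q751_2) (q_cons (Vale.Agent.P032.Lt.q R0Q036.q751_3) (q_cons (Vale.Agent.P032.Lt.q R0Q036.q751_4) (q_cons (Vale.Agent.P032.Lt.q R0Q036.q751_5) (q_cons (Vale.Agent.P032.Lt.q R0Q036.q751_6) (q_cons (Vale.Agent.P032.Lt.q R0Q036.q751_7) (q_cons (Vale.Agent.P032.Lt.q R0Q036.q751_8) (q_cons (Vale.Agent.P032.Lt.q R0Q036.q751_9) (q_cons (Vale.Agent.P032.Lt.q R0Q036.q751_10) (q_cons (Vale.Agent.P032.Lt.q R0Q036.q751_11) (q_cons (Vale.Agent.P032.Lt.q R0Q036.q751_12) q_nil))))))))))))))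

theorem p752 : Pat 73 73 TBm TCm (CB.map Fm) R0Q036.P752 R0Q036.I752 := Vale.Agent.P032.Lt.pat_eq (E' := R0Q036.E) eB (pat_step (by decide +kernel) (q_cons (Vale.Agent.P032.Lt.q R0Q036.q752_0) q_nil))

theorem p753 : Pat 73 73 TBm TCm (CB.map Fm) R0Q036.P753 R0Q036.I753 := Vale.Agent.P032.Lt.pat_eq (E' := R0Q036.E) eB (pat_step (by decide +kernel) (q_cons (Vale.Agent.P032.Lt.q R0Q036.q753_0) (q_cons (Vale.Agent.P032.Lt.q R0Q036.q753_1) (q_cons (Vale.Agent.P032.Lt.q R0Q036.q753_2) (q_cons (Vale.Agent.P032.Lt.q R0Q036.q753_3) (q_cons (Vale.Agent.P032.Lt.q R0Q036.q753_4) (q_cons (Vale.Agent.P032.Lt.q R0Q036.q753_5) (q_cons (Vale.Agent.P032.Lt.q R0Q036.q753_6) (q_cons (Vale.Agent.P032.Lt.q R0Q036.q753_7) (q_cons (Vale.Agent.P032.Lt.q R0Q036.q753_8) q_nil))))))))))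

theorem p754 : Pat 73 73 TBm TCm (CB.map Fm) R0Q036.P754 R0Q036.I754 := Vale.Agent.P032.Lt.pat_eq (E' := R0Q036.E) eB (pat_step (by decide +kernel) (q_cons (Vale.Agent.P032.Lt.q R0Q036.q754_0) (q_cons (Vale.Agent.P032.Lt.q R0Q036.q754_1) (q_cons (Vale.Agent.P032.Lt.q R0Q036.q754_2) (q_cons (Vale.Agent.P032.Lt.q R0Q036.q754_3) (q_cons (Vale.Agent.P032.Lt.q R0Q036.q754_4) (q_cons (Vale.Agent.P032.Lt.q R0Q036.q754_5) (q_cons (Vale.Agent.P032.Lt.q R0Q036.q754_6) q_nil))))))))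

theorem p755 : Pat 73 73 TBm TCm (CB.map Fm) R0Q036.P755 R0Q036.I755 := Vale.Agent.P032.Lt.pat_eq (E' := R0Q036.E) eB (pat_step (by decide +kernel) (q_cons (Vale.Agent.P032.Lt.q R0Q036.q755_0) (q_cons (Vale.Agent.P032.Lt.q R0Q036.q755_1) q_nil)))

theorem p756 : Pat 73 73 TBm TCm (CB.map Fm) R0Q036.P756 R0Q036.I756 := Vale.Agent.P032.Lt.pat_eq (E' := R0Q036.E) eB (pat_step (by decide +kernel) (q_cons (Vale.Agent.P032.Lt.q R0Q036.q756_0) (q_cons (Vale.Agent.P032.Lt.q R0Q036.q756_1) q_nil)))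

theorem p757 : Pat 73 73 TBm TCm (CB.map Fm) R0Q036.P757 R0Q036.I757 := Vale.Agent.P032.Lt.pat_eq (E' := R0Q036.E) eB (pat_step (by decide +kernel) (q_cons (Vale.Agent.P032.Lt.q R0Q036.q757_0) (q_cons (Vale.Agent.P032.Lt.q R0Q036.q757_1) q_nil)))

theorem p758 : Pat 73 73 TBm TCm (CB.map Fm) R0Q036.P758 R0Q036.I758 := Vale.Agent.P032.Lt.pat_eq (E' := R0Q036.E) eB (pat_step (by decide +kernel) (q_cons (Vale.Agent.P032.Lt.q R0Q036.q758_0) (q_cons (Vale.Agent.P032.Lt.q R0Q036.q758_1) q_nil)))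

theorem p759 : Pat 73 73 TBm TCm (CB.map Fm) R0Q036.P759 R0Q036.I759 := Vale.Agent.P032.Lt.pat_eq (E' := R0Q036.E) eB (pat_step (by decide +kernel) (q_cons (Vale.Agent.P032.Lt.q R0Q036.q759_0) (q_cons (Vale.Agent.P032.Lt.q R0Q036.q759_1) (q_cons (Vale.Agent.P032.Lt.q R0Q036.q759_2) (q_cons (Vale.Agent.P032.Lt.q R0Q036.q759_3) (q_cons (Vale.Agent.P032.Lt.q R0Q036.q759_4) (q_cons (Vale.Agent.P032.Lt.q R0Q036.q759_5) (q_cons (Vale.Agent.P032.Lt.q R0Q036.q759_6) (q_cons (Vale.Agent.P032.Lt.q R0Q036.q759_7) (q_cons (Vale.Agent.P032.Lt.q R0Q036.q759_8) (q_cons (Vale.Agent.P032.Lt.q R0Q036.q759_9) (q_cons (Vale.Agent.P032.Lt.q R0Q036.q759_10) (q_cons (Vale.Agent.P032.Lt.q R0Q036.q759_11) (q_cons (Vale.Agent.P032.Lt.q R0Q036.q759_12) (q_cons (Vale.Agent.P032.Lt.q R0Q036.q759_13) (q_cons (Vale.Agent.P032.Lt.q R0Q036.q759_14) q_nil))))))))))))))))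

theorem p760 : Pat 73 73 TBm TCm (CB.map Fm) R0Q036.P760 R0Q036.I760 := Vale.Agent.P032.Lt.pat_eq (E' := R0Q036.E) eB (pat_step (by decide +kernel) (q_cons (Vale.Agent.P032.Lt.q R0Q036.q760_0) (q_cons (Vale.Agent.P032.Lt.q R0Q036.q760_1) q_nil)))

theorem p761 : Pat 73 73 TBm TCm (CB.map Fm) R0Q036.P761 R0Q036.I761 := Vale.Agent.P032.Lt.pat_eq (E' := R0Q036.E) eB (pat_step (by decide +kernel) (q_cons (Vale.Agent.P032.Lt.q R0Q036.q761_0) (q_cons (Vale.Agent.P032.Lt.q R0Q036.q761_1) q_nil)))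

theorem p762 : Pat 73 73 TBm TCm (CB.map Fm) R0Q037.P762 R0Q037.I762 := Vale.Agent.P032.Lt.pat_eq (E' := R0Q037.E) eB (pat_step (by decide +kernel) (q_cons (Vale.Agent.P032.Lt.q R0Q037.q762_0) (q_cons (Vale.Agent.P032.Lt.q R0Q037.q762_1) q_nil)))

theorem p763 : Pat 73 73 TBm TCm (CB.map Fm) R0Q037.P763 R0Q037.I763 := Vale.Agent.P032.Lt.pat_eq (E' := R0Q037.E) eB (pat_step (by decide +kernel) (q_cons (Vale.Agent.P032.Lt.q R0Q037.q763_0) (q_cons (Vale.Agent.P032.Lt.q R0Q037.q763_1) (q_cons (Vale.Agent.P032.Lt.q R0Q037.q763_2) (q_cons (Vale.Agent.P032.Lt.q R0Q037.q763_3) (q_cons (Vale.Agent.P032.Lt.q R0Q037.q763_4) (q_cons (Vale.Agent.P032.Lt.q R0Q037.q763_5) (q_cons (Vale.Agent.P032.Lt.q R0Q037.q763_6) q_nil))))))))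

theorem p764 : Pat 73 73 TBm TCm (CB.map Fm) R0Q037.P764 R0Q037.I764 := Vale.Agent.P032.Lt.pat_eq (E' := R0Q037.E) eB (pat_step (by decide +kernel) (q_cons (Vale.Agent.P032.Lt.q R0Q037.q764_0) (q_cons (Vale.Agent.P032.Lt.q R0Q037.q764_1) (q_cons (Vale.Agent.P032.Lt.q R0Q037.q764_2) (q_cons (Vale.Agent.P032.Lt.q R0Q037.q764_3) q_nil)))))

theorem p765 : Pat 73 73 TBm TCm (CB.map Fm) R0Q037.P765 R0Q037.I765 := Vale.Agent.P032.Lt.pat_eq (E' := R0Q037.E) eB (pat_step (by decide +kernel) (q_cons (Vale.Agent.P032.Lt.q R0Q037.q765_0) q_nil))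

theorem p766 : Pat 73 73 TBm TCm (CB.map Fm) R0Q037.P766 R0Q037.I766 := Vale.Agent.P032.Lt.pat_eq (E' := R0Q037.E) eB (pat_step (by decide +kernel) (q_cons (Vale.Agent.P032.Lt.q R0Q037.q766_0) q_nil))

theorem p767 : Pat 73 73 TBm TCm (CB.map Fm) R0Q037.P767 R0Q037.I767 := Vale.Agent.P032.Lt.pat_eq (E' := R0Q037.E) eB (pat_step (by decide +kernel) (q_cons (Vale.Agent.P032.Lt.q R0Q037.q767_0) (q_cons (Vale.Agent.P032.Lt.q R0Q037.q767_1) (q_cons (Vale.Agent.P032.Lt.q R0Q037.q767_2) (q_cons (Vale.Agent.P032.Lt.q R0Q037.q767_3) (q_cons (Vale.Agent.P032.Lt.q R0Q037.q767_4) (q_cons (Vale.Agent.P032.Lt.q R0Q037.q767_5) (q_cons (Vale.Agent.P032.Lt.q R0Q037.q767_6) q_nil))))))))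

def L : List (List ℕ) := [R0Q031.P640, R0Q031.P641, R0Q031.P642, R0Q031.P643, R0Q031.P644, R0Q031.P645, R0Q031.P646, R0Q031.P647, R0Q031.P648, R0Q031.P649, R0Q031.P650, R0Q031.P651, R0Q031.P652, R0Q031.P653, R0Q031.P654, R0Q031.P655, R0Q032.P656, R0Q032.P657, R0Q032.P658, R0Q032.P659, R0Q032.P660, R0Q032.P661, R0Q032.P662, R0Q032.P663, R0Q032.P664, R0Q032.P665, R0Q032.P666, R0Q032.P667, R0Q032.P668, R0Q032.P669, R0Q033.P670, R0Q033.P671, R0Q033.P672, R0Q033.P673, R0Q033.P674, R0Q033.P675, R0Q033.P676, R0Q033.P677, R0Q033.P678, R0Q033.P679, R0Q033.P680, R0Q033.P681, R0Q033.P682, R0Q033.P683, R0Q033.P684, R0Q033.P685, R0Q033.P686, R0Q033.P687, R0Q033.P688, R0Q034.P689, R0Q034.P690, R0Q034.P691, R0Q034.P692, R0Q034.P693, R0Q034.P694, R0Q034.P695, R0Q034.P696, R0Q034.P697, R0Q034.P698, R0Q034.P699, R0Q034.P700, R0Q034.P701, R0Q034.P702, R0Q034.P703, R0Q034.P704,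 R0Q034.P705, R0Q034.P706, R0Q034.P707, R0Q035.P708, R0Q035.P709, R0Q035.P710, R0Q035.P711, R0Q035.P712, R0Q035.P713, R0Q035.P714, R0Q035.P715, R0Q035.P716, R0Q035.P717, R0Q035.P718, R0Q035.P719, R0Q035.P720, R0Q035.P721, R0Q035.P722, R0Q035.P723, R0Q035.P724, R0Q035.P725, R0Q035.P726, R0Q035.P727, R0Q035.P728, R0Q035.P729, R0Q035.P730, R0Q035.P731, R0Q035.P732, R0Q035.P733, R0Q036.P734, R0Q036.P735, R0Q036.P736, R0Q036.P737, R0Q036.P738, R0Q036.P739, R0Q036.P740, R0Q036.P741, R0Q036.P742, R0Q036.P743, R0Q036.P744, R0Q036.P745, R0Q036.P746, R0Q036.P747, R0Q036.P748, R0Q036.P749, R0Q036.P750, R0Q036.P751, R0Q036.P752, R0Q036.P753, R0Q036.P754, R0Q036.P755, R0Q036.P756, R0Q036.P757, R0Q036.P758, R0Q036.P759, R0Q036.P760, R0Q036.P761, R0Q037.P762, R0Q037.P763, R0Q037.P764, R0Q037.P765, R0Q037.P766, R0Q037.P767]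

theorem all : ∀ P ∈ L, CrtF 73 73 TBm TCm (Vale.Agent.P032.Fam.fam2 (Vale.Agent.P032.Fam.im0)) P := crtF_cons p640 (crtF_cons p641 (crtF_cons p642 (crtF_cons p643 (crtF_cons p644 (crtF_cons p645 (crtF_cons p646 (crtF_cons p647 (crtF_cons p648 (crtF_cons p649 (crtF_cons p650 (crtF_cons p651 (crtF_cons p652 (crtF_cons p653 (crtF_cons p654 (crtF_cons p655 (crtF_cons p656 (crtF_cons p657 (crtF_cons p658 (crtF_cons p659 (crtF_cons p660 (crtF_cons p661 (crtF_cons p662 (crtF_cons p663 (crtF_cons p664 (crtF_cons p665 (crtF_cons p666 (crtF_cons p667 (crtF_cons p668 (crtF_cons p669 (crtF_cons p670 (crtF_cons p671 (crtF_cons p672 (crtF_cons p673 (crtF_cons p674 (crtF_cons p675 (crtF_cons p676 (crtF_cons p677 (crtF_cons p678 (crtF_cons p679 (crtF_cons p680 (crtF_cons p681 (crtF_cons p682 (crtF_cons p683 (crtF_cons p684 (crtF_cons p685 (crtF_cons p686 (crtF_cons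 p687 (crtF_cons p688 (crtF_cons p689 (crtF_cons p690 (crtF_cons p691 (crtF_cons p692 (crtF_cons p693 (crtF_cons p694 (crtF_cons p695 (crtF_cons p696 (crtF_cons p697 (crtF_cons p698 (crtF_cons p699 (crtF_cons p700 (crtF_cons p701 (crtF_cons p702 (crtF_cons p703 (crtF_cons p704 (crtF_cons p705 (crtF_cons p706 (crtF_cons p707 (crtF_cons p708 (crtF_cons p709 (crtF_cons p710 (crtF_cons p711 (crtF_cons p712 (crtF_cons p713 (crtF_cons p714 (crtF_cons p715 (crtF_cons p716 (crtF_cons p717 (crtF_cons p718 (crtF_cons p719 (crtF_cons p720 (crtF_cons p721 (crtF_cons p722 (crtF_cons p723 (crtF_cons p724 (crtF_cons p725 (crtF_cons p726 (crtF_cons p727 (crtF_cons p728 (crtF_cons p729 (crtF_cons p730 (crtF_cons p731 (crtF_cons p732 (crtF_cons p733 (crtF_cons p734 (crtF_cons p735 (crtF_cons p736 (crtF_cons p737 (crtF_cons p738 (crtF_cons p739 (crtF_cons p740 (crtF_cons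 p741 (crtF_cons p742 (crtF_cons p743 (crtF_cons p744 (crtF_cons p745 (crtF_cons p746 (crtF_cons p747 (crtF_cons p748 (crtF_cons p749 (crtF_cons p750 (crtF_cons p751 (crtF_cons p752 (crtF_cons p753 (crtF_cons p754 (crtF_cons p755 (crtF_cons p756 (crtF_cons p757 (crtF_cons p758 (crtF_cons p759 (crtF_cons p760 (crtF_cons p761 (crtF_cons p762 (crtF_cons p763 (crtF_cons p764 (crtF_cons p765 (crtF_cons p766 (crtF_cons p767 crtF_nil)))))))))))))))))))))))))))))))))))))))))))))))))))))))))))))))))))))))))))))))))))))))))))))))))))))))))))))))))))))))))))))))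

theorem ch : chT 73 73 TCm s0_005 L = true := by decide +kernel

end Vale.Agent.P032X.Cert.XP.B1b.R0H005
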