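import Vale.Agent.P032X.H892.LtH
import Vale.Agent.P032X.H286.W73
import Vale.Agent.P032X.Cert.XP.B1b.R0T
import Vale.Agent.P032X.Cert.XP.B1b.R0Q038

set_option maxRecDepth 1000000

namespace Vale.Agent.P032X.Cert.XP.B1b.R0H006

open Vale.Agent.P032.H820.K Vale.Agent.P032.H357.MK Vale.Agent.P032.H286.E Vale.Agent.P032.H61 Vale.Agent.P032X.Cert.XP.B1b

noncomputable abbrev Fm : ℕ → List ℕ := Vale.Agent.P032.Fam.fam2 (Vale.Agent.P032.Fam.im0)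

def CB : List ℕ := [0, 4, 8, 12, 16, 20, 24]

theorem eB : Vale.Agent.P032.Lt.eqLL (CB.map Fm) R0Q038.E = true := by decide +kernel

theorem p768 : Pat 73 73 TBm TCm (CB.map Fm) R0Q038.P768 R0Q038.I768 := Vale.Agent.P032.Lt.pat_eq (E' := R0Q038.E) eB (pat_step (by decide +kernel) (q_cons (Vale.Agent.P032.Lt.q R0Q038.q768_0) (q_cons (Vale.Agent.P032.Lt.q R0Q038.q768_1) (q_cons (Vale.Agent.P032.Lt.q R0Q038.q768_2) q_nil))))

theorem p769 : Pat 73 73 TBm TCm (CB.map Fm) R0Q038.P769 R0Q038.I769 := Vale.Agent.P032.Lt.pat_eq (E' := R0Q038.E) eB (pat_step (by decide +kernel) (q_cons (Vale.Agent.P032.Lt.q R0Q038.q769_0) (q_cons (Vale.Agent.P032.Lt.q R0Q038.q769_1) (q_cons (Vale.Agent.P032.Lt.q R0Q038.q769_2) (q_cons (Vale.Agent.P032.Lt.q R0Q038.q769_3) (q_cons (Vale.Agent.P032.Lt.q R0Q038.q769_4) (q_cons (Vale.Agent.P032.Lt.q R0Q038.q769_5) (q_cons (Vale.Agent.P032.Lt.q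 R0Q038.q769_6) (q_cons (Vale.Agent.P032.Lt.q R0Q038.q769_7) (q_cons (Vale.Agent.P032.Lt.q R0Q038.q769_8) (q_cons (Vale.Agent.P032.Lt.q R0Q038.q769_9) (q_cons (Vale.Agent.P032.Lt.q R0Q038.q769_10) (q_cons (Vale.Agent.P032.Lt.q R0Q038.q769_11) (q_cons (Vale.Agent.P032.Lt.q R0Q038.q769_12) (q_cons (Vale.Agent.P032.Lt.q R0Q038.q769_13) (q_cons (Vale.Agent.P032.Lt.q R0Q038.q769_14) (q_cons (Vale.Agent.P032.Lt.q R0Q038.q769_15) (q_cons (Vale.Agent.P032.Lt.q R0Q038.q769_16) q_nil))))))))))))))))))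

theorem p770 : Pat 73 73 TBm TCm (CB.map Fm) R0Q038.P770 R0Q038.I770 := Vale.Agent.P032.Lt.pat_eq (E' := R0Q038.E) eB (pat_step (by decide +kernel) (q_cons (Vale.Agent.P032.Lt.q R0Q038.q770_0) (q_cons (Vale.Agent.P032.Lt.q R0Q038.q770_1) (q_cons (Vale.Agent.P032.Lt.q R0Q038.q770_2) (q_cons (Vale.Agent.P032.Lt.q R0Q038.q770_3) (q_cons (Vale.Agent.P032.Lt.q R0Q038.q770_4) q_nil))))))

theorem p771 : Pat 73 73 TBm TCm (CB.map Fm) R0Q038.P771 R0Q038.I771 := Vale.Agent.P032.Lt.pat_eq (E' := R0Q038.E) eB (pat_step (by decide +kernel) (q_cons (Vale.Agent.P032.Lt.q R0Q038.q771_0) (q_cons (Vale.Agent.P032.Lt.q R0Q038.q771_1) (q_cons (Vale.Agent.P032.Lt.q R0Q038.q771_2) (q_cons (Vale.Agent.P032.Lt.q R0Q038.q771_3) (q_cons (Vale.Agent.P032.Lt.q R0Q038.q771_4) (q_cons (Vale.Agent.P032.Lt.q R0Q038.q771_5) (q_cons (Vale.Agent.P032.Lt.q R0Q038.q771_6) q_nil))))))))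

theorem p772 : Pat 73 73 TBm TCm (CB.map Fm) R0Q038.P772 R0Q038.I772 := Vale.Agent.P032.Lt.pat_eq (E' := R0Q038.E) eB (pat_step (by decide +kernel) (q_cons (Vale.Agent.P032.Lt.q R0Q038.q772_0) (q_cons (Vale.Agent.P032.Lt.q R0Q038.q772_1) (q_cons (Vale.Agent.P032.Lt.q R0Q038.q772_2) (q_cons (Vale.Agent.P032.Lt.q R0Q038.q772_3) q_nil)))))

theorem p773 : Pat 73 73 TBm TCm (CB.map Fm) R0Q038.P773 R0Q038.I773 := Vale.Agent.P032.Lt.pat_eq (E' := R0Q038.E) eB (pat_step (by decide +kernel) (q_cons (Vale.Agent.P032.Lt.q R0Q038.q773_0) (q_cons (Vale.Agent.P032.Lt.q R0Q038.q773_1) (q_cons (Vale.Agent.P032.Lt.q R0Q038.q773_2) (q_cons (Vale.Agent.P032.Lt.q R0Q038.q773_3) (q_cons (Vale.Agent.P032.Lt.q R0Q038.q773_4) (q_cons (Vale.Agent.P032.Lt.q R0Q038.q773_5) (q_cons (Vale.Agent.P032.Lt.q R0Q038.q773_6) (q_cons (Vale.Agent.P032.Lt.q R0Q038.q773_7) (q_cons (Vale.Agent.P032.Lt.q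 R0Q038.q773_8) q_nil))))))))))

theorem p774 : Pat 73 73 TBm TCm (CB.map Fm) R0Q038.P774 R0Q038.I774 := Vale.Agent.P032.Lt.pat_eq (E' := R0Q038.E) eB (pat_step (by decide +kernel) (q_cons (Vale.Agent.P032.Lt.q R0Q038.q774_0) q_nil))

theorem p775 : Pat 73 73 TBm TCm (CB.map Fm) R0Q038.P775 R0Q038.I775 := Vale.Agent.P032.Lt.pat_eq (E' := R0Q038.E) eB (pat_step (by decide +kernel) (q_cons (Vale.Agent.P032.Lt.q R0Q038.q775_0) q_nil))

def C776 : List ℕ := [0, 4, 8, 12, 16, 20, 24, 83969, 475137, 606209, 738305]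
theorem p776 : Pat 73 73 TBm TCm (C776.map Fm) R0Q038.P776 R0Q038.I776 := Vale.Agent.P032.Lt.pat_eq (E' := R0Q038.E776) (by decide +kernel) (pat_step (by decide +kernel) (q_cons (Vale.Agent.P032.Lt.q R0Q038.q776_0) (q_cons (Vale.Agent.P032.Lt.q R0Q038.q776_1) (q_cons (Vale.Agent.P032.Lt.q R0Q038.q776_2) (q_cons (Vale.Agent.P032.Lt.q R0Q038.q776_3) (q_cons (Vale.Agent.P032.Lt.q R0Q038.q776_4) q_nil))))))

theorem p777 : Pat 73 73 TBm TCm (CB.map Fm) R0Q038.P777 R0Q038.I777 := Vale.Agent.P032.Lt.pat_eq (E' := R0Q038.E) eB (pat_step (by decide +kernel) (q_cons (Vale.Agent.P032.Lt.q R0Q038.q777_0) (q_cons (Vale.Agent.P032.Lt.q R0Q038.q777_1) (q_cons (Vale.Agent.P032.Lt.q R0Q038.q777_2) (q_cons (Vale.Agent.P032.Lt.q R0Q038.q777_3) q_nil)))))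

theorem p778 : Pat 73 73 TBm TCm (CB.map Fm) R0Q038.P778 R0Q038.I778 := Vale.Agent.P032.Lt.pat_eq (E' := R0Q038.E) eB (pat_step (by decide +kernel) (q_cons (Vale.Agent.P032.Lt.q R0Q038.q778_0) (q_cons (Vale.Agent.P032.Lt.q R0Q038.q778_1) (q_cons (Vale.Agent.P032.Lt.q R0Q038.q778_2) (q_cons (Vale.Agent.P032.Lt.q R0Q038.q778_3) (q_cons (Vale.Agent.P032.Lt.q R0Q038.q778_4) (q_cons (Vale.Agent.P032.Lt.q R0Q038.q778_5) (q_cons (Vale.Agent.P032.Lt.q R0Q038.q778_6) q_nil))))))))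

def L : List (List ℕ) := [R0Q038.P768, R0Q038.P769, R0Q038.P770, R0Q038.P771, R0Q038.P772, R0Q038.P773, R0Q038.P774, R0Q038.P775, R0Q038.P776, R0Q038.P777, R0Q038.P778]

theorem all : ∀ P ∈ L, CrtF 73 73 TBm TCm (Vale.Agent.P032.Fam.fam2 (Vale.Agent.P032.Fam.im0)) P := crtF_cons p768 (crtF_cons p769 (crtF_cons p770 (crtF_cons p771 (crtF_cons p772 (crtF_cons p773 (crtF_cons p774 (crtF_cons p775 (crtF_cons p776 (crtF_cons p777 (crtF_cons p778 crtF_nil))))))))))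

theorem ch : chT 73 73 TCm s0_006 L = true := by decide +kernel

end Vale.Agent.P032X.Cert.XP.B1b.R0H006
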