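import Vale.Agent.P032X.H286.W73
import Vale.Agent.P032X.Cert.XP.B1b.R0T
import Vale.Agent.P032X.Cert.XP.B1b.R0H000
import Vale.Agent.P032X.Cert.XP.B1b.R0H001
import Vale.Agent.P032X.Cert.XP.B1b.R0H002
import Vale.Agent.P032X.Cert.XP.B1b.R0H003
import Vale.Agent.P032X.Cert.XP.B1b.R0H004
import Vale.Agent.P032X.Cert.XP.B1b.R0H005
import Vale.Agent.P032X.Cert.XP.B1b.R0H006

namespace Vale.Agent.P032X.Cert.XP.B1b

open Vale.Agent.P032.H820.K Vale.Agent.P032.H357.MK Vale.Agent.P032.H286.E Vale.Agent.P032.H61 Vale.Agent.P032.H61.TF Vale.Agent.P032.BlkE Vale.Agent.P032.BlkS Vale.Agent.P032.H357 Vale.Agent.P032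

theorem d0 : Fam.DQ N55 tr0 := ⟨⟨⟨dq2_of R0H000.ch R0H000.all, dq2_of R0H001.ch R0H001.all⟩, ⟨dq2_of R0H002.ch R0H002.all, dq2_of R0H003.ch R0H003.all⟩⟩, ⟨⟨dq2_of R0H004.ch R0H004.all, dq2_of R0H005.ch R0H005.all⟩, dq2_of R0H006.ch R0H006.all⟩⟩

end Vale.Agent.P032X.Cert.XP.B1b
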